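import Mathlib

/-!
# Averages over the unit circle
-/

open Complex Metric Set Filter Topology ComplexConjugate
open scoped Real

namespace Vale.Agent.Lib.P123.Rmt

set_option linter.unusedSectionVars false

variable {E : Type*} [NormedAddCommGroup E] [NormedSpace ℝ E]

/-- The average over the unit circle. -/
noncomputable def Av (f : ℂ → E) : E := Real.circleAverage f 0 1

/-- Continuity on the unit circle. -/
def Cs (f : ℂ → E) : Prop := ContinuousOn f (sphere (0 : ℂ) 1)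

lemma Cs.ci {f : ℂ → E} (h : Cs f) : CircleIntegrable f 0 1 :=
  ContinuousOn.circleIntegrable (by norm_num) h

lemma av_congr {f k : ℂ → E} (h : ∀ v ∈ sphere (0 : ℂ) 1, f v = k v) : Av f = Av k := by
  unfold Av
  apply Real.circleAverage_congr_sphere
  intro v hv
  apply h
  simpa using hv

lemma av_mean {F : Type*} [NormedAddCommGroup F] [NormedSpace ℂ F] [CompleteSpace F] {f : ℂ → F}
    (hf : DiffContOnCl ℂ f (ball 0 1)) : Av f = f 0 := by
  have h := DiffContOnCl.circleAverage (c := 0) (R := 1) (by simpa using hf)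
  unfold Av
  exact h

lemma av_add {f k : ℂ → E} (hf : Cs f) (hk : Cs k) : Av (fun v => f v + k v) = Av f + Av k :=
  Real.circleAverage_fun_add hf.ci hk.ci

lemma av_sub {f k : ℂ → E} (hf : Cs f) (hk : Cs k) : Av (fun v => f v - k v) = Av f - Av k :=
  Real.circleAverage_fun_sub hf.ci hk.ci

lemma av_smul {𝕜 : Type*} [NormedDivisionRing 𝕜] [Module 𝕜 E] [NormSMulClass 𝕜 E]
    [SMulCommClass ℝ 𝕜 E] (c : 𝕜) (f : ℂ → E) : Av (fun v => c • f v) = c • Av f :=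
  Real.circleAverage_fun_smul

lemma av_const [CompleteSpace E] (a : E) : Av (fun _ => a) = a := by
  unfold Av
  simpa using Real.circleAverage_const a 0 1

lemma av_sum {ι : Type*} (s : Finset ι) (f : ι → ℂ → E) (h : ∀ i ∈ s, Cs (f i)) :
    Av (fun v => ∑ i ∈ s, f i v) = ∑ i ∈ s, Av (f i) :=
  Real.circleAverage_fun_sum fun i hi => (h i hi).ci

lemma av_mono {f k : ℂ → ℝ} (hf : Cs f) (hk : Cs k) (h : ∀ v ∈ sphere (0 : ℂ) 1, f v ≤ k v) :
    Av f ≤ Av k :=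
  Real.circleAverage_mono hf.ci hk.ci (by simpa using h)

lemma av_nonneg {f : ℂ → ℝ} (h : ∀ v ∈ sphere (0 : ℂ) 1, 0 ≤ f v) : 0 ≤ Av f :=
  Real.circleAverage_nonneg_of_nonneg (by simpa using h)

/-- The average of a complex function commutes with a real-linear map. -/
lemma av_clm {F : Type*} [NormedAddCommGroup F] [NormedSpace ℝ F] [CompleteSpace F]
    [CompleteSpace E] (L : E →L[ℝ] F) {f : ℂ → E} (hf : Cs f) :
    Av (fun v => L (f v)) = L (Av f) :=
  L.circleAverage_comp_comm hf.ci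

lemma av_conj {f : ℂ → ℂ} (hf : Cs f) : Av (fun v => conj (f v)) = conj (Av f) :=
  av_clm (Complex.conjCLE : ℂ →L[ℝ] ℂ) hf

lemma av_re {f : ℂ → ℂ} (hf : Cs f) : Av (fun v => (f v).re) = (Av f).re :=
  av_clm Complex.reCLM hf

lemma av_ofReal {f : ℂ → ℝ} (hf : Cs f) : Av (fun v => (f v : ℂ)) = ((Av f : ℝ) : ℂ) :=
  av_clm Complex.ofRealCLM hf

lemma Cs.add {f k : ℂ → ℂ} (hf : Cs f) (hk : Cs k) : Cs (fun v => f v + k v) :=
  ContinuousOn.add hf hk
lemma Cs.sub {f k : ℂ → ℂ} (hf : Cs f) (hk : Cs k) : Cs (fun v => f v - k v) :=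
  ContinuousOn.sub hf hk
lemma Cs.mul {f k : ℂ → ℂ} (hf : Cs f) (hk : Cs k) : Cs (fun v => f v * k v) :=
  ContinuousOn.mul hf hk
lemma Cs.conj {f : ℂ → ℂ} (hf : Cs f) : Cs (fun v => starRingEnd ℂ (f v)) :=
  Complex.continuous_conj.comp_continuousOn hf
lemma Cs.normSq {f : ℂ → ℂ} (hf : Cs f) : Cs (fun v => ‖f v‖ ^ 2) :=
  (ContinuousOn.norm hf).pow 2
lemma Cs.re {f : ℂ → ℂ} (hf : Cs f) : Cs (fun v => (f v).re) :=
  Complex.continuous_re.comp_continuousOn hf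
lemma Cs.ofReal {f : ℂ → ℝ} (hf : Cs f) : Cs (fun v => (f v : ℂ)) :=
  Complex.continuous_ofReal.comp_continuousOn hf
lemma cs_const (a : ℂ) : Cs (fun _ : ℂ => a) := continuousOn_const
lemma cs_id : Cs (fun v : ℂ => v) := continuousOn_id
lemma cs_inv : Cs (fun v : ℂ => v⁻¹) := by
  refine ContinuousOn.inv₀ continuousOn_id ?_
  intro v hv
  have : ‖v‖ = 1 := by simpa using hv
  intro h
  simp [h] at this

/-- The quadratic form inequality behind Cauchy-Schwarz. -/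
lemma quad_cs {A N : ℝ} {W : ℂ} (hN : 0 ≤ N)
    (h : ∀ c : ℂ, 0 ≤ A - 2 * (conj c * W).re + ‖c‖ ^ 2 * N) : ‖W‖ ^ 2 ≤ A * N := by
  have hW : 0 ≤ ‖W‖ ^ 2 := by positivity
  have hkey : ∀ τ : ℝ, 0 ≤ A - 2 * τ * ‖W‖ ^ 2 + τ ^ 2 * ‖W‖ ^ 2 * N := by
    intro τ
    have h1 := h ((τ : ℂ) * W)
    have h2 : (conj ((τ : ℂ) * W) * W).re = τ * ‖W‖ ^ 2 := by
      have : conj ((τ : ℂ) * W) * W = ((τ * ‖W‖ ^ 2 : ℝ) : ℂ) := by
        rw [map_mul, Complex.conj_ofReal, mul_assoc, Complex.conj_mul']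
        push_cast
        ring
      rw [this, Complex.ofReal_re]
    have h3 : ‖(τ : ℂ) * W‖ ^ 2 = τ ^ 2 * ‖W‖ ^ 2 := by
      rw [norm_mul, Complex.norm_real, mul_pow, Real.norm_eq_abs, sq_abs]
    rw [h2, h3] at h1
    nlinarith
  by_cases hN0 : N = 0
  · subst hN0
    by_contra hcon
    have hW0 : 0 < ‖W‖ ^ 2 := by
      by_contra h5
      have : ‖W‖ ^ 2 = 0 := le_antisymm (not_lt.1 h5) hW
      rw [this] at hcon
      simp at hcon
    have h6 := hkey ((A + 1) / (2 * ‖W‖ ^ 2))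
    have h7 : 2 * ((A + 1) / (2 * ‖W‖ ^ 2)) * ‖W‖ ^ 2 = A + 1 := by
      generalize ‖W‖ ^ 2 = X at hW0
      have hX : X ≠ 0 := ne_of_gt hW0
      field_simp
    rw [h7] at h6
    nlinarith
  · have hNpos : 0 < N := lt_of_le_of_ne hN (Ne.symm hN0)
    by_cases hW0 : ‖W‖ ^ 2 = 0
    · rw [hW0]
      have h6 := h 0
      simp at h6
      nlinarith
    · have h6 := hkey (1 / N)
      have h7 : 2 * (1 / N) * ‖W‖ ^ 2 = 2 * (‖W‖ ^ 2 / N) := by ring
      have h8 : (1 / N) ^ 2 * ‖W‖ ^ 2 * N = ‖W‖ ^ 2 / N := by field_simp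
      rw [h7, h8] at h6
      have h9 : ‖W‖ ^ 2 / N ≤ A := by linarith
      rw [div_le_iff₀ hNpos] at h9
      exact h9

/-- Weighted Cauchy-Schwarz on the circle. -/
lemma av_cs_weight {u : ℂ → ℂ} {n : ℂ → ℝ} (hu : Cs u) (hn : Cs n)
    (hpos : ∀ v ∈ sphere (0 : ℂ) 1, 0 ≤ n v) :
    ‖Av (fun v => u v * (n v : ℂ))‖ ^ 2 ≤ Av (fun v => ‖u v‖ ^ 2 * n v) * Av n := by
  refine quad_cs (av_nonneg hpos) fun c => ?_
  have hun : Cs (fun v => u v * (n v : ℂ)) := hu.mul hn.ofReal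
  have hform : ∀ v, ‖u v - c‖ ^ 2 * n v = ‖u v‖ ^ 2 * n v -
      2 * (conj c * (u v * (n v : ℂ))).re + ‖c‖ ^ 2 * n v := by
    intro v
    have h1 : ‖u v - c‖ ^ 2 = ‖u v‖ ^ 2 - 2 * (conj c * u v).re + ‖c‖ ^ 2 := by
      rw [← Complex.normSq_eq_norm_sq, ← Complex.normSq_eq_norm_sq, ← Complex.normSq_eq_norm_sq,
        Complex.normSq_sub]
      simp [Complex.mul_re]
      ring
    have h2 : (conj c * (u v * (n v : ℂ))).re = (conj c * u v).re * n v := by
      rw [← mul_assoc, Complex.re_mul_ofReal]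
    rw [h1, h2]
    ring
  have h0 : 0 ≤ Av (fun v => ‖u v - c‖ ^ 2 * n v) :=
    av_nonneg fun v hv => mul_nonneg (by positivity) (hpos v hv)
  have hc1 : Cs (fun v => ‖u v‖ ^ 2 * n v) := ContinuousOn.mul hu.normSq hn
  have hc2 : Cs (fun v => (2 * (conj c * (u v * (n v : ℂ))).re : ℝ)) :=
    continuousOn_const.mul (((cs_const (conj c)).mul hun).re)
  have hc3 : Cs (fun v => ‖c‖ ^ 2 * n v) := continuousOn_const.mul hn
  have heq : Av (fun v => ‖u v - c‖ ^ 2 * n v) = Av (fun v => ‖u v‖ ^ 2 * n v) -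
      2 * (conj c * Av (fun v => u v * (n v : ℂ))).re + ‖c‖ ^ 2 * Av n := by
    rw [av_congr (k := fun v => (‖u v‖ ^ 2 * n v - (2 * (conj c * (u v * (n v : ℂ))).re)) +
      ‖c‖ ^ 2 * n v) (fun v _ => hform v)]
    have hc12 : Cs (fun v => ‖u v‖ ^ 2 * n v - (2 * (conj c * (u v * (n v : ℂ))).re)) :=
      ContinuousOn.sub hc1 hc2
    rw [av_add hc12 hc3, av_sub hc1 hc2]
    have h3 : Av (fun v => ‖c‖ ^ 2 * n v) = ‖c‖ ^ 2 * Av n := by
      simpa using av_smul (‖c‖ ^ 2) n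
    have h4 : Av (fun v => (2 * (conj c * (u v * (n v : ℂ))).re : ℝ)) =
        2 * (conj c * Av (fun v => u v * (n v : ℂ))).re := by
      have h5 : Av (fun v => (2 * (conj c * (u v * (n v : ℂ))).re : ℝ)) =
          2 * Av (fun v => (conj c * (u v * (n v : ℂ))).re) := by
        simpa using av_smul (2 : ℝ) (fun v => (conj c * (u v * (n v : ℂ))).re)
      rw [h5, av_re ((cs_const (conj c)).mul hun)]
      congr 2
      simpa using av_smul (conj c) (fun v => u v * (n v : ℂ))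
    rw [h3, h4]
  rw [heq] at h0
  exact h0

/-- Cauchy-Schwarz on the circle. -/
lemma av_cs {u w : ℂ → ℂ} (hu : Cs u) (hw : Cs w) :
    ‖Av (fun v => u v * w v)‖ ^ 2 ≤ Av (fun v => ‖u v‖ ^ 2) * Av (fun v => ‖w v‖ ^ 2) := by
  refine quad_cs (av_nonneg fun _ _ => by positivity) fun c => ?_
  have hform : ∀ v, ‖u v - c * conj (w v)‖ ^ 2 = ‖u v‖ ^ 2 -
      2 * (conj c * (u v * w v)).re + ‖c‖ ^ 2 * ‖w v‖ ^ 2 := by
    intro v
    rw [← Complex.normSq_eq_norm_sq, ← Complex.normSq_eq_norm_sq, ← Complex.normSq_eq_norm_sq,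
      ← Complex.normSq_eq_norm_sq, Complex.normSq_sub, Complex.normSq_mul, Complex.normSq_conj]
    have : (u v * conj (c * conj (w v))).re = (conj c * (u v * w v)).re := by
      congr 1
      simp only [map_mul, Complex.conj_conj]
      ring
    rw [this]
    ring
  have h0 : 0 ≤ Av (fun v => ‖u v - c * conj (w v)‖ ^ 2) := av_nonneg fun _ _ => by positivity
  have huw : Cs (fun v => u v * w v) := hu.mul hw
  have hc1 : Cs (fun v => ‖u v‖ ^ 2) := hu.normSq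
  have hc2 : Cs (fun v => (2 * (conj c * (u v * w v)).re : ℝ)) :=
    continuousOn_const.mul (((cs_const (conj c)).mul huw).re)
  have hc3 : Cs (fun v => ‖c‖ ^ 2 * ‖w v‖ ^ 2) := continuousOn_const.mul hw.normSq
  have heq : Av (fun v => ‖u v - c * conj (w v)‖ ^ 2) = Av (fun v => ‖u v‖ ^ 2) -
      2 * (conj c * Av (fun v => u v * w v)).re + ‖c‖ ^ 2 * Av (fun v => ‖w v‖ ^ 2) := by
    rw [av_congr (k := fun v => (‖u v‖ ^ 2 - (2 * (conj c * (u v * w v)).re)) +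
      ‖c‖ ^ 2 * ‖w v‖ ^ 2) (fun v _ => hform v)]
    have hc12 : Cs (fun v => ‖u v‖ ^ 2 - (2 * (conj c * (u v * w v)).re)) :=
      ContinuousOn.sub hc1 hc2
    rw [av_add hc12 hc3, av_sub hc1 hc2]
    have h3 : Av (fun v => ‖c‖ ^ 2 * ‖w v‖ ^ 2) = ‖c‖ ^ 2 * Av (fun v => ‖w v‖ ^ 2) := by
      simpa using av_smul (‖c‖ ^ 2) (fun v => ‖w v‖ ^ 2)
    have h4 : Av (fun v => (2 * (conj c * (u v * w v)).re : ℝ)) =
        2 * (conj c * Av (fun v => u v * w v)).re := by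
      have h5 : Av (fun v => (2 * (conj c * (u v * w v)).re : ℝ)) =
          2 * Av (fun v => (conj c * (u v * w v)).re) := by
        simpa using av_smul (2 : ℝ) (fun v => (conj c * (u v * w v)).re)
      rw [h5, av_re ((cs_const (conj c)).mul huw)]
      congr 2
      simpa using av_smul (conj c) (fun v => u v * w v)
    rw [h3, h4]
  rw [heq] at h0
  exact h0

end Vale.Agent.Lib.P123.Rmt
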