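import Vale.Agent.Lib.P123.Rmt.ExtExists

/-!
# The level maps `g`

For a compact convex set `L` with `0` in its interior, and `η > 0`, a map `g` analytic and injective on
a disc of radius `> 1` with `g 0 = 0`, such that `1 / g v` parametrises a level curve of the exterior
map of `L`, within `η` of `L`, with the positivity properties of the level curves.
-/

namespace Vale.Agent.Lib.P123.Rmt

open Complex Metric Set Filter Topology

/-- The logarithmic derivative `v g'(v) / g(v)`, analytic at `0` with value `1`. -/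
noncomputable def logD (g : ℂ → ℂ) (v : ℂ) : ℂ := deriv g v / dslope g 0 v

/-- The properties of a level map. -/
structure LevelG (L : Set ℂ) (ρ : ℝ) (g : ℂ → ℂ) : Prop where
  one_lt : 1 < ρ
  diff : DifferentiableOn ℂ g (ball 0 ρ)
  zero : g 0 = 0
  inj : InjOn g (ball 0 ρ)
  deriv_ne : ∀ v ∈ ball (0 : ℂ) ρ, deriv g v ≠ 0
  outside : ∀ v ∈ ball (0 : ℂ) ρ, v ≠ 0 → (g v)⁻¹ ∉ L
  kernel : ∀ v₁ v₂ : ℂ, ‖v₁‖ = 1 → ‖v₂‖ = 1 → v₁ ≠ v₂ →
    0 ≤ (logD g v₁ * g v₂ / (g v₂ - g v₁)).re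
  star : ∀ a ∈ L, ∀ v : ℂ, ‖v‖ = 1 → 0 ≤ (logD g v / (1 - a * g v)).re

theorem exists_level {L : Set ℂ} (hLk : IsCompact L) (hLv : Convex ℝ L) {r : ℝ} (hr : 0 < r)
    (hball : ball (0 : ℂ) r ⊆ L) {η : ℝ} (hη : 0 < η) :
    ∃ (ρ : ℝ) (g : ℂ → ℂ), LevelG L ρ g ∧ ∀ v : ℂ, ‖v‖ = 1 → infDist (g v)⁻¹ L < η := by
  obtain ⟨φ, M, hφd, hφ0, hinj, hφ', hM⟩ := exists_disc_extMap hLk hLv hr hball
  have hLn : L.Nonempty := ⟨0, hball (mem_ball_self hr)⟩
  obtain ⟨δ, hδ, hprox⟩ := M.proper_psi η hη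
  set ρ : ℝ := 1 + δ / 2 with hρ
  have hρ1 : 1 < ρ := by rw [hρ]; linarith
  have hρpos : 0 < ρ := by linarith
  set q : ℝ := ρ⁻¹ with hq
  have hqpos : 0 < q := inv_pos.2 hρpos
  have hq1 : q < 1 := inv_lt_one_of_one_lt₀ hρ1
  have hqρ : q * ρ = 1 := by rw [hq]; field_simp
  have hqC : (q : ℂ) ≠ 0 := by exact_mod_cast hqpos.ne'
  set g : ℂ → ℂ := fun v => φ ((q : ℂ) * v) with hg
  have hnorm : ∀ v : ℂ, ‖(q : ℂ) * v‖ = q * ‖v‖ := by
    intro v
    rw [norm_mul, Complex.norm_real, Real.norm_of_nonneg hqpos.le]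
  have hmem : ∀ v ∈ ball (0 : ℂ) ρ, (q : ℂ) * v ∈ ball (0 : ℂ) 1 := by
    intro v hv
    rw [mem_ball_zero_iff] at hv ⊢
    rw [hnorm]
    nlinarith
  have hderφ : ∀ ξ ∈ ball (0 : ℂ) 1, HasDerivAt φ (deriv φ ξ) ξ := fun ξ hξ =>
    (hφd.differentiableAt (isOpen_ball.mem_nhds hξ)).hasDerivAt
  have hderg : ∀ v ∈ ball (0 : ℂ) ρ, HasDerivAt g ((q : ℂ) * deriv φ ((q : ℂ) * v)) v := by
    intro v hv
    have h1 := hderφ _ (hmem v hv)
    have h2 : HasDerivAt (fun v : ℂ => (q : ℂ) * v) (q : ℂ) v := by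
      simpa using (hasDerivAt_id v).const_mul (q : ℂ)
    have := h1.comp v h2
    rw [mul_comm] at this
    exact this
  have hφne : ∀ ξ ∈ ball (0 : ℂ) 1, ξ ≠ 0 → φ ξ ≠ 0 := by
    intro ξ hξ hξ0 h
    exact hξ0 (hinj hξ (by simp) (h.trans hφ0.symm))
  -- the exterior map in terms of `φ`
  have hψ : M.psi = fun w => 0 + (φ w⁻¹)⁻¹ := funext hM
  have hψv : ∀ w, M.psi w = (φ w⁻¹)⁻¹ := by
    intro w
    rw [hM, zero_add]
  have hinvmem : ∀ u : ℂ, 1 < ‖u‖ → u⁻¹ ∈ ball (0 : ℂ) 1 := by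
    intro w hw
    rw [mem_ball_zero_iff, norm_inv]
    exact inv_lt_one_of_one_lt₀ hw
  have hderψ : ∀ u : ℂ, 1 < ‖u‖ →
      u * deriv M.psi u = u⁻¹ * deriv φ u⁻¹ / (φ u⁻¹) ^ 2 := by
    intro u hu
    have hu0 : u ≠ 0 := by
      intro h
      rw [h] at hu
      simp at hu
      linarith
    have hξ := hinvmem u hu
    have h1 := hderφ _ hξ
    have h2 : HasDerivAt (fun w : ℂ => w⁻¹) (-(u ^ 2)⁻¹) u := hasDerivAt_inv hu0
    have h3 : HasDerivAt (fun w : ℂ => φ w⁻¹) (deriv φ u⁻¹ * (-(u ^ 2)⁻¹)) u := h1.comp u h2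
    have hne := hφne _ hξ (inv_ne_zero hu0)
    have h4 := h3.fun_inv hne
    have h5 : deriv M.psi u = -(deriv φ u⁻¹ * (-(u ^ 2)⁻¹)) / (φ u⁻¹) ^ 2 := by
      have h6 : M.psi = fun w => (φ w⁻¹)⁻¹ := funext hψv
      rw [h6]
      exact h4.deriv
    rw [h5]
    field_simp
  -- the logarithmic derivative
  have hlogD : ∀ v : ℂ, v ∈ ball (0 : ℂ) ρ → v ≠ 0 →
      logD g v = ((q : ℂ) * v) * deriv φ ((q : ℂ) * v) / φ ((q : ℂ) * v) := by
    intro v hv hv0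
    have h1 : dslope g 0 v = φ ((q : ℂ) * v) / v := by
      rw [dslope_of_ne _ hv0, slope_def_field]
      simp [hg, hφ0]
    have hne := hφne _ (hmem v hv) (mul_ne_zero hqC hv0)
    rw [logD, (hderg v hv).deriv, h1]
    field_simp
  have hρunit : ∀ v : ℂ, ‖v‖ = 1 → v ∈ ball (0 : ℂ) ρ := by
    intro v hv
    rw [mem_ball_zero_iff, hv]
    exact hρ1
  have hunit_ne : ∀ v : ℂ, ‖v‖ = 1 → v ≠ 0 := by
    intro v hv h
    rw [h] at hv
    simp at hv
  have hwnorm : ∀ v : ℂ, ‖v‖ = 1 → ‖((q : ℂ) * v)⁻¹‖ = ρ := by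
    intro v hv
    rw [norm_inv, hnorm, hv, mul_one, hq, inv_inv]
  refine ⟨ρ, g, ?_, ?_⟩
  · refine ⟨hρ1, fun v hv => (hderg v hv).differentiableAt.differentiableWithinAt, ?_, ?_, ?_, ?_, ?_, ?_⟩
    · simp [hg, hφ0]
    · intro a ha b hb hab
      have := hinj (hmem a ha) (hmem b hb) hab
      exact mul_left_cancel₀ hqC this
    · intro v hv
      rw [(hderg v hv).deriv]
      exact mul_ne_zero hqC (hφ' _ (hmem v hv))
    · intro v hv hv0
      have hw : 1 < ‖((q : ℂ) * v)⁻¹‖ := by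
        rw [norm_inv]
        have h1 : ‖(q : ℂ) * v‖ < 1 := by
          have := hmem v hv
          rwa [mem_ball_zero_iff] at this
        exact (one_lt_inv₀ (norm_pos_iff.2 (mul_ne_zero hqC hv0))).2 h1
      have := M.maps_psi _ hw
      rw [hψv, inv_inv] at this
      exact this
    · intro v₁ v₂ h₁ h₂ hne
      have hw₁ : 1 < ‖((q : ℂ) * v₁)⁻¹‖ := by rw [hwnorm v₁ h₁]; exact hρ1
      have huv : ‖((q : ℂ) * v₂)⁻¹‖ = ‖((q : ℂ) * v₁)⁻¹‖ := by rw [hwnorm v₁ h₁, hwnorm v₂ h₂]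
      have hne' : ((q : ℂ) * v₁)⁻¹ ≠ ((q : ℂ) * v₂)⁻¹ := by
        intro h
        exact hne (mul_left_cancel₀ hqC (inv_injective h))
      have hk := M.kernel_nonneg hLk hLv hLn hw₁ huv hne'
      rw [hderψ _ hw₁, hψv, hψv] at hk
      simp only [inv_inv] at hk
      have hv₁0 := hunit_ne v₁ h₁
      have hv₂0 := hunit_ne v₂ h₂
      have hφ₁ := hφne _ (hmem _ (hρunit v₁ h₁)) (mul_ne_zero hqC hv₁0)
      have hφ₂ := hφne _ (hmem _ (hρunit v₂ h₂)) (mul_ne_zero hqC hv₂0)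
      have hdiff : φ ((q : ℂ) * v₂) - φ ((q : ℂ) * v₁) ≠ 0 := by
        intro h
        apply hne
        exact mul_left_cancel₀ hqC
          (hinj (hmem _ (hρunit v₁ h₁)) (hmem _ (hρunit v₂ h₂)) (sub_eq_zero.1 h).symm)
      have hdiff' : (φ ((q : ℂ) * v₁))⁻¹ - (φ ((q : ℂ) * v₂))⁻¹ ≠ 0 := by
        rw [inv_sub_inv hφ₁ hφ₂]
        exact div_ne_zero hdiff (mul_ne_zero hφ₁ hφ₂)
      have heq : logD g v₁ * g v₂ / (g v₂ - g v₁) =
          (q : ℂ) * v₁ * deriv φ ((q : ℂ) * v₁) / φ ((q : ℂ) * v₁) ^ 2 /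
            ((φ ((q : ℂ) * v₁))⁻¹ - (φ ((q : ℂ) * v₂))⁻¹) := by
        rw [hlogD v₁ (hρunit v₁ h₁) hv₁0, inv_sub_inv hφ₁ hφ₂]
        simp only [hg]
        field_simp
      rw [heq]
      exact hk
    · intro a ha v hv
      have hw : 1 < ‖((q : ℂ) * v)⁻¹‖ := by rw [hwnorm v hv]; exact hρ1
      have hk := M.star_nonneg hLk hLv hLn hw ha
      rw [hderψ _ hw, hψv] at hk
      simp only [inv_inv] at hk
      have hv0 := hunit_ne v hv
      have hφ₁ := hφne _ (hmem _ (hρunit v hv)) (mul_ne_zero hqC hv0)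
      have hnot : (φ ((q : ℂ) * v))⁻¹ ≠ a := by
        intro h
        have := M.maps_psi _ hw
        rw [hψv, inv_inv, h] at this
        exact this ha
      have hden : 1 - a * φ ((q : ℂ) * v) ≠ 0 := by
        intro h
        apply hnot
        have h1 : a * φ ((q : ℂ) * v) = 1 := (sub_eq_zero.1 h).symm
        field_simp
        rw [mul_comm]
        exact h1.symm
      have hden' : (φ ((q : ℂ) * v))⁻¹ - a ≠ 0 := sub_ne_zero.2 hnot
      have heq : logD g v / (1 - a * g v) =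
          (q : ℂ) * v * deriv φ ((q : ℂ) * v) / φ ((q : ℂ) * v) ^ 2 /
            ((φ ((q : ℂ) * v))⁻¹ - a) := by
        rw [hlogD v (hρunit v hv) hv0]
        simp only [hg]
        have h2 : (φ ((q : ℂ) * v))⁻¹ - a = (1 - a * φ ((q : ℂ) * v)) / φ ((q : ℂ) * v) := by
          field_simp
        rw [h2]
        field_simp
      rw [heq]
      exact hk
  · intro v hv
    have hw : 1 < ‖((q : ℂ) * v)⁻¹‖ := by rw [hwnorm v hv]; exact hρ1
    have hw' : ‖((q : ℂ) * v)⁻¹‖ < 1 + δ := by rw [hwnorm v hv, hρ]; linarith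
    have := hprox _ hw hw'
    rw [hψv, inv_inv] at this
    exact this

end Vale.Agent.Lib.P123.Rmt
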