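import Vale.Agent.Lib.P123.Rmt.Bridge
import Vale.Agent.Lib.P123C.Wrap

/-!
# From the main inequality on a level curve to the curve statement `CurveThm`
-/

namespace Vale.Agent.Lib.P123.Rmt

open Complex Metric Set Filter Topology
open scoped InnerProductSpace

open Vale.Agent.Lib.P123C.ReduceFinal

universe u

/-- The main inequality on the level curves. -/
def MainG : Prop :=
  ∀ (H : Type u) [NormedAddCommGroup H] [InnerProductSpace ℂ H] [CompleteSpace H]
    [FiniteDimensional ℂ H] [Nontrivial H] (A : H →L[ℂ] H) (L : Set ℂ) (ρ : ℝ) (g : ℂ → ℂ),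
    LevelG L ρ g → (∀ x : H, ‖x‖ = 1 → ⟪x, A x⟫_ℂ ∈ L) →
    ∀ (p : Polynomial ℂ) (M : ℝ), (∀ v : ℂ, ‖v‖ = 1 → ‖p.eval (g v)⁻¹‖ ≤ M) →
      ‖Polynomial.aeval A p‖ ≤ 2 * M

theorem dot_le_norm' (t : ℝ) (z : ℂ) : dot t z ≤ ‖z‖ := by
  have h1 : dot t z ^ 2 ≤ ‖z‖ ^ 2 := by
    have h2 : ‖z‖ ^ 2 = z.re ^ 2 + z.im ^ 2 := by
      rw [Complex.sq_norm, Complex.normSq_apply]
      ring
    rw [h2, dot]
    have h3 := Real.sin_sq_add_cos_sq t
    nlinarith [sq_nonneg (z.re * Real.sin t - z.im * Real.cos t)]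
  exact abs_le_of_sq_le_sq' h1 (norm_nonneg z) |>.2

theorem curveThm_of_main (h : MainG.{u}) : CurveThm.{u} := by
  intro H _ _ _ _ _ A s hs hspos hc p M hM
  obtain ⟨c, hc0, hA⟩ := hc
  set L : Set ℂ := {z | ∀ t, dot t z ≤ s t} with hL
  have hsc : Continuous s := hs.smooth.continuous
  have hrange : IsCompact (range s) :=
    hs.per.compact_of_continuous (by positivity) hsc
  obtain ⟨smin, ⟨t₀, ht₀⟩, hmin⟩ := hrange.exists_isLeast (range_nonempty s)
  obtain ⟨smax, ⟨t₁, ht₁⟩, hmax⟩ := hrange.exists_isGreatest (range_nonempty s)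
  have hsminpos : 0 < smin := by rw [← ht₀]; exact hspos t₀
  have hclosed : IsClosed L := by
    have : L = ⋂ t, {z : ℂ | dot t z ≤ s t} := by
      ext z
      simp [hL]
    rw [this]
    refine isClosed_iInter fun t => isClosed_le ?_ continuous_const
    unfold dot
    fun_prop
  have hbound : ∀ z ∈ L, ‖z‖ ≤ smax := by
    intro z hz
    have h1 := hz (Complex.arg z)
    have h2 : dot (Complex.arg z) z = ‖z‖ := by
      by_cases hz0 : z = 0
      · simp [hz0, dot]
      · rw [dot]
        have h3 := Complex.norm_mul_cos_arg z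
        have h4 := Complex.norm_mul_sin_arg z
        rw [← h3, ← h4]
        have h5 := Real.sin_sq_add_cos_sq (Complex.arg z)
        have h6 : Real.cos (Complex.arg z) = z.re / ‖z‖ := by
          have hn : ‖z‖ ≠ 0 := norm_ne_zero_iff.2 hz0
          field_simp
          linarith
        have h7 : Real.sin (Complex.arg z) = z.im / ‖z‖ := by
          have hn : ‖z‖ ≠ 0 := norm_ne_zero_iff.2 hz0
          field_simp
          linarith
        calc ‖z‖ * Real.cos (Complex.arg z) * Real.cos (Complex.arg z)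
              + ‖z‖ * Real.sin (Complex.arg z) * Real.sin (Complex.arg z)
            = ‖z‖ * (Real.sin (Complex.arg z) ^ 2 + Real.cos (Complex.arg z) ^ 2) := by ring
          _ = ‖z‖ := by rw [h5, mul_one]
    have h3 : s (Complex.arg z) ≤ smax := hmax ⟨_, rfl⟩
    linarith
  have hcompact : IsCompact L := by
    refine Metric.isCompact_of_isClosed_isBounded hclosed ?_
    refine (isBounded_closedBall (x := (0 : ℂ)) (r := smax)).subset ?_
    intro z hz
    rw [mem_closedBall_zero_iff]
    exact hbound z hz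
  have hconvex : Convex ℝ L := by
    intro z hz w hw a b ha hb hab t
    have h1 := hz t
    have h2 := hw t
    have h3 : dot t (a • z + b • w) = a * dot t z + b * dot t w := by
      simp [dot]
      ring
    rw [h3]
    have h4 : s t = a * s t + b * s t := by
      rw [← add_mul, hab, one_mul]
    rw [h4]
    exact add_le_add (mul_le_mul_of_nonneg_left h1 ha) (mul_le_mul_of_nonneg_left h2 hb)
  have hball : ball (0 : ℂ) smin ⊆ L := by
    intro z hz t
    rw [mem_ball_zero_iff] at hz
    have h1 : smin ≤ s t := hmin ⟨t, rfl⟩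
    have h2 := dot_le_norm' t z
    linarith
  have hW : ∀ x : H, ‖x‖ = 1 → ⟪x, A x⟫_ℂ ∈ L := by
    intro x hx t
    have := hA x hx t
    linarith
  refine le_of_forall_pos_le_add ?_
  intro ε hε
  set ε' : ℝ := ε / 2 with hε'
  have hε'pos : 0 < ε' := by positivity
  -- the neighbourhood of `L`
  have hU : IsOpen {z : ℂ | ‖p.eval z‖ < M + ε'} :=
    isOpen_lt (by fun_prop) continuous_const
  have hLU : L ⊆ {z : ℂ | ‖p.eval z‖ < M + ε'} := by
    intro z hz
    have := hM z hz
    show ‖p.eval z‖ < M + ε'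
    linarith
  obtain ⟨η, hη, hηsub⟩ := hcompact.exists_thickening_subset_open hU hLU
  obtain ⟨ρ, g, hg, hprox⟩ := exists_level hcompact hconvex hsminpos hball hη
  have hfinal := h H A L ρ g hg hW p (M + ε') (by
    intro v hv
    have h1 : (g v)⁻¹ ∈ thickening η L := by
      rw [mem_thickening_iff_infDist_lt ⟨0, hball (mem_ball_self hsminpos)⟩]
      exact hprox v hv
    exact (hηsub h1 : ‖p.eval (g v)⁻¹‖ < M + ε').le)
  have : 2 * (M + ε') = 2 * M + ε := by rw [hε']; ring
  rw [this] at hfinal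
  exact hfinal

end Vale.Agent.Lib.P123.Rmt
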