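import Vale.Agent.Lib.P123.Rmt.Kern

/-!
# The contraction on the analytic part
-/

open Complex Metric Set Filter Topology ComplexConjugate MeasureTheory
open scoped Real

namespace Vale.Agent.Lib.P123.Rmt

set_option linter.unusedSectionVars false
set_option linter.unusedVariables false

section Basic

variable {E : Type*} [NormedAddCommGroup E] [NormedSpace ℝ E]

lemma dc_mul {f k : ℂ → ℂ} {S : Set ℂ} (hf : DiffContOnCl ℂ f S) (hk : DiffContOnCl ℂ k S) :
    DiffContOnCl ℂ (fun x => f x * k x) S := hf.smul hk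

lemma circle_mem (θ : ℝ) : circleMap (0 : ℂ) 1 θ ∈ sphere (0 : ℂ) 1 :=
  circleMap_mem_sphere (0 : ℂ) zero_le_one θ

lemma av_param_cont {S : Set ℂ} {Ψ : ℂ → ℂ → E}
    (h : ContinuousOn (fun p : ℂ × ℂ => Ψ p.1 p.2) (S ×ˢ sphere (0 : ℂ) 1)) :
    ContinuousOn (fun v => Av (Ψ v)) S := by
  rw [continuousOn_iff_continuous_domRestrict]
  unfold Av Real.circleAverage
  apply Continuous.const_smul
  apply intervalIntegral.continuous_parametric_intervalIntegral_of_continuous'
  have hc : Continuous fun x : S × ℝ => ((x.1 : ℂ), circleMap (0 : ℂ) 1 x.2) := by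
    have : Continuous (circleMap (0 : ℂ) 1) := continuous_circleMap 0 1
    fun_prop
  exact h.comp_continuous hc fun x => ⟨x.1.2, circle_mem x.2⟩

lemma av_swap [CompleteSpace E] {Φ : ℂ → ℂ → E}
    (h : ContinuousOn (fun p : ℂ × ℂ => Φ p.1 p.2) (sphere (0 : ℂ) 1 ×ˢ sphere (0 : ℂ) 1)) :
    Av (fun v => Av (Φ v)) = Av (fun η => Av (fun v => Φ v η)) := by
  unfold Av Real.circleAverage
  simp only [intervalIntegral.integral_smul]
  congr 2
  have hπ : (0 : ℝ) ≤ 2 * π := by positivity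
  simp only [intervalIntegral.integral_of_le hπ]
  refine integral_integral_swap ?_
  have hc : Continuous (Function.uncurry fun (θ φ : ℝ) => Φ (circleMap 0 1 θ) (circleMap 0 1 φ)) := by
    have h1 : Continuous fun x : ℝ × ℝ => (circleMap (0 : ℂ) 1 x.1, circleMap (0 : ℂ) 1 x.2) := by
      have : Continuous (circleMap (0 : ℂ) 1) := continuous_circleMap 0 1
      fun_prop
    exact h.comp_continuous h1 fun x => ⟨circle_mem x.1, circle_mem x.2⟩
  rw [Measure.prod_restrict]
  have hK : IsCompact (Icc (0 : ℝ) (2 * π) ×ˢ Icc (0 : ℝ) (2 * π)) := isCompact_Icc.prod isCompact_Icc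
  have h2 := hc.continuousOn.integrableOn_compact (μ := volume.prod volume) hK
  exact h2.mono_set (prod_mono Ioc_subset_Icc_self Ioc_subset_Icc_self)

lemma inv_eq_conj_sphere {v : ℂ} (hv : v ∈ sphere (0 : ℂ) 1) : v⁻¹ = conj v :=
  Complex.inv_eq_conj (by simpa using hv)

lemma ne_zero_sphere {v : ℂ} (hv : v ∈ sphere (0 : ℂ) 1) : v ≠ 0 := by
  intro h
  subst h
  simp at hv

lemma conj_eval_inv (L : Polynomial ℂ) {v : ℂ} (hv : v ∈ sphere (0 : ℂ) 1) :
    conj (L.eval v⁻¹) = (L.map (starRingEnd ℂ)).eval v := by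
  have h1 : v = conj v⁻¹ := by rw [inv_eq_conj_sphere hv, Complex.conj_conj]
  conv_rhs => rw [h1]
  rw [Polynomial.eval_map, Polynomial.eval₂_at_apply]

lemma cs_eval_inv (L : Polynomial ℂ) : Cs (fun v : ℂ => L.eval v⁻¹) :=
  L.continuous.comp_continuousOn cs_inv

/-- Averages of polynomials in the inverse variable against conjugates of analytic functions. -/
lemma av_inv_conj (L : Polynomial ℂ) {X : ℂ → ℂ} (hX : DiffContOnCl ℂ X (ball 0 1)) :
    Av (fun η => L.eval η⁻¹ * conj (X η)) = conj ((L.map (starRingEnd ℂ)).eval 0 * X 0) := by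
  have hXcs : Cs X := by
    have := hX.continuousOn
    rw [closure_ball _ one_ne_zero] at this
    exact this.mono sphere_subset_closedBall
  have h1 : Cs (fun η => L.eval η⁻¹ * conj (X η)) := (cs_eval_inv L).mul hXcs.conj
  have h2 : DiffContOnCl ℂ (fun η => (L.map (starRingEnd ℂ)).eval η * X η) (ball 0 1) :=
    dc_mul (Polynomial.differentiable _).diffContOnCl hX
  have h3 : Av (fun η => conj (L.eval η⁻¹ * conj (X η))) =
      Av (fun η => (L.map (starRingEnd ℂ)).eval η * X η) := by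
    apply av_congr
    intro v hv
    rw [map_mul, conj_eval_inv L hv, Complex.conj_conj]
  rw [av_conj h1, av_mean h2] at h3
  rw [← h3, Complex.conj_conj]

lemma gmap_id {R : ℝ} (hR : 1 < R) : GMap id R where
  hR := hR
  diff := differentiableOn_id
  zero := rfl
  inj := fun _ _ _ _ h => h
  der := fun v _ => by simp

lemma ss_id {η : ℂ} (h0 : η ≠ 0) : ss id η = 1 := by
  unfold ss
  rw [dslope_of_ne _ h0]
  simp [slope_def_field, h0]

/-- The positive kernel. -/
noncomputable def nn (g : ℂ → ℂ) (v η : ℂ) : ℝ := 1 + 2 * (kk g v η).re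

lemma re_circle {v η : ℂ} (hv : v ∈ sphere (0 : ℂ) 1) (hη : η ∈ sphere (0 : ℂ) 1) (hne : v ≠ η) :
    (v / (v - η)).re = 1 / 2 := by
  have h1 : v.re ^ 2 + v.im ^ 2 = 1 := by
    have : ‖v‖ = 1 := by simpa using hv
    have h2 := Complex.sq_norm v
    rw [this, Complex.normSq_apply] at h2
    nlinarith
  have h3 : η.re ^ 2 + η.im ^ 2 = 1 := by
    have : ‖η‖ = 1 := by simpa using hη
    have h2 := Complex.sq_norm η
    rw [this, Complex.normSq_apply] at h2
    nlinarith
  have h4 : Complex.normSq (v - η) ≠ 0 := by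
    rw [Ne, Complex.normSq_eq_zero]
    exact sub_ne_zero.2 hne
  rw [Complex.div_re, ← add_div, div_eq_div_iff h4 (by norm_num), Complex.normSq_apply]
  simp only [Complex.sub_re, Complex.sub_im]
  nlinarith


lemma nn_ofReal {g : ℂ → ℂ} (v η : ℂ) : ((nn g v η : ℝ) : ℂ) = 1 + kk g v η + conj (kk g v η) := by
  unfold nn
  have h := Complex.add_conj (kk g v η)
  push_cast
  rw [add_assoc, h]
  push_cast
  ring


end Basic

namespace GMap

variable {g : ℂ → ℂ} {R₀ : ℝ} (G : GMap g R₀)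
include G

lemma kk_cs {v : ℂ} (hv : v ∈ ball (0 : ℂ) R₀) : Cs (kk g v) :=
  (G.kk_cont_left hv).mono G.sphere_sub

lemma kk_dc {v : ℂ} (hv : v ∈ ball (0 : ℂ) R₀) : DiffContOnCl ℂ (kk g v) (ball 0 1) :=
  ((G.kk_diff_left hv).mono G.closed_sub).diffContOnCl_ball subset_rfl

/-- Representation of the analytic part outside the unit circle. -/
lemma repr_out {F L : Polynomial ℂ} {H : ℂ → ℂ} (hH : DifferentiableOn ℂ H (ball 0 R₀))
    (hH0 : H 0 = 0)
    (hFL : ∀ v ∈ ball (0 : ℂ) R₀, v ≠ 0 → F.eval (psi g v) = L.eval v⁻¹ + H v)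
    {v : ℂ} (hv1 : 1 < ‖v‖) (hvR : ‖v‖ < R₀) :
    H v = Av (fun η => L.eval η⁻¹ * kk g v η) := by
  have hvb : v ∈ ball (0 : ℂ) R₀ := by simpa using hvR
  have hv0 : v ≠ 0 := by
    intro h
    rw [h] at hv1
    simp at hv1
    linarith
  have hgv := G.g_ne hvb hv0
  have hne : ∀ η ∈ closedBall (0 : ℂ) 1, v ≠ η := by
    intro η hη h
    rw [← h] at hη
    have : ‖v‖ ≤ 1 := by simpa using hη
    linarith
  have hU1 : ∀ η ∈ closedBall (0 : ℂ) 1, IsUnit (1 - g η • psi g v) := by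
    intro η hη
    rw [isUnit_iff_ne_zero]
    intro h
    have h1 : g η * (g v)⁻¹ = 1 := by
      have h2 : (1 : ℂ) - g η * (g v)⁻¹ = 0 := by simpa [psi] using h
      linear_combination -h2
    have h2 : g η = g v := by
      field_simp at h1
      exact h1
    exact hne η hη (G.inj hvb (G.closed_sub hη) h2.symm)
  have Gid := gmap_id G.hR
  have hU2 : ∀ η ∈ closedBall (0 : ℂ) 1, IsUnit (1 - id η • v⁻¹) := by
    intro η hη
    rw [isUnit_iff_ne_zero]
    intro h
    have h1 : (1 : ℂ) - η * v⁻¹ = 0 := by simpa using h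
    have h2 : η = v := by
      field_simp at h1
      linear_combination -h1
    exact hne η hη h2.symm
  have hC1 := av_eval_qq G hU1 F
  have hC2 := av_eval_qq Gid hU2 L
  rw [Polynomial.coe_aeval_eq_eval] at hC1 hC2
  set Q1 := QQ g (psi g v) with hQ1
  set Q2 := QQ id v⁻¹ with hQ2
  have hQ1dc : DiffContOnCl ℂ Q1 (ball 0 1) := qq_diffCont G hU1
  have hQ1cs : Cs Q1 := qq_cs G hU1
  have hQ2cs : Cs Q2 := qq_cs Gid hU2
  have hLcs := cs_eval_inv L
  have hKcs := G.kk_cs hvb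
  have hHdc : DiffContOnCl ℂ H (ball 0 1) := (hH.mono G.closed_sub).diffContOnCl_ball subset_rfl
  have hHcs : Cs H := hH.continuousOn.mono G.sphere_sub
  have hpt : ∀ η ∈ sphere (0 : ℂ) 1, Q1 η = kk g v η + Q2 η := by
    intro η hη
    have hb := G.mem_of_sphere hη
    have hη0 := ne_zero_sphere hη
    have hnev := hne η (sphere_subset_closedBall hη)
    have hnev' : v - η ≠ 0 := sub_ne_zero.2 hnev
    have hgη := G.g_ne hb hη0
    have hgg : g v - g η ≠ 0 := fun h => hnev (G.inj hvb hb (sub_eq_zero.1 h))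
    rw [G.kk_eq hvb hb hnev, hQ1, hQ2]
    unfold QQ psi
    simp only [Ring.inverse_eq_inv', smul_eq_mul, id]
    rw [ss_id hη0, G.ss_eq hb hη0]
    have e1 : (1 : ℂ) - g η * (g v)⁻¹ = (g v - g η) / g v := by field_simp
    have e2 : (1 : ℂ) - η * v⁻¹ = (v - η) / v := by field_simp
    rw [e1, e2]
    field_simp
    ring
  have hsum : Av (fun η => F.eval (psi g η) • Q1 η) =
      Av (fun η => L.eval η⁻¹ * kk g v η) + Av (fun η => L.eval η⁻¹ * Q2 η) +
        Av (fun η => H η * Q1 η) := by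
    rw [← av_add (hLcs.mul hKcs) (hLcs.mul hQ2cs),
      ← av_add ((hLcs.mul hKcs).add (hLcs.mul hQ2cs)) (hHcs.mul hQ1cs)]
    apply av_congr
    intro η hη
    rw [hFL η (G.mem_of_sphere hη) (ne_zero_sphere hη), hpt η hη, smul_eq_mul]
    ring
  have h2 : Av (fun η => L.eval η⁻¹ * Q2 η) = L.eval v⁻¹ := by
    rw [← hC2]
    apply av_congr
    intro η hη
    simp [psi]
  have h3 : Av (fun η => H η * Q1 η) = 0 := by
    rw [av_mean (dc_mul hHdc hQ1dc), hH0, zero_mul]
  rw [hC1, hFL v hvb hv0, h2, h3, add_zero] at hsum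
  linear_combination hsum

/-- The average over the kernel is continuous in the first variable. -/
lemma repr_cont (L : Polynomial ℂ) :
    ContinuousOn (fun v => Av (fun η => L.eval η⁻¹ * kk g v η)) (ball 0 R₀) := by
  apply av_param_cont
  have h1 : ContinuousOn (fun p : ℂ × ℂ => L.eval p.2⁻¹) (ball 0 R₀ ×ˢ sphere (0 : ℂ) 1) :=
    (cs_eval_inv L).comp continuousOn_snd (fun p hp => hp.2)
  have h2 : ContinuousOn (fun p : ℂ × ℂ => kk g p.1 p.2) (ball 0 R₀ ×ˢ sphere (0 : ℂ) 1) :=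
    G.kk_cont.mono (prod_mono subset_rfl G.sphere_sub)
  exact h1.mul h2

/-- Representation of the analytic part on the unit circle. -/
lemma repr_on {F L : Polynomial ℂ} {H : ℂ → ℂ} (hH : DifferentiableOn ℂ H (ball 0 R₀))
    (hH0 : H 0 = 0)
    (hFL : ∀ v ∈ ball (0 : ℂ) R₀, v ≠ 0 → F.eval (psi g v) = L.eval v⁻¹ + H v)
    {v : ℂ} (hv : v ∈ sphere (0 : ℂ) 1) :
    H v = Av (fun η => L.eval η⁻¹ * kk g v η) := by
  have hvb := G.mem_of_sphere hv
  have hnorm : ‖v‖ = 1 := by simpa using hv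
  have ht : Tendsto (fun s : ℝ => ((1 + s : ℝ) : ℂ) * v) (𝓝[>] 0) (𝓝 v) := by
    have hc : Continuous (fun s : ℝ => ((1 + s : ℝ) : ℂ) * v) := by fun_prop
    have h0 := hc.tendsto 0
    simp only [add_zero, ofReal_one, one_mul] at h0
    exact h0.mono_left nhdsWithin_le_nhds
  have h1 : Tendsto (fun s : ℝ => H (((1 + s : ℝ) : ℂ) * v)) (𝓝[>] 0) (𝓝 (H v)) :=
    ((hH.continuousOn.continuousAt (isOpen_ball.mem_nhds hvb)).tendsto).comp ht
  have h2 : Tendsto (fun s : ℝ => Av (fun η => L.eval η⁻¹ * kk g (((1 + s : ℝ) : ℂ) * v) η)) (𝓝[>] 0)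
      (𝓝 (Av (fun η => L.eval η⁻¹ * kk g v η))) :=
    (((G.repr_cont L).continuousAt (isOpen_ball.mem_nhds hvb)).tendsto).comp ht
  refine tendsto_nhds_unique (h1.congr' ?_) h2
  have hpos : (0 : ℝ) < R₀ - 1 := by linarith [G.hR]
  filter_upwards [Ioo_mem_nhdsGT hpos] with s hs
  have hn : ‖((1 + s : ℝ) : ℂ) * v‖ = 1 + s := by
    rw [norm_mul, hnorm, mul_one, Complex.norm_real, Real.norm_eq_abs, abs_of_pos (by linarith [hs.1])]
  exact G.repr_out hH hH0 hFL (by rw [hn]; linarith [hs.1]) (by rw [hn]; linarith [hs.2])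

lemma nn_nonneg_ne
    (h3 : ∀ v ∈ sphere (0 : ℂ) 1, ∀ η ∈ sphere (0 : ℂ) 1, v ≠ η →
      0 ≤ (ss g η + η * deriv g η / (g v - g η)).re)
    {v η : ℂ} (hv : v ∈ sphere (0 : ℂ) 1) (hη : η ∈ sphere (0 : ℂ) 1) (hne : v ≠ η) :
    0 ≤ nn g v η := by
  unfold nn
  rw [G.kk_eq (G.mem_of_sphere hv) (G.mem_of_sphere hη) hne, Complex.sub_re, re_circle hv hη hne]
  have := h3 v hv η hη hne
  linarith

lemma nn_cont_right {η : ℂ} (hη : η ∈ ball (0 : ℂ) R₀) :
    ContinuousOn (fun v => nn g v η) (ball 0 R₀) := by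
  unfold nn
  exact continuousOn_const.add (continuousOn_const.mul
    (Complex.continuous_re.comp_continuousOn (G.kk_cont_right hη)))

lemma nn_cont_left {v : ℂ} (hv : v ∈ ball (0 : ℂ) R₀) : Cs (nn g v) := by
  unfold nn
  exact continuousOn_const.add (continuousOn_const.mul
    (Complex.continuous_re.comp_continuousOn (G.kk_cs hv)))

lemma nn_cont : ContinuousOn (fun p : ℂ × ℂ => nn g p.1 p.2) (ball 0 R₀ ×ˢ ball 0 R₀) := by
  unfold nn
  exact continuousOn_const.add (continuousOn_const.mul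
    (Complex.continuous_re.comp_continuousOn G.kk_cont))

lemma nn_nonneg
    (h3 : ∀ v ∈ sphere (0 : ℂ) 1, ∀ η ∈ sphere (0 : ℂ) 1, v ≠ η →
      0 ≤ (ss g η + η * deriv g η / (g v - g η)).re)
    {v η : ℂ} (hv : v ∈ sphere (0 : ℂ) 1) (hη : η ∈ sphere (0 : ℂ) 1) : 0 ≤ nn g v η := by
  by_cases hne : v = η
  · subst hne
    have hb := G.mem_of_sphere hv
    have hnorm : ‖v‖ = 1 := by simpa using hv
    have hc : Continuous (fun θ : ℝ => v * Complex.exp (θ * I)) := by fun_prop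
    have ht : Tendsto (fun θ : ℝ => v * Complex.exp (θ * I)) (𝓝[>] 0) (𝓝 v) := by
      have h0 := hc.tendsto 0
      simp only [ofReal_zero, zero_mul, Complex.exp_zero, mul_one] at h0
      exact h0.mono_left nhdsWithin_le_nhds
    have h1 : Tendsto (fun θ : ℝ => nn g (v * Complex.exp (θ * I)) v) (𝓝[>] 0) (𝓝 (nn g v v)) :=
      ((G.nn_cont_right hb).continuousAt (isOpen_ball.mem_nhds hb)).tendsto.comp ht
    refine ge_of_tendsto h1 ?_
    have hpos : (0 : ℝ) < 1 := zero_lt_one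
    filter_upwards [Ioo_mem_nhdsGT hpos] with θ hθ
    have hs : v * Complex.exp (θ * I) ∈ sphere (0 : ℂ) 1 := by
      simp [hnorm, Complex.norm_exp_ofReal_mul_I]
    refine G.nn_nonneg_ne h3 hs hv ?_
    intro h
    have h2 : Complex.exp (θ * I) = 1 := by
      have h0 := ne_zero_sphere hv
      field_simp at h
      simpa using h
    have h4 : Real.cos θ = 1 := by
      have := congrArg Complex.re h2
      rwa [Complex.exp_ofReal_mul_I_re, Complex.one_re] at this
    have h5 := (Real.cos_eq_one_iff_of_lt_of_lt (x := θ) (by linarith [hθ.1, Real.pi_pos])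
      (by linarith [hθ.2, Real.pi_gt_three])).1 h4
    linarith [hθ.1]
  · exact G.nn_nonneg_ne h3 hv hη hne

/-- The mean of the kernel in the second variable. -/
lemma av_nn_left {v : ℂ} (hv : v ∈ ball (0 : ℂ) R₀) : Av (nn g v) = 1 := by
  have h := av_re (G.kk_cs hv)
  rw [av_mean (G.kk_dc hv), G.kk_zero_right, Complex.zero_re] at h
  have h2 : Cs (fun η => (kk g v η).re) := (G.kk_cs hv).re
  have h3 : Av (nn g v) = Av (fun η => (1 : ℝ) + 2 * (kk g v η).re) := rfl
  have h5 : Cs (fun η => 2 * (kk g v η).re) := ContinuousOn.mul continuousOn_const h2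
  have h6 : Cs (fun _ : ℂ => (1 : ℝ)) := continuousOn_const
  rw [h3, av_add h6 h5, av_const]
  have h4 : Av (fun η => 2 * (kk g v η).re) = 2 * Av (fun η => (kk g v η).re) := by
    have := av_smul (E := ℝ) (2 : ℝ) (fun η => (kk g v η).re)
    simpa using this
  rw [h4, h]
  simp

/-- The mean of the kernel in the first variable. -/
lemma av_nn_right {η : ℂ} (hη : η ∈ sphere (0 : ℂ) 1) : Av (fun v => nn g v η) = 1 := by
  have hb := G.mem_of_sphere hη
  have h0 := ne_zero_sphere hη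
  have hdc : DiffContOnCl ℂ (fun v => kk g v η) (ball 0 1) :=
    ((G.kk_diff_right hb).mono G.closed_sub).diffContOnCl_ball subset_rfl
  have hcs : Cs (fun v => kk g v η) := (G.kk_cont_right hb).mono G.sphere_sub
  have h := av_re hcs
  rw [av_mean hdc, G.kk_zero_left hb h0, Complex.zero_re] at h
  have h2 : Cs (fun v => (kk g v η).re) := hcs.re
  have h3 : Av (fun v => nn g v η) = Av (fun v => (1 : ℝ) + 2 * (kk g v η).re) := rfl
  have h5 : Cs (fun v => 2 * (kk g v η).re) := ContinuousOn.mul continuousOn_const h2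
  have h6 : Cs (fun _ : ℂ => (1 : ℝ)) := continuousOn_const
  rw [h3, av_add h6 h5, av_const]
  have h4 : Av (fun v => 2 * (kk g v η).re) = 2 * Av (fun v => (kk g v η).re) := by
    have := av_smul (E := ℝ) (2 : ℝ) (fun v => (kk g v η).re)
    simpa using this
  rw [h4, h]
  simp

/-- **The contraction.** -/
theorem contraction
    (h3 : ∀ v ∈ sphere (0 : ℂ) 1, ∀ η ∈ sphere (0 : ℂ) 1, v ≠ η →
      0 ≤ (ss g η + η * deriv g η / (g v - g η)).re)
    {F L : Polynomial ℂ} {H : ℂ → ℂ} (hH : DifferentiableOn ℂ H (ball 0 R₀)) (hH0 : H 0 = 0)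
    (hL : L.coeff 0 = 0)
    (hFL : ∀ v ∈ ball (0 : ℂ) R₀, v ≠ 0 → F.eval (psi g v) = L.eval v⁻¹ + H v) :
    Av (fun v => ‖H v‖ ^ 2) ≤ Av (fun v => ‖L.eval v⁻¹‖ ^ 2) := by
  have hLcs := cs_eval_inv L
  have hLn : Cs (fun η : ℂ => ‖L.eval η⁻¹‖ ^ 2) := hLcs.normSq
  -- the weighted representation
  have hrep : ∀ v ∈ sphere (0 : ℂ) 1, H v = Av (fun η => L.eval η⁻¹ * (nn g v η : ℂ)) := by
    intro v hv
    have hb := G.mem_of_sphere hv
    have hK := G.kk_cs hb
    have h1 : Av (fun η => L.eval η⁻¹ * conj (kk g v η)) = 0 := by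
      rw [av_inv_conj L (G.kk_dc hb), G.kk_zero_right, mul_zero, map_zero]
    have h2 : Av (fun η => L.eval η⁻¹) = 0 := by
      have := av_inv_conj L (X := fun _ => 1) (differentiable_const _).diffContOnCl
      simp only [map_one, mul_one] at this
      rw [this, ← Polynomial.coeff_zero_eq_eval_zero, Polynomial.coeff_map, hL]
      simp
    have h3' : Av (fun η => L.eval η⁻¹ * (nn g v η : ℂ)) =
        Av (fun η => L.eval η⁻¹) + Av (fun η => L.eval η⁻¹ * kk g v η) +
          Av (fun η => L.eval η⁻¹ * conj (kk g v η)) := by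
      rw [← av_add hLcs (hLcs.mul hK), ← av_add (hLcs.add (hLcs.mul hK)) (hLcs.mul hK.conj)]
      apply av_congr
      intro η _
      rw [nn_ofReal]
      ring
    rw [h3', h1, h2, zero_add, add_zero]
    exact G.repr_on hH hH0 hFL hv
  -- continuity of the double integrand
  have hdbl : ContinuousOn (fun p : ℂ × ℂ => ‖L.eval p.2⁻¹‖ ^ 2 * nn g p.1 p.2)
      (sphere (0 : ℂ) 1 ×ˢ sphere (0 : ℂ) 1) := by
    refine ContinuousOn.mul (hLn.comp continuousOn_snd fun p hp => hp.2) ?_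
    exact G.nn_cont.mono (prod_mono G.sphere_sub G.sphere_sub)
  have hdbl' := av_param_cont (S := sphere (0 : ℂ) 1)
    (Ψ := fun v η => ‖L.eval η⁻¹‖ ^ 2 * nn g v η) hdbl
  have hpt : ∀ v ∈ sphere (0 : ℂ) 1, ‖H v‖ ^ 2 ≤ Av (fun η => ‖L.eval η⁻¹‖ ^ 2 * nn g v η) := by
    intro v hv
    have hb := G.mem_of_sphere hv
    have hcs := av_cs_weight hLcs (G.nn_cont_left hb) (fun η hη => G.nn_nonneg h3 hv hη)
    rw [G.av_nn_left hb, mul_one, ← hrep v hv] at hcs
    exact hcs
  have hHcs : Cs H := hH.continuousOn.mono G.sphere_sub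
  have hmono := av_mono (f := fun v => ‖H v‖ ^ 2)
    (k := fun v => Av (fun η => ‖L.eval η⁻¹‖ ^ 2 * nn g v η)) hHcs.normSq hdbl' hpt
  refine hmono.trans (le_of_eq ?_)
  rw [av_swap (Φ := fun v η => ‖L.eval η⁻¹‖ ^ 2 * nn g v η) hdbl]
  apply av_congr
  intro η hη
  have hs : Av (fun v => ‖L.eval η⁻¹‖ ^ 2 * nn g v η) =
      ‖L.eval η⁻¹‖ ^ 2 * Av (fun v => nn g v η) := by
    have := av_smul (E := ℝ) (‖L.eval η⁻¹‖ ^ 2) (fun v => nn g v η)
    simpa using this
  rw [hs, G.av_nn_right hη, mul_one]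

end GMap

end Vale.Agent.Lib.P123.Rmt
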