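import Vale.Agent.Lib.P123.Rmt.Level

/-!
# The exterior conformal map of a compact convex set, from a Riemann map

`extDomain z₀ L`: the image of the exterior of `L` under the inversion `z ↦ 1 / (z - z₀)`, together
with the point `0`. It is open, bounded and star shaped about `0` when `L` is a compact convex set
containing a disc around `z₀`. A Riemann map `φ` of this domain gives `ExtMap L`.
-/

namespace Vale.Agent.Lib.P123.Rmt

open Complex Metric Set Filter Topology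

/-- The inverted exterior. -/
def extDomain (z₀ : ℂ) (L : Set ℂ) : Set ℂ := {u | u = 0 ∨ (u ≠ 0 ∧ z₀ + u⁻¹ ∉ L)}

section Domain

variable {z₀ : ℂ} {L : Set ℂ} {r : ℝ}

theorem zero_mem_extDomain : (0 : ℂ) ∈ extDomain z₀ L := Or.inl rfl

theorem extDomain_star (hLv : Convex ℝ L) (hz₀ : z₀ ∈ L) {u : ℂ} (hu : u ∈ extDomain z₀ L) {t : ℝ}
    (ht : t ∈ Icc (0 : ℝ) 1) : (t : ℂ) * u ∈ extDomain z₀ L := by
  rcases hu with rfl | ⟨hu0, hu⟩
  · left; simp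
  rcases eq_or_lt_of_le ht.1 with h0 | h0
  · left; rw [← h0]; simp
  right
  have ht0 : (t : ℂ) ≠ 0 := by exact_mod_cast h0.ne'
  refine ⟨mul_ne_zero ht0 hu0, fun hmem => hu ?_⟩
  have h := hLv hmem hz₀ h0.le (by linarith [ht.2] : (0 : ℝ) ≤ 1 - t) (by ring)
  have heq : t • (z₀ + ((t : ℂ) * u)⁻¹) + (1 - t) • z₀ = z₀ + u⁻¹ := by
    simp only [Complex.real_smul, mul_inv]
    push_cast
    field_simp
    ring
  rwa [heq] at h

theorem isOpen_extDomain (hLk : IsCompact L) : IsOpen (extDomain z₀ L) := by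
  obtain ⟨B, hB⟩ := hLk.isBounded.subset_closedBall z₀
  have hBpos : 0 < |B| + 1 := by positivity
  have h1 : IsOpen {u : ℂ | u ≠ 0 ∧ z₀ + u⁻¹ ∉ L} := by
    have hc : ContinuousOn (fun u : ℂ => z₀ + u⁻¹) {u : ℂ | u ≠ 0} :=
      continuousOn_const.add (continuousOn_inv₀)
    exact hc.isOpen_inter_preimage isOpen_ne hLk.isClosed.isOpen_compl
  have h2 : ball (0 : ℂ) (|B| + 1)⁻¹ ⊆ extDomain z₀ L := by
    intro u hu
    rw [mem_ball_zero_iff] at hu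
    by_cases hu0 : u = 0
    · exact Or.inl hu0
    refine Or.inr ⟨hu0, fun hmem => ?_⟩
    have h3 := hB hmem
    rw [mem_closedBall, dist_eq_norm, add_sub_cancel_left, norm_inv] at h3
    have hupos : 0 < ‖u‖ := norm_pos_iff.2 hu0
    have h4 : |B| + 1 < ‖u‖⁻¹ := by
      rw [lt_inv_comm₀ hBpos hupos]
      exact hu
    have h5 : B ≤ |B| := le_abs_self B
    linarith
  have heq : extDomain z₀ L = ball (0 : ℂ) (|B| + 1)⁻¹ ∪ {u : ℂ | u ≠ 0 ∧ z₀ + u⁻¹ ∉ L} := by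
    ext u
    constructor
    · rintro (rfl | h)
      · left
        simp only [mem_ball_zero_iff, norm_zero]
        positivity
      · exact Or.inr h
    · rintro (h | h)
      · exact h2 h
      · exact Or.inr h
  rw [heq]
  exact isOpen_ball.union h1

theorem extDomain_bound (hr : 0 < r) (hball : ball z₀ r ⊆ L) {u : ℂ} (hu : u ∈ extDomain z₀ L) :
    ‖u‖ ≤ r⁻¹ := by
  rcases hu with rfl | ⟨hu0, hu⟩
  · simp only [norm_zero]
    positivity
  have hupos : 0 < ‖u‖ := norm_pos_iff.2 hu0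
  have h : r ≤ ‖u⁻¹‖ := by
    by_contra hcon
    have hcon := not_le.1 hcon
    exact hu (hball (by
      rw [mem_ball, dist_eq_norm, add_sub_cancel_left]
      exact hcon))
  rw [norm_inv] at h
  rw [le_inv_comm₀ hupos hr]
  exact h

theorem isBounded_extDomain (hr : 0 < r) (hball : ball z₀ r ⊆ L) :
    Bornology.IsBounded (extDomain z₀ L) := by
  refine (isBounded_closedBall (x := (0 : ℂ)) (r := r⁻¹)).subset ?_
  intro u hu
  rw [mem_closedBall_zero_iff]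
  exact extDomain_bound hr hball hu

end Domain

section FromDisc

variable {z₀ : ℂ} {L : Set ℂ} {r : ℝ} {φ : ℂ → ℂ}

/-- The inverse of an injective analytic map of the unit disc, and its properties. -/
structure DiscInv (φ : ℂ → ℂ) (U : Set ℂ) (g : ℂ → ℂ) : Prop where
  g_mem : ∀ u ∈ U, g u ∈ ball (0 : ℂ) 1
  phi_g : ∀ u ∈ U, φ (g u) = u
  g_phi : ∀ ξ ∈ ball (0 : ℂ) 1, g (φ ξ) = ξ
  g_diff : DifferentiableOn ℂ g U

theorem exists_discInv {U : Set ℂ} (hd : DifferentiableOn ℂ φ (ball 0 1))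
    (hinj : InjOn φ (ball 0 1)) (himg : φ '' ball 0 1 = U) (hφ' : ∀ ξ ∈ ball (0 : ℂ) 1, deriv φ ξ ≠ 0) :
    ∃ g, DiscInv φ U g := by
  classical
  have hne : (ball (0 : ℂ) 1).Nonempty := ⟨0, by simp⟩
  set g : ℂ → ℂ := Function.invFunOn φ (ball 0 1) with hg
  have hg_mem : ∀ u ∈ U, g u ∈ ball (0 : ℂ) 1 := by
    intro u hu
    rw [← himg] at hu
    exact Function.invFunOn_mem hu
  have hphi_g : ∀ u ∈ U, φ (g u) = u := by
    intro u hu
    rw [← himg] at hu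
    exact Function.invFunOn_eq hu
  have hg_phi : ∀ ξ ∈ ball (0 : ℂ) 1, g (φ ξ) = ξ := by
    intro ξ hξ
    exact hinj.leftInvOn_invFunOn hξ
  refine ⟨g, ⟨hg_mem, hphi_g, hg_phi, ?_⟩⟩
  have hmemU : ∀ ξ ∈ ball (0 : ℂ) 1, φ ξ ∈ U := fun ξ hξ => himg ▸ mem_image_of_mem φ hξ
  intro a ha
  have hξ := hg_mem a ha
  have hstrict : HasStrictDerivAt φ (deriv φ (g a)) (g a) :=
    ((hd.analyticAt (isOpen_ball.mem_nhds hξ)).hasStrictDerivAt)
  have hnear : ∀ᶠ ξ in 𝓝 (g a), ξ ∈ ball (0 : ℂ) 1 := isOpen_ball.mem_nhds hξ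
  -- continuity of the inverse
  have hmap := hstrict.map_nhds_eq (hφ' _ hξ)
  rw [hphi_g a ha] at hmap
  have hcont : ContinuousAt g a := by
    show Tendsto g (𝓝 a) (𝓝 (g a))
    rw [← hmap, tendsto_map'_iff]
    have : (g ∘ φ) =ᶠ[𝓝 (g a)] id := by
      filter_upwards [hnear] with ξ hξ'
      exact hg_phi ξ hξ'
    exact (tendsto_id (x := 𝓝 (g a))).congr' this.symm
  -- it is open
  have hUopen : U ∈ 𝓝 a := by
    rw [← hmap]
    refine Filter.mem_map.2 ?_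
    filter_upwards [hnear] with ξ hξ'
    exact hmemU ξ hξ'
  have hder : HasDerivAt g (deriv φ (g a))⁻¹ a := by
    refine HasDerivAt.of_local_left_inverse hcont hstrict.hasDerivAt (hφ' _ hξ) ?_
    filter_upwards [hUopen] with y hy
    exact hphi_g y hy
  exact hder.differentiableAt.differentiableWithinAt

/-- The quotient expansion near `0`: a function `k` analytic on the disc with `k ξ = ξ / φ ξ` and a
bounded divided difference. -/
theorem exists_quot (hd : DifferentiableOn ℂ φ (ball 0 1)) (h0 : φ 0 = 0)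
    (hinj : InjOn φ (ball 0 1)) (hφ' : deriv φ 0 ≠ 0) :
    ∃ A : ℝ, 0 ≤ A ∧ ∃ A' : ℝ, 0 ≤ A' ∧ ∀ ξ ∈ closedBall (0 : ℂ) (1 / 2), ξ ≠ 0 →
      ‖ξ / φ ξ‖ ≤ ‖(deriv φ 0)⁻¹‖ + A * ‖ξ‖ ∧ ‖φ ξ / ξ‖ ≤ ‖deriv φ 0‖ + A' * ‖ξ‖ := by
  have hmem : ball (0 : ℂ) 1 ∈ 𝓝 (0 : ℂ) := isOpen_ball.mem_nhds (by simp)
  -- the first divided difference
  set h : ℂ → ℂ := dslope φ 0 with hh
  have hhd : DifferentiableOn ℂ h (ball 0 1) := (Complex.differentiableOn_dslope hmem).2 hd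
  have hval : ∀ ξ, ξ ≠ 0 → h ξ = φ ξ / ξ := by
    intro ξ hξ
    rw [hh, dslope_of_ne _ hξ, slope_def_field, h0, sub_zero, sub_zero]
  have hh0 : h 0 = deriv φ 0 := by
    rw [hh, dslope_same]
  have hball0 : (0 : ℂ) ∈ ball (0 : ℂ) 1 := by simp
  have hne : ∀ ξ ∈ ball (0 : ℂ) 1, h ξ ≠ 0 := by
    intro ξ hξ
    by_cases hξ0 : ξ = 0
    · rw [hξ0, hh0]
      exact hφ'
    · rw [hval ξ hξ0]
      refine div_ne_zero ?_ hξ0
      intro hcon
      apply hξ0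
      exact hinj hξ hball0 (hcon.trans h0.symm)
  -- the quotient
  set k : ℂ → ℂ := fun ξ => (h ξ)⁻¹ with hk
  have hkd : DifferentiableOn ℂ k (ball 0 1) := hhd.inv hne
  have hk0 : k 0 = (deriv φ 0)⁻¹ := by simp only [hk, hh0]
  have hk₂d : DifferentiableOn ℂ (dslope k 0) (ball 0 1) :=
    (Complex.differentiableOn_dslope hmem).2 hkd
  have hh₂d : DifferentiableOn ℂ (dslope h 0) (ball 0 1) :=
    (Complex.differentiableOn_dslope hmem).2 hhd
  have hsub : closedBall (0 : ℂ) (1 / 2) ⊆ ball (0 : ℂ) 1 :=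
    closedBall_subset_ball (by norm_num)
  obtain ⟨A, hA⟩ := (isCompact_closedBall (0 : ℂ) (1 / 2)).exists_bound_of_continuousOn
    (hk₂d.continuousOn.mono hsub)
  obtain ⟨A', hA'⟩ := (isCompact_closedBall (0 : ℂ) (1 / 2)).exists_bound_of_continuousOn
    (hh₂d.continuousOn.mono hsub)
  have h00 : (0 : ℂ) ∈ closedBall (0 : ℂ) (1 / 2) := by simp
  refine ⟨|A|, abs_nonneg _, |A'|, abs_nonneg _, ?_⟩
  intro ξ hξ hξ0
  constructor
  · have h1 : ξ / φ ξ = k ξ := by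
      simp only [hk, hval ξ hξ0, inv_div]
    have h2 : k ξ = k 0 + ξ * dslope k 0 ξ := by
      rw [dslope_of_ne _ hξ0, slope_def_field, sub_zero]
      field_simp
      ring
    rw [h1, h2, hk0]
    refine (norm_add_le _ _).trans ?_
    rw [norm_mul]
    have := hA ξ hξ
    have h3 : ‖dslope k 0 ξ‖ ≤ |A| := this.trans (le_abs_self A)
    nlinarith [norm_nonneg ξ, norm_nonneg (dslope k 0 ξ)]
  · have h1 : φ ξ / ξ = h ξ := (hval ξ hξ0).symm
    have h2 : h ξ = h 0 + ξ * dslope h 0 ξ := by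
      rw [dslope_of_ne _ hξ0, slope_def_field, sub_zero]
      field_simp
      ring
    rw [h1, h2, hh0]
    refine (norm_add_le _ _).trans ?_
    rw [norm_mul]
    have := hA' ξ hξ
    have h3 : ‖dslope h 0 ξ‖ ≤ |A'| := this.trans (le_abs_self A')
    nlinarith [norm_nonneg ξ, norm_nonneg (dslope h 0 ξ)]

/-- **From a Riemann map to the exterior map.** -/
theorem extMap_of_disc (hLk : IsCompact L) (hr : 0 < r) (hball : ball z₀ r ⊆ L)
    (hd : DifferentiableOn ℂ φ (ball 0 1)) (h0 : φ 0 = 0) (hinj : InjOn φ (ball 0 1))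
    (himg : φ '' ball 0 1 = extDomain z₀ L) (hφ' : ∀ ξ ∈ ball (0 : ℂ) 1, deriv φ ξ ≠ 0) :
    ∃ M : ExtMap L, ∀ w, M.psi w = z₀ + (φ w⁻¹)⁻¹ := by
  classical
  obtain ⟨g, hg⟩ := exists_discInv hd hinj himg hφ'
  have hz₀L : z₀ ∈ L := hball (mem_ball_self hr)
  have hU : ∀ ξ ∈ ball (0 : ℂ) 1, φ ξ ∈ extDomain z₀ L := fun ξ hξ => himg ▸ mem_image_of_mem φ hξ
  have hball0 : (0 : ℂ) ∈ ball (0 : ℂ) 1 := by simp
  have hφne : ∀ ξ ∈ ball (0 : ℂ) 1, ξ ≠ 0 → φ ξ ≠ 0 := by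
    intro ξ hξ hξ0 hcon
    exact hξ0 (hinj hξ hball0 (hcon.trans h0.symm))
  have hinvmem : ∀ w : ℂ, 1 < ‖w‖ → w⁻¹ ∈ ball (0 : ℂ) 1 := by
    intro w hw
    rw [mem_ball_zero_iff, norm_inv]
    exact inv_lt_one_of_one_lt₀ hw
  have hw0 : ∀ w : ℂ, 1 < ‖w‖ → w ≠ 0 := by
    intro w hw h
    rw [h] at hw
    simp at hw
    linarith
  -- the two maps
  set ψ : ℂ → ℂ := fun w => z₀ + (φ w⁻¹)⁻¹ with hψ
  set Φ : ℂ → ℂ := fun z => (g (z - z₀)⁻¹)⁻¹ with hΦ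
  have hmapsψ : ∀ w, 1 < ‖w‖ → ψ w ∉ L := by
    intro w hw
    have hne := hφne _ (hinvmem w hw) (inv_ne_zero (hw0 w hw))
    rcases hU _ (hinvmem w hw) with h | ⟨_, h⟩
    · exact absurd h hne
    · exact h
  have hzne : ∀ z, z ∉ L → z - z₀ ≠ 0 := by
    intro z hz h
    rw [sub_eq_zero] at h
    exact hz (h ▸ hz₀L)
  have hyU : ∀ z, z ∉ L → (z - z₀)⁻¹ ∈ extDomain z₀ L := by
    intro z hz
    refine Or.inr ⟨inv_ne_zero (hzne z hz), ?_⟩
    rw [inv_inv, add_sub_cancel]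
    exact hz
  have hgne : ∀ z, z ∉ L → g (z - z₀)⁻¹ ≠ 0 := by
    intro z hz hcon
    have h1 := hg.phi_g _ (hyU z hz)
    rw [hcon, h0] at h1
    exact inv_ne_zero (hzne z hz) h1.symm
  have hmapsΦ : ∀ z, z ∉ L → 1 < ‖Φ z‖ := by
    intro z hz
    have h1 := hg.g_mem _ (hyU z hz)
    rw [mem_ball_zero_iff] at h1
    simp only [hΦ, norm_inv]
    exact (one_lt_inv₀ (norm_pos_iff.2 (hgne z hz))).2 h1
  have hleft : ∀ w, 1 < ‖w‖ → Φ (ψ w) = w := by
    intro w hw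
    simp only [hΦ, hψ, add_sub_cancel_left, inv_inv]
    rw [hg.g_phi _ (hinvmem w hw), inv_inv]
  have hright : ∀ z, z ∉ L → ψ (Φ z) = z := by
    intro z hz
    simp only [hΦ, hψ, inv_inv]
    rw [hg.phi_g _ (hyU z hz), inv_inv, add_sub_cancel]
  have hdψ : DifferentiableOn ℂ ψ {w | 1 < ‖w‖} := by
    intro w hw
    have hw' : 1 < ‖w‖ := hw
    have h1 : DifferentiableAt ℂ φ w⁻¹ :=
      hd.differentiableAt (isOpen_ball.mem_nhds (hinvmem w hw'))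
    have h2 : DifferentiableAt ℂ (fun w : ℂ => w⁻¹) w := differentiableAt_inv (hw0 w hw')
    have h3 : DifferentiableAt ℂ (fun w : ℂ => φ w⁻¹) w := h1.comp w h2
    have h4 : DifferentiableAt ℂ (fun w : ℂ => (φ w⁻¹)⁻¹) w :=
      h3.inv (hφne _ (hinvmem w hw') (inv_ne_zero (hw0 w hw')))
    exact ((differentiableAt_const z₀).add h4).differentiableWithinAt
  have hUopen : IsOpen (extDomain z₀ L) := isOpen_extDomain hLk
  have hdΦ : DifferentiableOn ℂ Φ Lᶜ := by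
    intro z hz
    have hz' : z ∉ L := hz
    have h1 : DifferentiableAt ℂ g (z - z₀)⁻¹ :=
      hg.g_diff.differentiableAt (hUopen.mem_nhds (hyU z hz'))
    have h2 : DifferentiableAt ℂ (fun z : ℂ => (z - z₀)⁻¹) z :=
      ((differentiableAt_id).sub (differentiableAt_const _)).inv (hzne z hz')
    have h3 : DifferentiableAt ℂ (fun z : ℂ => g (z - z₀)⁻¹) z := h1.comp z h2
    exact (h3.inv (hgne z hz')).differentiableWithinAt
  -- lower bound of `φ` away from `0`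
  have hnhds : φ '' ball (0 : ℂ) (1 / 2) ∈ 𝓝 (0 : ℂ) := by
    have hstrict : HasStrictDerivAt φ (deriv φ 0) 0 :=
      (hd.analyticAt (isOpen_ball.mem_nhds hball0)).hasStrictDerivAt
    have hmap := hstrict.map_nhds_eq (hφ' 0 hball0)
    rw [h0] at hmap
    rw [← hmap]
    exact Filter.image_mem_map (isOpen_ball.mem_nhds (by simp))
  obtain ⟨ε₀, hε₀, hε₀ball⟩ := Metric.mem_nhds_iff.1 hnhds
  have hlower : ∀ ξ ∈ ball (0 : ℂ) 1, 1 / 2 ≤ ‖ξ‖ → ε₀ ≤ ‖φ ξ‖ := by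
    intro ξ hξ hξ2
    by_contra hcon
    have hcon := not_le.1 hcon
    obtain ⟨ξ', hξ', heq⟩ := hε₀ball (by
      rw [mem_ball_zero_iff]
      exact hcon : φ ξ ∈ ball (0 : ℂ) ε₀)
    have hξ'1 : ξ' ∈ ball (0 : ℂ) 1 :=
      ball_subset_ball (by norm_num) hξ'
    have := hinj hξ'1 hξ heq
    rw [mem_ball_zero_iff] at hξ'
    rw [this] at hξ'
    linarith
  obtain ⟨A, hA0, A', hA'0, hAA⟩ := exists_quot hd h0 hinj (hφ' 0 hball0)
  set d := deriv φ 0 with hdd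
  have hd0 : d ≠ 0 := hφ' 0 hball0
  have hcn : ‖d⁻¹‖ = ‖d‖⁻¹ := norm_inv d
  have hdpos : 0 < ‖d‖ := norm_pos_iff.2 hd0
  -- growth of `ψ`
  have hbψ : ∃ C : ℝ, ∀ w, 1 < ‖w‖ → ‖ψ w‖ ≤ ‖d⁻¹‖ * ‖w‖ + C := by
    refine ⟨‖z₀‖ + A + ε₀⁻¹, ?_⟩
    intro w hw
    have hξ := hinvmem w hw
    have hwpos : 0 < ‖w‖ := by linarith
    have hnn : 0 ≤ ‖d⁻¹‖ * ‖w‖ := by positivity
    have hinvpos : 0 < ε₀⁻¹ := by positivity
    have h1 : ‖ψ w‖ ≤ ‖z₀‖ + ‖(φ w⁻¹)⁻¹‖ := norm_add_le _ _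
    by_cases hcase : 1 / 2 ≤ ‖w⁻¹‖
    · have h2 := hlower _ hξ hcase
      have h3 : ‖(φ w⁻¹)⁻¹‖ ≤ ε₀⁻¹ := by
        rw [norm_inv]
        exact inv_anti₀ hε₀ h2
      linarith
    · have hcase := not_le.1 hcase
      have hmem : w⁻¹ ∈ closedBall (0 : ℂ) (1 / 2) := by
        rw [mem_closedBall_zero_iff]
        exact hcase.le
      have h2 := (hAA _ hmem (inv_ne_zero (hw0 w hw))).1
      have h3 : (φ w⁻¹)⁻¹ = (w⁻¹ / φ w⁻¹) * w := by
        field_simp [hw0 w hw]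
      have h4 : ‖w⁻¹‖ * ‖w‖ = 1 := by
        rw [norm_inv]
        field_simp
      have h5 : ‖(φ w⁻¹)⁻¹‖ ≤ ‖d⁻¹‖ * ‖w‖ + A := by
        rw [h3, norm_mul]
        have := mul_le_mul_of_nonneg_right h2 hwpos.le
        nlinarith
      linarith
  -- growth of `Φ`
  have hbΦ : ∃ C : ℝ, ∀ z, z ∉ L → ‖Φ z‖ ≤ ‖z‖ / ‖d⁻¹‖ + C := by
    refine ⟨‖d‖ * ‖z₀‖ + A' * (‖d⁻¹‖ + A) + 2, ?_⟩
    intro z hz
    have hyz := hyU z hz
    have hξ := hg.g_mem _ hyz
    set ξ := g (z - z₀)⁻¹ with hξdef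
    have hξ0 : ξ ≠ 0 := hgne z hz
    have hφξ : φ ξ = (z - z₀)⁻¹ := hg.phi_g _ hyz
    have hΦz : Φ z = ξ⁻¹ := rfl
    have hnn : 0 ≤ ‖z‖ / ‖d⁻¹‖ := by positivity
    have hnn2 : 0 ≤ ‖d‖ * ‖z₀‖ := by positivity
    have hnn3 : 0 ≤ A' * (‖d⁻¹‖ + A) := by positivity
    have hdiv : ‖z‖ / ‖d⁻¹‖ = ‖d‖ * ‖z‖ := by
      rw [hcn]
      field_simp
    rw [hΦz, hdiv]
    by_cases hcase : 1 / 2 ≤ ‖ξ‖
    · have h1 : ‖ξ⁻¹‖ ≤ 2 := by
        rw [norm_inv]
        have : (0:ℝ) < 1 / 2 := by norm_num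
        calc ‖ξ‖⁻¹ ≤ (1 / 2 : ℝ)⁻¹ := inv_anti₀ this hcase
          _ = 2 := by norm_num
      have h2 : 0 ≤ ‖d‖ * ‖z‖ := by positivity
      linarith
    · have hcase := not_le.1 hcase
      have hmem : ξ ∈ closedBall (0 : ℂ) (1 / 2) := by
        rw [mem_closedBall_zero_iff]
        exact hcase.le
      obtain ⟨h1, h2⟩ := hAA ξ hmem hξ0
      have hzne' := hzne z hz
      -- `ξ⁻¹ = (φ ξ / ξ) * (z - z₀)`
      have h3 : ξ⁻¹ = (φ ξ / ξ) * (z - z₀) := by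
        rw [hφξ]
        field_simp
      -- `‖ξ‖ ‖z - z₀‖ = ‖ξ / φ ξ‖`
      have h4 : ‖ξ‖ * ‖z - z₀‖ = ‖ξ / φ ξ‖ := by
        rw [hφξ, div_inv_eq_mul, norm_mul]
      have h5 : ‖z - z₀‖ ≤ ‖z‖ + ‖z₀‖ := norm_sub_le _ _
      have h6 : ‖ξ / φ ξ‖ ≤ ‖d⁻¹‖ + A * (1 / 2) := by
        refine h1.trans ?_
        have : A * ‖ξ‖ ≤ A * (1 / 2) := mul_le_mul_of_nonneg_left hcase.le hA0
        linarith
      have h7 : ‖ξ⁻¹‖ ≤ ‖d‖ * ‖z - z₀‖ + A' * (‖ξ‖ * ‖z - z₀‖) := by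
        rw [h3, norm_mul]
        have hzz : 0 ≤ ‖z - z₀‖ := norm_nonneg _
        have := mul_le_mul_of_nonneg_right h2 hzz
        nlinarith
      rw [h4] at h7
      have h8 : A' * ‖ξ / φ ξ‖ ≤ A' * (‖d⁻¹‖ + A) := by
        apply mul_le_mul_of_nonneg_left _ hA'0
        linarith
      have h9 : ‖d‖ * ‖z - z₀‖ ≤ ‖d‖ * ‖z‖ + ‖d‖ * ‖z₀‖ := by
        rw [← mul_add]
        exact mul_le_mul_of_nonneg_left h5 hdpos.le
      linarith
  -- properness of `ψ`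
  have hpsi : ∀ η : ℝ, 0 < η → ∃ δ : ℝ, 0 < δ ∧ ∀ w, 1 < ‖w‖ → ‖w‖ < 1 + δ → infDist (ψ w) L < η := by
    intro η hη
    set S : Set ℂ := {u | u = 0 ∨ (u ≠ 0 ∧ η ≤ infDist (z₀ + u⁻¹) L)} with hS
    have hSU : S ⊆ extDomain z₀ L := by
      rintro u (h | ⟨h1, h2⟩)
      · exact Or.inl h
      · refine Or.inr ⟨h1, fun hmem => ?_⟩
        rw [infDist_zero_of_mem hmem] at h2
        linarith
    have hSclosed : IsClosed S := by
      have hc : ContinuousOn (fun u : ℂ => infDist (z₀ + u⁻¹) L) {u : ℂ | u ≠ 0} :=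
        (continuous_infDist_pt L).comp_continuousOn (continuousOn_const.add continuousOn_inv₀)
      have hopen : IsOpen ({u : ℂ | u ≠ 0} ∩ (fun u : ℂ => infDist (z₀ + u⁻¹) L) ⁻¹' Iio η) :=
        hc.isOpen_inter_preimage isOpen_ne isOpen_Iio
      rw [← isOpen_compl_iff]
      convert hopen using 1
      ext u
      constructor
      · intro hu
        have hu0 : u ≠ 0 := fun h => hu (Or.inl h)
        refine ⟨hu0, ?_⟩
        by_contra hcon
        exact hu (Or.inr ⟨hu0, not_lt.1 hcon⟩)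
      · rintro ⟨h1, h2⟩ (h3 | ⟨_, h3⟩)
        · exact h1 h3
        · exact absurd h2 (not_lt.2 h3)
    have hSbd : Bornology.IsBounded S := (isBounded_extDomain hr hball).subset hSU
    have hScpt : IsCompact S := Metric.isCompact_of_isClosed_isBounded hSclosed hSbd
    have hgc : ContinuousOn g S := hg.g_diff.continuousOn.mono hSU
    obtain ⟨u₀, hu₀, hmax⟩ := hScpt.exists_isMaxOn ⟨0, Or.inl rfl⟩ hgc.norm
    set ρ : ℝ := max ‖g u₀‖ (1 / 2) with hρ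
    have hρ1 : ρ < 1 := by
      refine max_lt ?_ (by norm_num)
      have := hg.g_mem _ (hSU hu₀)
      rwa [mem_ball_zero_iff] at this
    have hρpos : 0 < ρ := lt_of_lt_of_le (by norm_num) (le_max_right _ _)
    refine ⟨ρ⁻¹ - 1, by
      have := (one_lt_inv₀ hρpos).2 hρ1
      linarith, ?_⟩
    intro w hw hw'
    by_contra hcon
    have hcon := not_lt.1 hcon
    have hξ := hinvmem w hw
    have hne := hφne _ hξ (inv_ne_zero (hw0 w hw))
    have hmemS : φ w⁻¹ ∈ S := Or.inr ⟨hne, hcon⟩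
    have h1 : ‖g (φ w⁻¹)‖ ≤ ‖g u₀‖ := hmax hmemS
    rw [hg.g_phi _ hξ, norm_inv] at h1
    have h2 : ‖w‖⁻¹ ≤ ρ := h1.trans (le_max_left _ _)
    have hwpos : 0 < ‖w‖ := by linarith
    have h3 : ρ⁻¹ < ‖w‖ ⁻¹⁻¹ ∨ ρ⁻¹ = ‖w‖⁻¹⁻¹ ∨ ‖w‖⁻¹⁻¹ < ρ⁻¹ := lt_trichotomy _ _
    have h4 : ρ⁻¹ ≤ ‖w‖ := by
      have := inv_anti₀ (by positivity : 0 < ‖w‖⁻¹) h2
      rwa [inv_inv] at this
    linarith
  -- properness of `Φ`
  have hPhi : ∀ ε : ℝ, 0 < ε → ∃ η : ℝ, 0 < η ∧ ∀ z, z ∉ L → infDist z L < η → ‖Φ z‖ ≤ 1 + ε := by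
    intro ε hε
    have h1ε : 0 < 1 + ε := by linarith
    set ρ : ℝ := (1 + ε)⁻¹ with hρ
    have hρ1 : ρ < 1 := inv_lt_one_of_one_lt₀ (by linarith)
    have hρpos : 0 < ρ := by positivity
    have hsub : closedBall (0 : ℂ) ρ ⊆ ball (0 : ℂ) 1 := closedBall_subset_ball hρ1
    set T : Set ℂ := φ '' closedBall (0 : ℂ) ρ with hT
    have hTc : IsCompact T := (isCompact_closedBall _ _).image_of_continuousOn (hd.continuousOn.mono hsub)
    set L₁ : Set ℂ := L \ ball z₀ (r / 2) with hL₁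
    have hL₁c : IsCompact L₁ := hLk.diff isOpen_ball
    have hL₁ne : ∀ p ∈ L₁, p - z₀ ≠ 0 := by
      intro p hp h
      apply hp.2
      rw [sub_eq_zero] at h
      rw [h]
      exact mem_ball_self (by positivity)
    set Y : Set ℂ := (fun p => (p - z₀)⁻¹) '' L₁ with hY
    have hYc : IsCompact Y := by
      refine hL₁c.image_of_continuousOn ?_
      exact ContinuousOn.inv₀ (continuousOn_id.sub continuousOn_const) hL₁ne
    have hdisj : T ⊆ Yᶜ := by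
      rintro _ ⟨ξ, hξ, rfl⟩ ⟨p, hp, heq⟩
      have heq' : (p - z₀)⁻¹ = φ ξ := heq
      rcases hU ξ (hsub hξ) with h | ⟨h1, h2⟩
      · rw [h] at heq'
        exact inv_ne_zero (hL₁ne p hp) heq'
      · apply h2
        rw [← heq', inv_inv, add_sub_cancel]
        exact hp.1
    obtain ⟨τ, hτ, hτsub⟩ := hTc.exists_thickening_subset_open hYc.isClosed.isOpen_compl hdisj
    have hr2 : 0 < r / 2 := by positivity
    set η : ℝ := min (r / 2) (τ * r ^ 2 / 4) with hη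
    have hηpos : 0 < η := lt_min hr2 (by positivity)
    refine ⟨η, hηpos, ?_⟩
    intro z hz hinf
    by_contra hcon
    have hcon := not_le.1 hcon
    have hyz := hyU z hz
    have hξ := hg.g_mem _ hyz
    have hξ0 := hgne z hz
    -- the point `y` belongs to `T`
    have hyT : (z - z₀)⁻¹ ∈ T := by
      refine ⟨g (z - z₀)⁻¹, ?_, hg.phi_g _ hyz⟩
      rw [mem_closedBall_zero_iff]
      have h1 : (1 + ε) < ‖g (z - z₀)⁻¹‖⁻¹ := by
        have : ‖Φ z‖ = ‖g (z - z₀)⁻¹‖⁻¹ := by simp only [hΦ, norm_inv]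
        rwa [this] at hcon
      have hgpos : 0 < ‖g (z - z₀)⁻¹‖ := norm_pos_iff.2 hξ0
      exact (lt_inv_comm₀ h1ε hgpos).1 h1 |>.le
    -- the nearest point of `L`
    obtain ⟨p, hp, hpd⟩ := hLk.exists_infDist_eq_dist ⟨z₀, hz₀L⟩ z
    have hdist : ‖z - p‖ < η := by
      rw [← dist_eq_norm, ← hpd]
      exact hinf
    have hzr : r ≤ ‖z - z₀‖ := by
      by_contra hcon2
      have hcon2 := not_le.1 hcon2
      exact hz (hball (by
        rw [mem_ball, dist_eq_norm]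
        exact hcon2))
    have hpL₁ : p ∈ L₁ := by
      refine ⟨hp, fun hpb => ?_⟩
      rw [mem_ball, dist_eq_norm] at hpb
      have h1 : ‖z - z₀‖ ≤ ‖z - p‖ + ‖p - z₀‖ := by
        have : z - z₀ = (z - p) + (p - z₀) := by ring
        rw [this]
        exact norm_add_le _ _
      have h2 : ‖z - p‖ < r / 2 := lt_of_lt_of_le hdist (min_le_left _ _)
      linarith
    have hpz : r / 2 ≤ ‖p - z₀‖ := by
      by_contra hcon2
      exact hpL₁.2 (by
        rw [mem_ball, dist_eq_norm]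
        exact not_le.1 hcon2)
    have hzne' := hzne z hz
    have hpne := hL₁ne p hpL₁
    have hdiff : (z - z₀)⁻¹ - (p - z₀)⁻¹ = (p - z) / ((z - z₀) * (p - z₀)) := by
      field_simp
      ring
    have hclose : dist ((p - z₀)⁻¹) ((z - z₀)⁻¹) < τ := by
      rw [dist_comm, dist_eq_norm, hdiff, norm_div, norm_mul, norm_sub_rev p z]
      have hprod : r * (r / 2) ≤ ‖z - z₀‖ * ‖p - z₀‖ := by
        apply mul_le_mul hzr hpz hr2.le (norm_nonneg _)
      have hprodpos : 0 < r * (r / 2) := by positivity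
      have hposd : 0 < ‖z - z₀‖ * ‖p - z₀‖ := lt_of_lt_of_le hprodpos hprod
      rw [div_lt_iff₀ hposd]
      have h2 : ‖z - p‖ < τ * r ^ 2 / 4 := lt_of_lt_of_le hdist (min_le_right _ _)
      have h3 : τ * (r * (r / 2)) ≤ τ * (‖z - z₀‖ * ‖p - z₀‖) :=
        mul_le_mul_of_nonneg_left hprod hτ.le
      have h4 : τ * r ^ 2 / 4 ≤ τ * (r * (r / 2)) := by
        have : 0 ≤ τ * r ^ 2 := by positivity
        nlinarith
      linarith
    have hthick : (p - z₀)⁻¹ ∈ thickening τ T := by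
      rw [mem_thickening_iff]
      exact ⟨_, hyT, hclose⟩
    exact hτsub hthick ⟨p, hpL₁, rfl⟩
  exact ⟨{ psi := ψ, Phi := Φ, c := d⁻¹, hc := inv_ne_zero hd0, diff_psi := hdψ, diff_Phi := hdΦ,
           maps_psi := hmapsψ, maps_Phi := hmapsΦ, left_inv := hleft, right_inv := hright,
           bound_psi := hbψ, bound_Phi := hbΦ, proper_psi := hpsi, proper_Phi := hPhi }, fun _ => rfl⟩

end FromDisc

end Vale.Agent.Lib.P123.Rmt
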