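import Mathlib

open Complex Metric Set Filter Topology
open scoped ComplexConjugate

namespace Vale.Agent.Lib.P123.Rmt

/-- Local form of Hurwitz's theorem, by the minimum modulus principle. -/
theorem hurwitz_local {ι : Type*} {l : Filter ι} [l.NeBot] {F : ι → ℂ → ℂ} {G : ℂ → ℂ} {V : Set ℂ}
    {b : ℂ} {r : ℝ} (hV : IsOpen V) (hr : 0 < r) (hsub : closedBall b r ⊆ V)
    (hlim : TendstoLocallyUniformlyOn F G l V)
    (hG : ContinuousOn G V)
    (hFd : ∀ᶠ n in l, DifferentiableOn ℂ (F n) V)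
    (hFne : ∀ᶠ n in l, ∀ z ∈ closedBall b r, F n z ≠ 0)
    (hGb : G b = 0) (hGs : ∀ z ∈ sphere b r, G z ≠ 0) : False := by
  have hcomp : IsCompact (sphere b r) := isCompact_sphere b r
  have hne : (sphere b r).Nonempty := NormedSpace.sphere_nonempty.mpr hr.le
  have hss : sphere b r ⊆ V := sphere_subset_closedBall.trans hsub
  obtain ⟨z0, hz0, hmin⟩ := hcomp.exists_isMinOn hne (continuous_norm.comp_continuousOn (hG.mono hss))
  have hc : 0 < ‖G z0‖ := norm_pos_iff.mpr (hGs z0 hz0)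
  have hunif := (tendstoLocallyUniformlyOn_iff_forall_isCompact hV).1 hlim (closedBall b r) hsub
    (isCompact_closedBall b r)
  have hev := Metric.tendstoUniformlyOn_iff.1 hunif (‖G z0‖ / 2) (half_pos hc)
  obtain ⟨n, hn1, hn2, hn3⟩ := (hev.and (hFd.and hFne)).exists
  have hbb : b ∈ closedBall b r := mem_closedBall_self hr.le
  have h1 : ‖F n b‖ < ‖G z0‖ / 2 := by
    have := hn1 b hbb
    rwa [dist_eq_norm, hGb, zero_sub, norm_neg] at this
  have hdiff : DifferentiableOn ℂ (fun z => (F n z)⁻¹) (closure (ball b r)) := by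
    rw [closure_ball b hr.ne']
    exact (hn2.mono hsub).inv (fun z hz => hn3 z hz)
  have hbd : ∀ z ∈ frontier (ball b r), ‖(F n z)⁻¹‖ ≤ (‖G z0‖ / 2)⁻¹ := by
    intro z hz
    rw [frontier_ball b hr.ne'] at hz
    have hz' : z ∈ closedBall b r := sphere_subset_closedBall hz
    have h2 := hn1 z hz'
    rw [dist_eq_norm] at h2
    have h3 : ‖G z0‖ ≤ ‖G z‖ := hmin hz
    have h4 : ‖G z‖ ≤ ‖G z - F n z‖ + ‖F n z‖ := by
      have := norm_add_le (G z - F n z) (F n z)
      simpa using this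
    have h5 : ‖G z0‖ / 2 ≤ ‖F n z‖ := by linarith
    rw [norm_inv]
    exact inv_anti₀ (half_pos hc) h5
  have hb2 : b ∈ closure (ball b r) := by
    rw [closure_ball b hr.ne']; exact hbb
  have h6 := Complex.norm_le_of_forall_mem_frontier_norm_le isBounded_ball
    hdiff.diffContOnCl hbd hb2
  rw [norm_inv] at h6
  have h7 : 0 < ‖F n b‖ := norm_pos_iff.mpr (hn3 b hbb)
  have h8 := inv_lt_inv₀ (half_pos hc) h7 |>.2 h1
  linarith

/-- The Mobius map of the disc moving `a` to `0`. -/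
noncomputable def mob (a z : ℂ) : ℂ := (z - a) / (1 - conj a * z)

theorem normSq_mob_aux (a z : ℂ) :
    normSq (1 - conj a * z) - normSq (z - a) = (1 - normSq a) * (1 - normSq z) := by
  simp [normSq_apply]
  ring

theorem mob_den_ne {a z : ℂ} (ha : ‖a‖ < 1) (hz : ‖z‖ < 1) : 1 - conj a * z ≠ 0 := by
  intro h
  have h1 : conj a * z = 1 := by linear_combination -h
  have h2 : ‖conj a * z‖ = 1 := by rw [h1]; simp
  rw [norm_mul, RCLike.norm_conj] at h2
  have : ‖a‖ * ‖z‖ < 1 * 1 := mul_lt_mul'' ha hz (norm_nonneg _) (norm_nonneg _)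
  linarith

theorem norm_mob_lt {a z : ℂ} (ha : ‖a‖ < 1) (hz : ‖z‖ < 1) : ‖mob a z‖ < 1 := by
  have hden := mob_den_ne ha hz
  unfold mob
  rw [norm_div, div_lt_one (norm_pos_iff.mpr hden)]
  have h1 := normSq_mob_aux a z
  have h2 : normSq a < 1 := by
    rw [normSq_eq_norm_sq]; nlinarith [norm_nonneg a]
  have h3 : normSq z < 1 := by
    rw [normSq_eq_norm_sq]; nlinarith [norm_nonneg z]
  have h4 : normSq (z - a) < normSq (1 - conj a * z) := by
    have : 0 < (1 - normSq a) * (1 - normSq z) := mul_pos (by linarith) (by linarith)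
    linarith
  rw [normSq_eq_norm_sq, normSq_eq_norm_sq] at h4
  exact lt_of_pow_lt_pow_left₀ 2 (norm_nonneg _) h4

theorem mob_inj {a z w : ℂ} (ha : ‖a‖ < 1) (hz : ‖z‖ < 1) (hw : ‖w‖ < 1)
    (h : mob a z = mob a w) : z = w := by
  unfold mob at h
  rw [div_eq_div_iff (mob_den_ne ha hz) (mob_den_ne ha hw)] at h
  have h1 : (z - w) * (1 - conj a * a) = 0 := by linear_combination h
  have h2 : 1 - conj a * a ≠ 0 := mob_den_ne ha ha
  rcases mul_eq_zero.1 h1 with h3 | h3
  · exact sub_eq_zero.1 h3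
  · exact absurd h3 h2

theorem hasDerivAt_mob {a z : ℂ} (hden : 1 - conj a * z ≠ 0) :
    HasDerivAt (mob a) ((1 - conj a * a) / (1 - conj a * z) ^ 2) z := by
  have h1 : HasDerivAt (fun z => z - a) 1 z := (hasDerivAt_id z).sub_const a
  have h2 : HasDerivAt (fun z => 1 - conj a * z) (-(conj a)) z := by
    simpa using ((hasDerivAt_id z).const_mul (conj a)).const_sub 1
  have h3 := h1.fun_div h2 hden
  have h4 : (1 * (1 - conj a * z) - (z - a) * -conj a) = 1 - conj a * a := by ring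
  rw [h4] at h3
  exact h3

theorem mob_self (a : ℂ) : mob a a = 0 := by simp [mob]

theorem mob_zero (a : ℂ) : mob a 0 = -a := by simp [mob]

/-- A continuous square root of a differentiable nonvanishing function is differentiable. -/
theorem hasDerivAt_sqrt_branch {U : Set ℂ} (hU : IsOpen U) {q h : ℂ → ℂ} {z : ℂ} (hz : z ∈ U)
    (hq : ContinuousOn q U) (hsq : ∀ x, q x ^ 2 = h x) (hne : h z ≠ 0)
    {h' : ℂ} (hd : HasDerivAt h h' z) : HasDerivAt q (h' / (2 * q z)) z := by
  have hq0 : q z ≠ 0 := by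
    intro h0
    apply hne
    rw [← hsq, h0]; simp
  have hqc : ContinuousAt q z := hq.continuousAt (hU.mem_nhds hz)
  rw [hasDerivAt_iff_tendsto_slope] at hd ⊢
  have hden : Tendsto (fun x => q x + q z) (𝓝[≠] z) (𝓝 (2 * q z)) := by
    have : Tendsto (fun x => q x + q z) (𝓝 z) (𝓝 (q z + q z)) := hqc.add continuousAt_const
    rw [two_mul]
    exact this.mono_left nhdsWithin_le_nhds
  have h2 : (2 * q z) ≠ 0 := mul_ne_zero two_ne_zero hq0
  have hdiv := hd.div hden h2
  refine hdiv.congr' ?_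
  have hev : ∀ᶠ x in 𝓝[≠] z, q x + q z ≠ 0 := by
    apply hden.eventually_ne h2
  filter_upwards [hev, self_mem_nhdsWithin] with x hx hxz
  have hxz' : x - z ≠ 0 := sub_ne_zero.2 hxz
  simp only [slope_def_field, Pi.div_apply]
  rw [← hsq x, ← hsq z]
  field_simp
  ring

/-- The class of competitors in the extremal problem. -/
structure Good (U : Set ℂ) (f : ℂ → ℂ) : Prop where
  diff : DifferentiableOn ℂ f U
  maps : MapsTo f U (ball 0 1)
  inj : InjOn f U
  zero : f 0 = 0
  deriv_ne : ∀ z ∈ U, deriv f z ≠ 0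

section Main

variable {U : Set ℂ}

theorem starConvex_of
    (hstar : ∀ z ∈ U, ∀ t ∈ Set.Icc (0 : ℝ) 1, ((t : ℂ) * z) ∈ U) : StarConvex ℝ (0 : ℂ) U := by
  intro y hy a b ha hb hab
  have := hstar y hy b ⟨hb, by linarith⟩
  simpa using this

theorem isSimplyConnected_of (hU0 : (0 : ℂ) ∈ U)
    (hstar : ∀ z ∈ U, ∀ t ∈ Set.Icc (0 : ℝ) 1, ((t : ℂ) * z) ∈ U) : IsSimplyConnected U := by
  have hc : ContractibleSpace U := (starConvex_of hstar).contractibleSpace ⟨0, hU0⟩
  unfold IsSimplyConnected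
  infer_instance

theorem isPreconnected_of (hU0 : (0 : ℂ) ∈ U)
    (hstar : ∀ z ∈ U, ∀ t ∈ Set.Icc (0 : ℝ) 1, ((t : ℂ) * z) ∈ U) : IsPreconnected U :=
  ((starConvex_of hstar).isPathConnected hU0).isConnected.isPreconnected

/-- A bound for the derivative at `0` on the class. -/
theorem good_deriv_le {f : ℂ → ℂ} {r : ℝ} (hr : 0 < r) (hb : ball 0 r ⊆ U) (hf : Good U f) :
    ‖deriv f 0‖ ≤ 1 / r := by
  refine Complex.norm_deriv_le_div_of_mapsTo_ball (hf.diff.mono hb) ?_ hr
  intro z hz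
  have h1 := hf.maps (hb hz)
  rw [hf.zero]
  exact ball_subset_closedBall h1

/-- Equi-Lipschitz bound on balls. -/
theorem good_lip {f : ℂ → ℂ} {c : ℂ} {r : ℝ} (hr : 0 < r) (hb : ball c (2 * r) ⊆ U) (hf : Good U f)
    {x y : ℂ} (hx : x ∈ ball c r) (hy : y ∈ ball c r) : ‖f x - f y‖ ≤ 1 / r * ‖x - y‖ := by
  have hd : ∀ z ∈ ball c r, DifferentiableAt ℂ f z := by
    intro z hz
    have hz2 : z ∈ ball c (2 * r) := ball_subset_ball (by linarith) hz
    exact (hf.diff z (hb hz2)).differentiableAt (by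
      exact mem_of_superset (isOpen_ball.mem_nhds hz2) hb)
  have hbound : ∀ z ∈ ball c r, ‖deriv f z‖ ≤ 1 / r := by
    intro z hz
    have hzc : dist z c < r := hz
    have hsub : closedBall z r ⊆ U := by
      refine Subset.trans ?_ hb
      intro w hw
      have hw' : dist w z ≤ r := hw
      have := dist_triangle w z c
      rw [mem_ball]
      linarith
    refine Complex.norm_deriv_le_of_forall_mem_sphere_norm_le hr ?_ ?_
    · apply DifferentiableOn.diffContOnCl
      rw [closure_ball z hr.ne']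
      exact hf.diff.mono hsub
    · intro w hw
      have h1 := hf.maps (hsub (sphere_subset_closedBall hw))
      rw [mem_ball_zero_iff] at h1
      exact h1.le
  exact (convex_ball c r).norm_image_sub_le_of_norm_deriv_le hd hbound hy hx

/-- Isolated zeros in a connected open set. -/
theorem isolated_zero {G : ℂ → ℂ} {V W : Set ℂ} {b c : ℂ} (hV : IsOpen V) (hpre : IsPreconnected V)
    (hG : DifferentiableOn ℂ G V) (hb : b ∈ V) (hc : c ∈ V) (hGc : G c ≠ 0)
    (hW : W ∈ 𝓝 b) : ∃ r : ℝ, 0 < r ∧ closedBall b r ⊆ V ∩ W ∧ ∀ z ∈ sphere b r, G z ≠ 0 := by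
  have han : AnalyticOnNhd ℂ G V := hG.analyticOnNhd hV
  have hnz : ∀ᶠ z in 𝓝[≠] b, G z ≠ 0 := by
    rcases (han b hb).eventually_eq_zero_or_eventually_ne_zero with h | h
    · exact absurd (han.eqOn_zero_of_preconnected_of_eventuallyEq_zero hpre hb h hc) hGc
    · exact h
  rw [eventually_nhdsWithin_iff, Metric.eventually_nhds_iff] at hnz
  obtain ⟨e1, he1, h1⟩ := hnz
  obtain ⟨e2, he2, h2⟩ := Metric.nhds_basis_closedBall.mem_iff.1 (inter_mem (hV.mem_nhds hb) hW)
  refine ⟨min (e1 / 2) e2, lt_min (half_pos he1) he2, ?_, ?_⟩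
  · exact (closedBall_subset_closedBall (min_le_right _ _)).trans h2
  · intro z hz
    have hdist : dist z b = min (e1 / 2) e2 := hz
    have hpos : 0 < min (e1 / 2) e2 := lt_min (half_pos he1) he2
    have hlt : dist z b < e1 := by
      rw [hdist]
      exact lt_of_le_of_lt (min_le_left _ _) (half_lt_self he1)
    have hne : z ≠ b := by
      intro h
      rw [h, dist_self] at hdist
      linarith
    exact h1 hlt hne

/-- Pointwise limit along an ultrafilter, locally uniform by the equi-Lipschitz bound. -/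
theorem exists_limit (hUo : IsOpen U) {F : ℕ → ℂ → ℂ} (hF : ∀ n, Good U (F n)) :
    ∃ g : ℂ → ℂ, TendstoLocallyUniformlyOn F g (hyperfilter ℕ : Filter ℕ) U := by
  classical
  have hex : ∀ z : ℂ, z ∈ U → ∃ a : ℂ, Tendsto (fun n => F n z) (hyperfilter ℕ : Filter ℕ) (𝓝 a) := by
    intro z hz
    have hle : ((hyperfilter ℕ).map (fun n => F n z) : Filter ℂ) ≤ 𝓟 (closedBall 0 1) := by
      simp only [Ultrafilter.coe_map, le_principal_iff, mem_map]
      refine Filter.Eventually.of_forall fun n => ?_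
      exact ball_subset_closedBall ((hF n).maps hz)
    obtain ⟨a, -, ha⟩ := (isCompact_closedBall (0 : ℂ) 1).ultrafilter_le_nhds _ hle
    exact ⟨a, ha⟩
  choose! g hg using hex
  refine ⟨g, ?_⟩
  rw [Metric.tendstoLocallyUniformlyOn_iff]
  intro ε hε x hx
  obtain ⟨r0, hr0, hball⟩ := Metric.isOpen_iff.1 hUo x hx
  set r := r0 / 2 with hrdef
  have hr : 0 < r := half_pos hr0
  have hb : ball x (2 * r) ⊆ U := by
    have : 2 * r = r0 := by rw [hrdef]; ring
    rw [this]; exact hball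
  set e := min r (ε * r / 3) with hedef
  have he : 0 < e := lt_min hr (by positivity)
  have hlipF : ∀ n, ∀ y ∈ ball x e, ‖F n x - F n y‖ < ε / 3 := by
    intro n y hy
    have hy' : y ∈ ball x r := ball_subset_ball (min_le_left _ _) hy
    have h1 := good_lip hr hb (hF n) (mem_ball_self hr) hy'
    have h2 : ‖x - y‖ < ε * r / 3 := by
      have : dist y x < e := hy
      rw [dist_comm, dist_eq_norm] at this
      exact lt_of_lt_of_le this (min_le_right _ _)
    calc ‖F n x - F n y‖ ≤ 1 / r * ‖x - y‖ := h1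
      _ < 1 / r * (ε * r / 3) := by
          exact mul_lt_mul_of_pos_left h2 (by positivity)
      _ = ε / 3 := by field_simp
  have hlipg : ∀ y ∈ ball x e, ‖g x - g y‖ ≤ ε / 3 := by
    intro y hy
    have hyU : y ∈ U := hball (ball_subset_ball (by
      have h1 : e ≤ r := min_le_left _ _
      have h2 : r ≤ r0 := by rw [hrdef]; linarith
      linarith) hy)
    have hlim : Tendsto (fun n => ‖F n x - F n y‖) (hyperfilter ℕ : Filter ℕ) (𝓝 ‖g x - g y‖) :=
      ((hg x hx).sub (hg y hyU)).norm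
    exact le_of_tendsto hlim (Filter.Eventually.of_forall fun n => (hlipF n y hy).le)
  refine ⟨ball x e, mem_nhdsWithin_of_mem_nhds (ball_mem_nhds x he), ?_⟩
  have hev := (Metric.tendsto_nhds.1 (hg x hx)) (ε / 3) (by positivity)
  filter_upwards [hev] with n hn y hy
  have h1 := hlipF n y hy
  have h2 := hlipg y hy
  have h3 : ‖F n x - g x‖ < ε / 3 := by
    rwa [dist_eq_norm] at hn
  rw [dist_eq_norm]
  have h4 : g y - F n y = -(g x - g y) + (-(F n x - g x)) + (F n x - F n y) := by ring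
  rw [h4]
  calc ‖-(g x - g y) + (-(F n x - g x)) + (F n x - F n y)‖
      ≤ ‖-(g x - g y)‖ + ‖-(F n x - g x)‖ + ‖F n x - F n y‖ := norm_add₃_le
    _ < ε := by
        rw [norm_neg, norm_neg]
        linarith

/-- Existence of an extremal map. -/
theorem exists_extremal (hUo : IsOpen U) (hU0 : (0 : ℂ) ∈ U)
    (hstar : ∀ z ∈ U, ∀ t ∈ Set.Icc (0 : ℝ) 1, ((t : ℂ) * z) ∈ U)
    (hbd : Bornology.IsBounded U) :
    ∃ f : ℂ → ℂ, Good U f ∧ ∀ g, Good U g → ‖deriv g 0‖ ≤ ‖deriv f 0‖ := by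
  classical
  have hpre : IsPreconnected U := isPreconnected_of hU0 hstar
  obtain ⟨R, hR⟩ := hbd.subset_ball_lt 0 0
  obtain ⟨hRpos, hRsub⟩ := hR
  -- a first competitor
  have hg0 : Good U (fun z => z / (R : ℂ)) := by
    have hRc : (R : ℂ) ≠ 0 := by exact_mod_cast hRpos.ne'
    have hd : ∀ z, HasDerivAt (fun z : ℂ => z / (R : ℂ)) (1 / (R : ℂ)) z := fun z =>
      (hasDerivAt_id z).div_const _
    refine ⟨fun z _ => (hd z).differentiableAt.differentiableWithinAt, ?_, ?_, by simp, ?_⟩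
    · intro z hz
      have h1 := hRsub hz
      rw [mem_ball_zero_iff] at h1 ⊢
      rw [norm_div, Complex.norm_real, Real.norm_of_nonneg hRpos.le, div_lt_one hRpos]
      exact h1
    · intro x _ y _ h
      exact (div_left_inj' hRc).1 h
    · intro z _
      rw [(hd z).deriv]
      exact div_ne_zero one_ne_zero hRc
  obtain ⟨r0, hr0, hball0⟩ := Metric.isOpen_iff.1 hUo 0 hU0
  let S : Set ℝ := (fun g => ‖deriv g 0‖) '' {g | Good U g}
  have hSne : S.Nonempty := ⟨_, _, hg0, rfl⟩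
  have hSbd : BddAbove S := by
    refine ⟨1 / r0, ?_⟩
    rintro _ ⟨g, hg, rfl⟩
    exact good_deriv_le hr0 hball0 hg
  obtain ⟨u, -, hu, huS⟩ := exists_seq_tendsto_sSup hSne hSbd
  choose F hF hFu using huS
  have hF' : ∀ n, Good U (F n) := hF
  obtain ⟨g, hlim⟩ := exists_limit hUo hF'
  have hl : ((hyperfilter ℕ : Filter ℕ)) ≤ atTop := by
    rw [← Nat.cofinite_eq_atTop]
    exact hyperfilter_le_cofinite
  have : ((hyperfilter ℕ : Filter ℕ)).NeBot := inferInstance
  have hptw : ∀ z ∈ U, Tendsto (fun n => F n z) (hyperfilter ℕ : Filter ℕ) (𝓝 (g z)) := fun z hz =>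
    hlim.tendsto_at hz
  have hFdiff : ∀ᶠ n in (hyperfilter ℕ : Filter ℕ), DifferentiableOn ℂ (F n) U :=
    Filter.Eventually.of_forall fun n => (hF' n).diff
  have hgd : DifferentiableOn ℂ g U := hlim.differentiableOn hFdiff hUo
  have hlimd : TendstoLocallyUniformlyOn (deriv ∘ F) (deriv g) (hyperfilter ℕ : Filter ℕ) U :=
    hlim.deriv hFdiff hUo
  have hdg0 : ‖deriv g 0‖ = sSup S := by
    have h1 : Tendsto (fun n => ‖deriv (F n) 0‖) (hyperfilter ℕ : Filter ℕ) (𝓝 ‖deriv g 0‖) :=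
      (hlimd.tendsto_at hU0).norm
    have h2 : Tendsto (fun n => ‖deriv (F n) 0‖) (hyperfilter ℕ : Filter ℕ) (𝓝 (sSup S)) := by
      refine (hu.mono_left hl).congr fun n => ?_
      exact (hFu n).symm
    exact tendsto_nhds_unique h1 h2
  have hspos : 0 < sSup S := by
    have h1 : ‖deriv (fun z : ℂ => z / (R : ℂ)) 0‖ ≤ sSup S := le_csSup hSbd ⟨_, hg0, rfl⟩
    have hRc : (R : ℂ) ≠ 0 := by exact_mod_cast hRpos.ne'
    have h2 : 0 < ‖deriv (fun z : ℂ => z / (R : ℂ)) 0‖ := by
      have hd0 : HasDerivAt (fun z : ℂ => z / (R : ℂ)) (1 / (R : ℂ)) 0 :=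
        (hasDerivAt_id (0 : ℂ)).div_const _
      rw [hd0.deriv]
      exact norm_pos_iff.mpr (div_ne_zero one_ne_zero hRc)
    linarith
  have hdg0ne : deriv g 0 ≠ 0 := by
    intro h
    rw [h, norm_zero] at hdg0
    linarith
  have hgzero : g 0 = 0 := by
    have h1 := hptw 0 hU0
    have h2 : (fun n => F n 0) = fun _ => (0 : ℂ) := by
      funext n; exact (hF' n).zero
    rw [h2] at h1
    exact (tendsto_nhds_unique h1 tendsto_const_nhds)
  have hgderivne : ∀ z ∈ U, deriv g z ≠ 0 := by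
    intro b hb hzero
    obtain ⟨r, hr, hsub, hsph⟩ := isolated_zero (W := univ) hUo hpre (hgd.deriv hUo) hb hU0 hdg0ne
      univ_mem
    refine hurwitz_local (F := deriv ∘ F) hUo hr (fun x hx => (hsub hx).1) hlimd
      (hgd.deriv hUo).continuousOn ?_ ?_ hzero hsph
    · exact Filter.Eventually.of_forall fun n => (hF' n).diff.deriv hUo
    · exact Filter.Eventually.of_forall fun n z hz => (hF' n).deriv_ne z (hsub hz).1
  have hginj : InjOn g U := by
    intro a ha b hb hab
    by_contra hne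
    -- `G z = g z - g a`
    have hGd : DifferentiableOn ℂ (fun z => g z - g a) U := hgd.sub_const _
    have hGb : (fun z => g z - g a) b = 0 := by simp [← hab]
    have hGnz : ∃ c ∈ U, g c - g a ≠ 0 := by
      by_contra hcon
      push Not at hcon
      have hconst : ∀ c ∈ U, g c = g a := fun c hc => sub_eq_zero.1 (hcon c hc)
      have : deriv g 0 = 0 := by
        have hev : g =ᶠ[𝓝 0] fun _ => g a :=
          Filter.eventually_of_mem (hUo.mem_nhds hU0) hconst
        rw [hev.deriv_eq]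
        simp
      exact hdg0ne this
    obtain ⟨c, hc, hGc⟩ := hGnz
    have hW : ({a}ᶜ : Set ℂ) ∈ 𝓝 b := isOpen_compl_singleton.mem_nhds (Ne.symm hne)
    obtain ⟨r, hr, hsub, hsph⟩ := isolated_zero hUo hpre hGd hb hc hGc hW
    have hlim2 : TendstoLocallyUniformlyOn (fun n z => F n z - F n a) (fun z => g z - g a)
        (hyperfilter ℕ : Filter ℕ) U := by
      rw [Metric.tendstoLocallyUniformlyOn_iff] at hlim ⊢
      intro ε hε x hx
      obtain ⟨t, ht, hev⟩ := hlim (ε / 2) (half_pos hε) x hx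
      refine ⟨t, ht, ?_⟩
      have hev2 := (Metric.tendsto_nhds.1 (hptw a ha)) (ε / 2) (half_pos hε)
      filter_upwards [hev, hev2] with n hn hn2 y hy
      have h1 := hn y hy
      rw [dist_eq_norm] at h1 hn2 ⊢
      have h2 : g y - g a - (F n y - F n a) = (g y - F n y) + (F n a - g a) := by ring
      rw [h2]
      calc ‖(g y - F n y) + (F n a - g a)‖ ≤ ‖g y - F n y‖ + ‖F n a - g a‖ := norm_add_le _ _
        _ < ε := by linarith
    refine hurwitz_local (F := fun n z => F n z - F n a) hUo hr (fun x hx => (hsub hx).1) hlim2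
      hGd.continuousOn ?_ ?_ hGb hsph
    · exact Filter.Eventually.of_forall fun n => (hF' n).diff.sub_const _
    · refine Filter.Eventually.of_forall fun n z hz h0 => ?_
      have hzU := (hsub hz).1
      have hza : z ≠ a := (hsub hz).2
      exact hza ((hF' n).inj hzU ha (sub_eq_zero.1 h0))
  have hgmaps : MapsTo g U (ball 0 1) := by
    intro z hz
    have hle : ‖g z‖ ≤ 1 := by
      refine le_of_tendsto (hptw z hz).norm (Filter.Eventually.of_forall fun n => ?_)
      have := (hF' n).maps hz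
      rw [mem_ball_zero_iff] at this
      exact this.le
    rw [mem_ball_zero_iff]
    refine lt_of_le_of_ne hle fun heq => ?_
    have hmax : IsMaxOn (norm ∘ g) U z := by
      intro w hw
      have hle2 : ‖g w‖ ≤ 1 := by
        refine le_of_tendsto (hptw w hw).norm (Filter.Eventually.of_forall fun n => ?_)
        have := (hF' n).maps hw
        rw [mem_ball_zero_iff] at this
        exact this.le
      simp only [Set.mem_ofPred_eq, Function.comp_apply, heq]
      exact hle2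
    have hcst := Complex.eqOn_of_isPreconnected_of_isMaxOn_norm hpre hUo hgd hz hmax
    have : deriv g 0 = 0 := by
      have hev : g =ᶠ[𝓝 0] fun _ => g z :=
        Filter.eventually_of_mem (hUo.mem_nhds hU0) fun y hy => hcst hy
      rw [hev.deriv_eq]
      simp
    exact hdg0ne this
  refine ⟨g, ⟨hgd, hgmaps, hginj, hgzero, hgderivne⟩, fun h hh => ?_⟩
  rw [hdg0]
  exact le_csSup hSbd ⟨h, hh, rfl⟩

/-- Koebe: an extremal map is onto the disc. -/
theorem extremal_surj (hUo : IsOpen U) (hU0 : (0 : ℂ) ∈ U)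
    (hstar : ∀ z ∈ U, ∀ t ∈ Set.Icc (0 : ℝ) 1, ((t : ℂ) * z) ∈ U)
    {f : ℂ → ℂ} (hf : Good U f) (hext : ∀ g, Good U g → ‖deriv g 0‖ ≤ ‖deriv f 0‖) :
    f '' U = ball 0 1 := by
  classical
  refine Subset.antisymm (image_subset_iff.2 hf.maps) ?_
  intro a ha
  by_contra hna
  have ha1 : ‖a‖ < 1 := by simpa using ha
  have hfne : ∀ z ∈ U, f z ≠ a := fun z hz h => hna ⟨z, hz, h⟩
  have ha0 : a ≠ 0 := by
    intro h
    exact hfne 0 hU0 (by rw [hf.zero, h])
  have hfn : ∀ z ∈ U, ‖f z‖ < 1 := fun z hz => by simpa using hf.maps hz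
  -- derivative of `h = mob a ∘ f`
  have hden : ∀ z ∈ U, 1 - conj a * f z ≠ 0 := fun z hz => mob_den_ne ha1 (hfn z hz)
  have hfd : ∀ z ∈ U, HasDerivAt f (deriv f z) z := fun z hz =>
    (hf.diff.differentiableAt (hUo.mem_nhds hz)).hasDerivAt
  have hhd : ∀ z ∈ U, HasDerivAt (fun z => mob a (f z))
      ((1 - conj a * a) / (1 - conj a * f z) ^ 2 * deriv f z) z := fun z hz =>
    (hasDerivAt_mob (hden z hz)).comp z (hfd z hz)
  have hhcont : ContinuousOn (fun z => mob a (f z)) U := fun z hz =>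
    (hhd z hz).continuousAt.continuousWithinAt
  have hhne : ∀ z ∈ U, mob a (f z) ≠ 0 := by
    intro z hz h
    unfold mob at h
    rcases div_eq_zero_iff.1 h with h1 | h1
    · exact hfne z hz (sub_eq_zero.1 h1)
    · exact hden z hz h1
  obtain ⟨q, hqc, hq⟩ := Complex.exists_continuousOn_pow_eq (isSimplyConnected_of hU0 hstar) hUo hhcont
    (by rintro ⟨z, hz, h⟩; exact hhne z hz h) two_ne_zero
  have hqn : ∀ z ∈ U, ‖q z‖ < 1 := by
    intro z hz
    have h1 : ‖q z‖ ^ 2 < 1 := by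
      rw [← norm_pow, hq z]
      exact norm_mob_lt ha1 (hfn z hz)
    nlinarith [norm_nonneg (q z)]
  have hqd : ∀ z ∈ U, HasDerivAt q
      ((1 - conj a * a) / (1 - conj a * f z) ^ 2 * deriv f z / (2 * q z)) z := fun z hz =>
    hasDerivAt_sqrt_branch hUo hz hqc hq (hhne z hz) (hhd z hz)
  have hqne : ∀ z ∈ U, q z ≠ 0 := by
    intro z hz h0
    apply hhne z hz
    rw [← hq z, h0]
    simp
  set c := q 0 with hcdef
  have hc1 : ‖c‖ < 1 := hqn 0 hU0
  have hc0 : c ≠ 0 := hqne 0 hU0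
  have hcsq : c ^ 2 = -a := by
    have := hq 0
    rw [hf.zero, mob_zero] at this
    exact this
  have hden2 : ∀ z ∈ U, 1 - conj c * q z ≠ 0 := fun z hz => mob_den_ne hc1 (hqn z hz)
  have hFd : ∀ z ∈ U, HasDerivAt (fun z => mob c (q z))
      ((1 - conj c * c) / (1 - conj c * q z) ^ 2 *
        ((1 - conj a * a) / (1 - conj a * f z) ^ 2 * deriv f z / (2 * q z))) z := fun z hz =>
    (hasDerivAt_mob (hden2 z hz)).comp z (hqd z hz)
  have haa : 1 - conj a * a ≠ 0 := mob_den_ne ha1 ha1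
  have hcc : 1 - conj c * c ≠ 0 := mob_den_ne hc1 hc1
  have hgood : Good U (fun z => mob c (q z)) := by
    refine ⟨fun z hz => (hFd z hz).differentiableAt.differentiableWithinAt, ?_, ?_, ?_, ?_⟩
    · intro z hz
      rw [mem_ball_zero_iff]
      exact norm_mob_lt hc1 (hqn z hz)
    · intro x hx y hy hxy
      have h1 : q x = q y := mob_inj hc1 (hqn x hx) (hqn y hy) hxy
      have h2 : mob a (f x) = mob a (f y) := by
        rw [← hq x, ← hq y, h1]
      exact hf.inj hx hy (mob_inj ha1 (hfn x hx) (hfn y hy) h2)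
    · exact mob_self c
    · intro z hz
      rw [(hFd z hz).deriv]
      refine mul_ne_zero (div_ne_zero hcc (pow_ne_zero 2 (hden2 z hz))) (div_ne_zero
        (mul_ne_zero (div_ne_zero haa (pow_ne_zero 2 (hden z hz))) (hf.deriv_ne z hz))
        (mul_ne_zero two_ne_zero (hqne z hz)))
  have hle := hext _ hgood
  rw [(hFd 0 hU0).deriv] at hle
  -- real computation
  have hf0 := hf.zero
  have hq0 : q 0 = c := rfl
  rw [hf0, hq0] at hle
  have hρ : 0 < ‖c‖ := norm_pos_iff.mpr hc0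
  have hna : ‖a‖ = ‖c‖ ^ 2 := by
    rw [← norm_pow, hcsq, norm_neg]
  have hcc' : 1 - conj c * c = ((1 - ‖c‖ ^ 2 : ℝ) : ℂ) := by
    rw [Complex.conj_mul']
    push_cast
    ring
  have haa' : 1 - conj a * a = ((1 - ‖c‖ ^ 4 : ℝ) : ℂ) := by
    rw [Complex.conj_mul', hna]
    push_cast
    ring
  have hd1 : 0 < 1 - ‖c‖ ^ 2 := by nlinarith [norm_nonneg c]
  have hd2 : 0 < 1 - ‖c‖ ^ 4 := by nlinarith [norm_nonneg c, sq_nonneg (‖c‖ ^ 2)]
  have hval : ‖(1 - conj c * c) / (1 - conj c * c) ^ 2 *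
      ((1 - conj a * a) / (1 - conj a * 0) ^ 2 * deriv f 0 / (2 * c))‖ =
      (1 + ‖c‖ ^ 2) / (2 * ‖c‖) * ‖deriv f 0‖ := by
    rw [hcc', haa']
    simp only [norm_mul, norm_div, norm_pow, Complex.norm_real, Real.norm_of_nonneg hd1.le,
      Real.norm_of_nonneg hd2.le, mul_zero, sub_zero, one_pow, div_one,
      Complex.norm_ofNat]
    have h1 : 1 - ‖c‖ ^ 4 = (1 - ‖c‖ ^ 2) * (1 + ‖c‖ ^ 2) := by ring
    rw [h1]
    field_simp
  rw [hval] at hle
  have hdpos : 0 < ‖deriv f 0‖ := norm_pos_iff.mpr (hf.deriv_ne 0 hU0)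
  have hgt : 1 < (1 + ‖c‖ ^ 2) / (2 * ‖c‖) := by
    rw [one_lt_div (by positivity)]
    nlinarith [sq_pos_of_pos (sub_pos.2 hc1)]
  nlinarith

/-- **Riemann mapping theorem** for bounded star-shaped open sets: a biholomorphism from `U` onto
the unit disc fixing `0`, together with its inverse. -/
theorem exists_riemann_data (hUo : IsOpen U) (hU0 : (0 : ℂ) ∈ U)
    (hstar : ∀ z ∈ U, ∀ t ∈ Set.Icc (0 : ℝ) 1, ((t : ℂ) * z) ∈ U)
    (hbd : Bornology.IsBounded U) :
    ∃ f φ : ℂ → ℂ, DifferentiableOn ℂ f U ∧ DifferentiableOn ℂ φ (ball 0 1) ∧ f 0 = 0 ∧ φ 0 = 0 ∧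
      MapsTo f U (ball 0 1) ∧ MapsTo φ (ball 0 1) U ∧ (∀ z ∈ U, φ (f z) = z) ∧
      (∀ v ∈ ball (0 : ℂ) 1, f (φ v) = v) ∧ (∀ z ∈ U, deriv f z ≠ 0) ∧
      (∀ v ∈ ball (0 : ℂ) 1, deriv φ v ≠ 0) := by
  classical
  obtain ⟨f, hf, hext⟩ := exists_extremal hUo hU0 hstar hbd
  have hsurj := extremal_surj hUo hU0 hstar hf hext
  let φ : ℂ → ℂ := Function.invFunOn f U
  have hφmem : ∀ v ∈ ball (0 : ℂ) 1, φ v ∈ U ∧ f (φ v) = v := by
    intro v hv
    rw [← hsurj] at hv
    exact ⟨Function.invFunOn_mem hv, Function.invFunOn_eq hv⟩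
  have hφf : ∀ z ∈ U, φ (f z) = z := fun z hz =>
    hf.inj (hφmem _ (hf.maps hz)).1 hz (hφmem _ (hf.maps hz)).2
  have hfd : ∀ z ∈ U, HasDerivAt f (deriv f z) z := fun z hz =>
    (hf.diff.differentiableAt (hUo.mem_nhds hz)).hasDerivAt
  have hanal : AnalyticOnNhd ℂ f U := hf.diff.analyticOnNhd hUo
  have hφd : ∀ v ∈ ball (0 : ℂ) 1, HasDerivAt φ (deriv f (φ v))⁻¹ v := by
    intro v hv
    obtain ⟨hmem, hv2⟩ := hφmem v hv
    have hstrict : HasStrictDerivAt f (deriv f (φ v)) (φ v) :=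
      (hanal _ hmem).hasStrictDerivAt
    have hmap := hstrict.map_nhds_eq (hf.deriv_ne _ hmem)
    rw [hv2] at hmap
    have hcont : ContinuousAt φ v := by
      intro N hN
      have hN' : φ ⁻¹' N ∈ 𝓝 v := by
        have hNU : N ∩ U ∈ 𝓝 (φ v) := inter_mem hN (hUo.mem_nhds hmem)
        have h1 : f '' (N ∩ U) ∈ 𝓝 v := by
          rw [← hmap]
          exact image_mem_map hNU
        refine mem_of_superset h1 ?_
        rintro _ ⟨w, ⟨hwN, hwU⟩, rfl⟩
        simpa [hφf w hwU] using hwN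
      exact hN'
    refine HasDerivAt.of_local_left_inverse hcont (hfd _ hmem) (hf.deriv_ne _ hmem) ?_
    filter_upwards [isOpen_ball.mem_nhds hv] with y hy
    exact (hφmem y hy).2
  refine ⟨f, φ, hf.diff, fun v hv => (hφd v hv).differentiableAt.differentiableWithinAt, hf.zero,
    ?_, hf.maps, fun v hv => (hφmem v hv).1, hφf, fun v hv => (hφmem v hv).2, hf.deriv_ne, ?_⟩
  · have := hφf 0 hU0
    rwa [hf.zero] at this
  · intro v hv
    rw [(hφd v hv).deriv]
    exact inv_ne_zero (hf.deriv_ne _ (hφmem v hv).1)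

end Main

end Vale.Agent.Lib.P123.Rmt
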