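import Vale.Agent.Lib.P123.Rmt.Ext
import Vale.Agent.Lib.P123.Rmt.Riemann

/-!
# Existence of the exterior conformal map of a compact convex set with nonempty interior
-/

namespace Vale.Agent.Lib.P123.Rmt

open Complex Metric Set Filter Topology

/-- The Riemann map `φ` of the inverted exterior, with the exterior map `psi w = z₀ + 1 / φ (1 / w)`. -/
theorem exists_disc_extMap {L : Set ℂ} (hLk : IsCompact L) (hLv : Convex ℝ L) {z₀ : ℂ} {r : ℝ}
    (hr : 0 < r) (hball : ball z₀ r ⊆ L) :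
    ∃ (φ : ℂ → ℂ) (M : ExtMap L), DifferentiableOn ℂ φ (ball 0 1) ∧ φ 0 = 0 ∧
      InjOn φ (ball 0 1) ∧ (∀ ξ ∈ ball (0 : ℂ) 1, deriv φ ξ ≠ 0) ∧
      ∀ w, M.psi w = z₀ + (φ w⁻¹)⁻¹ := by
  have hz₀ : z₀ ∈ L := hball (mem_ball_self hr)
  obtain ⟨f, φ, hfd, hφd, hf0, hφ0, hfm, hφm, hφf, hfφ, hf', hφ'⟩ :=
    exists_riemann_data (U := extDomain z₀ L) (isOpen_extDomain hLk) zero_mem_extDomain
      (fun z hz t ht => extDomain_star hLv hz₀ hz ht) (isBounded_extDomain hr hball)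
  have hinj : InjOn φ (ball 0 1) := by
    intro a ha b hb hab
    rw [← hfφ a ha, ← hfφ b hb, hab]
  have himg : φ '' ball 0 1 = extDomain z₀ L := by
    ext u
    constructor
    · rintro ⟨v, hv, rfl⟩
      exact hφm hv
    · intro hu
      exact ⟨f u, hfm hu, hφf u hu⟩
  obtain ⟨M, hM⟩ := extMap_of_disc hLk hr hball hφd hφ0 hinj himg hφ'
  exact ⟨φ, M, hφd, hφ0, hinj, hφ', hM⟩

theorem exists_extMap {L : Set ℂ} (hLk : IsCompact L) (hLv : Convex ℝ L) {z₀ : ℂ} {r : ℝ} (hr : 0 < r)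
    (hball : ball z₀ r ⊆ L) : Nonempty (ExtMap L) := by
  obtain ⟨φ, M, -⟩ := exists_disc_extMap hLk hLv hr hball
  exact ⟨M⟩

end Vale.Agent.Lib.P123.Rmt
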