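import Mathlib

/-!
# Scalar part of the route through the exterior conformal map

`DiscData g ρ`: an injective analytic map on a disc of radius `ρ > 1`, vanishing at `0`.
`exists_faber`: polynomials `F k` with `F k (1 / g v) = v^(-k) + q k v`, `q k` analytic, `q k 0 = 0`.
`exact`: the average over the circle of `R(1/g) * (aa g / g)` vanishes for polynomial `R`.
`coeff_Q`, `coeff_nn`: the Laurent coefficients of the kernel slices are the values of `q k`.
`contraction`: average of `|∑ τ k * q (k+1)|²` is at most `∑ |τ k|²` when the kernel is nonnegative.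
`faber_L2`: average of `|(1 + ∑ τ k F (k+1))(1/g)|²` is at most `1 + 2 ∑ |τ k|²`.
-/

namespace Vale.Agent.Lib.P123.Rmt

open Complex Metric Set Filter Topology
open scoped ComplexConjugate

/-- The average over the unit circle. -/
noncomputable def av (F : ℂ → ℂ) : ℂ := Real.circleAverage F 0 1

theorem cont_circ {F : ℂ → ℂ} (hF : ContinuousOn F (sphere 0 1)) :
    CircleIntegrable F 0 1 :=
  hF.circleIntegrable zero_le_one

theorem cont_circ' {F : ℂ → ℝ} (hF : ContinuousOn F (sphere 0 1)) :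
    CircleIntegrable F 0 1 :=
  hF.circleIntegrable zero_le_one

theorem av_add {F G : ℂ → ℂ} (hF : ContinuousOn F (sphere 0 1))
    (hG : ContinuousOn G (sphere 0 1)) :
    av (fun v => F v + G v) = av F + av G :=
  Real.circleAverage_fun_add (cont_circ hF) (cont_circ hG)

theorem av_sub {F G : ℂ → ℂ} (hF : ContinuousOn F (sphere 0 1))
    (hG : ContinuousOn G (sphere 0 1)) :
    av (fun v => F v - G v) = av F - av G :=
  Real.circleAverage_fun_sub (cont_circ hF) (cont_circ hG)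

theorem av_const_mul (c : ℂ) (F : ℂ → ℂ) : av (fun v => c * F v) = c * av F := by
  have := Real.circleAverage_fun_smul (𝕜 := ℂ) (a := c) (f := F) (c := 0) (R := 1)
  simpa [av, smul_eq_mul] using this

theorem av_sum {ι : Type*} (s : Finset ι) (F : ι → ℂ → ℂ)
    (hF : ∀ i ∈ s, ContinuousOn (F i) (sphere 0 1)) :
    av (fun v => ∑ i ∈ s, F i v) = ∑ i ∈ s, av (F i) :=
  Real.circleAverage_fun_sum (fun i hi => cont_circ (hF i hi))

theorem av_congr {F G : ℂ → ℂ} (h : ∀ v ∈ sphere (0:ℂ) 1, F v = G v) : av F = av G := by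
  refine Real.circleAverage_congr_sphere ?_
  intro v hv
  exact h v (by simpa using hv)

theorem av_conj {F : ℂ → ℂ} (hF : ContinuousOn F (sphere 0 1)) :
    av (fun v => conj (F v)) = conj (av F) := by
  have := (Complex.conjCLE : ℂ →L[ℝ] ℂ).circleAverage_comp_comm (cont_circ hF)
  simpa [av, Function.comp_def] using this

theorem av_of_diff {F : ℂ → ℂ} {ρ : ℝ} (hρ : 1 < ρ) (hF : DifferentiableOn ℂ F (ball 0 ρ)) :
    av F = F 0 := by
  have h1 : DiffContOnCl ℂ F (ball 0 |(1:ℝ)|) := by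
    refine DifferentiableOn.diffContOnCl_ball hF ?_
    intro v hv
    have : ‖v‖ ≤ 1 := by simpa using hv
    simp only [mem_ball, dist_zero_right]
    linarith
  exact h1.circleAverage

theorem av_const (c : ℂ) : av (fun _ => c) = c :=
  Real.circleAverage_const c 0 1

theorem mem_sph {v : ℂ} : v ∈ sphere (0:ℂ) 1 ↔ ‖v‖ = 1 := by simp

theorem inv_pow_eq_conj {v : ℂ} (hv : ‖v‖ = 1) (m : ℕ) : (v⁻¹) ^ m = conj (v ^ m) := by
  rw [map_pow, Complex.inv_eq_conj hv]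

theorem av_inv_pow (m : ℕ) (hm : 1 ≤ m) : av (fun v => (v⁻¹) ^ m) = 0 := by
  have h1 : av (fun v => (v⁻¹) ^ m) = av (fun v => conj (v ^ m)) :=
    av_congr (fun v hv => inv_pow_eq_conj (mem_sph.1 hv) m)
  rw [h1, av_conj (by fun_prop)]
  have h2 : av (fun v => v ^ m) = (0:ℂ) ^ m :=
    av_of_diff (ρ := 2) (by norm_num) (by fun_prop)
  rw [h2, zero_pow (by omega)]
  simp

/-- Equality off one point of the circle extends by continuity. -/
theorem nonneg_of_off {f : ℂ → ℝ} (hf : ContinuousOn f (sphere 0 1)) (v₂ : ℂ)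
    (h : ∀ v, ‖v‖ = 1 → v ≠ v₂ → 0 ≤ f v) : ∀ v, ‖v‖ = 1 → 0 ≤ f v := by
  intro v hv
  by_cases hne : v = v₂
  swap
  · exact h v hv hne
  subst hne
  -- approach `v` along the circle
  let t : ℕ → ℝ := fun m => 1 / ((m:ℝ) + 1)
  have ht0 : ∀ m, 0 < t m := fun m => by positivity
  have ht1 : ∀ m, t m ≤ 1 := fun m => by
    simp only [t]
    rw [div_le_one (by positivity)]
    have : (0:ℝ) ≤ m := Nat.cast_nonneg m
    linarith
  let w : ℕ → ℂ := fun m => v * Complex.exp ((t m : ℂ) * I)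
  have hwn : ∀ m, ‖w m‖ = 1 := fun m => by
    simp only [w, norm_mul, hv, one_mul]
    exact Complex.norm_exp_ofReal_mul_I _
  have hwne : ∀ m, w m ≠ v := by
    intro m hm
    have hv0 : v ≠ 0 := by
      intro h0
      rw [h0] at hv
      simp at hv
    have h1 : Complex.exp ((t m : ℂ) * I) = 1 := by
      have : v * Complex.exp ((t m : ℂ) * I) = v * 1 := by simpa [w] using hm
      exact mul_left_cancel₀ hv0 this
    have h2 : Real.cos (t m) = 1 := by
      have := congrArg Complex.re h1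
      simpa [Complex.exp_ofReal_mul_I_re] using this
    have hpi := Real.pi_gt_three
    have h3 := (Real.cos_eq_one_iff_of_lt_of_lt (x := t m)
      (by have := ht0 m; linarith) (by have := ht1 m; linarith)).1 h2
    exact (ht0 m).ne' h3
  have hlim : Tendsto w atTop (𝓝 v) := by
    have h1 : Tendsto t atTop (𝓝 0) := tendsto_one_div_add_atTop_nhds_zero_nat
    have h2 : Continuous fun x : ℝ => v * Complex.exp ((x:ℂ) * I) := by fun_prop
    have h3 := (h2.tendsto 0).comp h1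
    simpa [w, Function.comp_def] using h3
  have hlim2 : Tendsto w atTop (𝓝[sphere 0 1] v) :=
    tendsto_nhdsWithin_iff.2 ⟨hlim, Eventually.of_forall fun m => mem_sph.2 (hwn m)⟩
  have hf2 := (hf v (mem_sph.2 hv)).tendsto.comp hlim2
  refine ge_of_tendsto' hf2 ?_
  intro m
  exact h (w m) (hwn m) (hwne m)

theorem eqOn_of_off {F G : ℂ → ℂ} (hF : ContinuousOn F (sphere 0 1))
    (hG : ContinuousOn G (sphere 0 1)) (v₂ : ℂ)
    (h : ∀ v, ‖v‖ = 1 → v ≠ v₂ → F v = G v) : ∀ v ∈ sphere (0:ℂ) 1, F v = G v := by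
  have hc : ContinuousOn (fun v => -‖F v - G v‖) (sphere 0 1) := (hF.sub hG).norm.neg
  have := nonneg_of_off hc v₂ (fun v hv hne => by simp [h v hv hne])
  intro v hv
  have h1 := this v (mem_sph.1 hv)
  have h2 : ‖F v - G v‖ = 0 := le_antisymm (by linarith) (norm_nonneg _)
  exact sub_eq_zero.1 (norm_eq_zero.1 h2)

/-- Data of an injective analytic map on a disc larger than the unit disc. -/
structure DiscData (g : ℂ → ℂ) (ρ : ℝ) : Prop where
  one_lt : 1 < ρ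
  diff : DifferentiableOn ℂ g (ball 0 ρ)
  zero : g 0 = 0
  inj : InjOn g (ball 0 ρ)
  deriv_ne : ∀ v ∈ ball (0:ℂ) ρ, deriv g v ≠ 0

/-- `v g'(v) / g(v)`, extended across `0`. -/
noncomputable def aa (g : ℂ → ℂ) (v : ℂ) : ℂ := deriv g v / dslope g 0 v

namespace DiscData

variable {g : ℂ → ℂ} {ρ : ℝ} (D : DiscData g ρ)
include D

theorem mem_of_norm {v : ℂ} (hv : ‖v‖ ≤ 1) : v ∈ ball (0:ℂ) ρ := by
  have := D.one_lt
  simp only [mem_ball, dist_zero_right]
  linarith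

theorem zero_mem : (0:ℂ) ∈ ball (0:ℂ) ρ := D.mem_of_norm (by simp)

theorem g_eq (v : ℂ) : g v = v * dslope g 0 v := by
  have := sub_smul_dslope g 0 v
  simpa [D.zero] using this.symm

theorem g_ne {v : ℂ} (hv : v ∈ ball (0:ℂ) ρ) (h0 : v ≠ 0) : g v ≠ 0 := by
  intro h
  exact h0 (D.inj hv D.zero_mem (by rw [h, D.zero]))

theorem h_ne {v : ℂ} (hv : v ∈ ball (0:ℂ) ρ) : dslope g 0 v ≠ 0 := by
  by_cases h0 : v = 0
  · subst h0
    rw [dslope_same]
    exact D.deriv_ne _ hv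
  · intro h
    have := D.g_eq v
    rw [h, mul_zero] at this
    exact D.g_ne hv h0 this

theorem diff_h : DifferentiableOn ℂ (dslope g 0) (ball 0 ρ) :=
  (Complex.differentiableOn_dslope (isOpen_ball.mem_nhds D.zero_mem)).2 D.diff

theorem diff_dg : DifferentiableOn ℂ (deriv g) (ball 0 ρ) :=
  D.diff.deriv isOpen_ball

theorem diff_a : DifferentiableOn ℂ (aa g) (ball 0 ρ) :=
  D.diff_dg.div D.diff_h (fun _ hv => D.h_ne hv)

theorem a_zero : aa g 0 = 1 := by
  simp only [aa, dslope_same]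
  exact div_self (D.deriv_ne 0 D.zero_mem)

/-- Faber: polynomials in `1/g` with prescribed principal part. -/
theorem faber_aux (k : ℕ) : ∀ r : ℂ → ℂ, DifferentiableOn ℂ r (ball 0 ρ) →
    ∃ (P : Polynomial ℂ) (q : ℂ → ℂ), DifferentiableOn ℂ q (ball 0 ρ) ∧ q 0 = 0 ∧
      ∀ v ∈ ball (0:ℂ) ρ, v ≠ 0 → P.eval (g v)⁻¹ = r v * (v⁻¹) ^ k + q v := by
  induction k with
  | zero =>
    intro r hr
    refine ⟨Polynomial.C (r 0), fun v => r 0 - r v, (differentiableOn_const _).sub hr, by simp, ?_⟩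
    intro v _ _
    simp
  | succ k ih =>
    intro r hr
    set S : ℂ → ℂ := fun v => (dslope g 0 v)⁻¹ with hS
    have hSd : DifferentiableOn ℂ S (ball 0 ρ) := D.diff_h.inv (fun _ hv => D.h_ne hv)
    set c : ℂ := r 0 * (dslope g 0 0) ^ (k + 1) with hc
    set f : ℂ → ℂ := fun v => r v - c * S v ^ (k + 1) with hf
    have hfd : DifferentiableOn ℂ f (ball 0 ρ) := hr.sub ((differentiableOn_const _).mul (hSd.pow _))
    have hf0 : f 0 = 0 := by
      have h0 := D.h_ne D.zero_mem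
      simp only [hf, hS, hc]
      rw [mul_assoc, ← mul_pow, mul_inv_cancel₀ h0, one_pow, mul_one, sub_self]
    have hr1 : DifferentiableOn ℂ (dslope f 0) (ball 0 ρ) :=
      (Complex.differentiableOn_dslope (isOpen_ball.mem_nhds D.zero_mem)).2 hfd
    obtain ⟨P₁, q₁, hq₁, hq₁0, hP₁⟩ := ih (dslope f 0) hr1
    refine ⟨Polynomial.C c * Polynomial.X ^ (k + 1) + P₁, q₁, hq₁, hq₁0, ?_⟩
    intro v hv hv0
    have hfv : f v = v * dslope f 0 v := by
      have := sub_smul_dslope f 0 v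
      simpa [hf0] using this.symm
    have hgv : (g v)⁻¹ = S v * v⁻¹ := by
      rw [D.g_eq v, mul_inv, mul_comm]
    have hrv : r v = v * dslope f 0 v + c * S v ^ (k + 1) := by
      rw [← hfv]
      simp [hf]
    simp only [Polynomial.eval_add, Polynomial.eval_mul, Polynomial.eval_C, Polynomial.eval_pow,
      Polynomial.eval_X]
    rw [hP₁ v hv hv0, hgv, hrv]
    have hvv : v * v⁻¹ = 1 := mul_inv_cancel₀ hv0
    linear_combination (-(dslope f 0 v) * (v⁻¹) ^ k) * hvv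

/-- The family of Faber polynomials. -/
theorem exists_faber : ∃ (F : ℕ → Polynomial ℂ) (q : ℕ → ℂ → ℂ),
    (∀ k, DifferentiableOn ℂ (q k) (ball 0 ρ)) ∧ (∀ k, q k 0 = 0) ∧
    ∀ k, ∀ v ∈ ball (0:ℂ) ρ, v ≠ 0 → (F k).eval (g v)⁻¹ = (v⁻¹) ^ k + q k v := by
  have h := fun k => D.faber_aux k (fun _ => 1) (differentiableOn_const _)
  choose F q h1 h2 h3 using h
  refine ⟨F, q, h1, h2, ?_⟩
  intro k v hv hv0
  simpa using h3 k v hv hv0


theorem sph_mem {v : ℂ} (hv : ‖v‖ = 1) : v ∈ ball (0:ℂ) ρ := D.mem_of_norm hv.le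

omit D in
theorem sph_ne {v : ℂ} (hv : ‖v‖ = 1) : v ≠ 0 := by
  intro h
  rw [h] at hv
  simp at hv

theorem g_sph_ne {v : ℂ} (hv : ‖v‖ = 1) : g v ≠ 0 := D.g_ne (D.sph_mem hv) (sph_ne hv)

theorem sph_sub : sphere (0:ℂ) 1 ⊆ ball 0 ρ := fun _ hv => D.sph_mem (mem_sph.1 hv)

theorem cont_g : ContinuousOn g (sphere 0 1) := D.diff.continuousOn.mono D.sph_sub

theorem cont_a : ContinuousOn (aa g) (sphere 0 1) := D.diff_a.continuousOn.mono D.sph_sub

theorem cont_sigma : ContinuousOn (fun v => (g v)⁻¹) (sphere 0 1) :=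
  D.cont_g.inv₀ (fun _ hv => D.g_sph_ne (mem_sph.1 hv))

theorem cont_N : ContinuousOn (fun v => aa g v / g v) (sphere 0 1) :=
  D.cont_a.div D.cont_g (fun _ hv => D.g_sph_ne (mem_sph.1 hv))

end DiscData

theorem cont_inv : ContinuousOn (fun v : ℂ => v⁻¹) (sphere 0 1) :=
  continuousOn_inv₀.mono (fun v hv => by
    intro h
    have := mem_sph.1 hv
    rw [h] at this
    simp at this)

theorem cont_inv_pow (m : ℕ) : ContinuousOn (fun v : ℂ => (v⁻¹) ^ m) (sphere 0 1) :=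
  cont_inv.pow m

namespace DiscData

variable {g : ℂ → ℂ} {ρ : ℝ} (D : DiscData g ρ)
include D

/-- The exactness identity: the average of `R(σ) N` vanishes, as `σ' = -i N` along the circle. -/
theorem exact_pow (n : ℕ) : av (fun v => ((g v)⁻¹) ^ n * (aa g v / g v)) = 0 := by
  have hint : CircleIntegrable (fun v => ((g v)⁻¹) ^ n * (aa g v / g v)) 0 1 :=
    cont_circ ((D.cont_sigma.pow n).mul D.cont_N)
  set f : ℝ → ℂ := fun θ => ((g (circleMap 0 1 θ))⁻¹) ^ (n + 1) with hf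
  set f' : ℝ → ℂ := fun θ => (-(I * ((n:ℂ) + 1))) *
    (((g (circleMap 0 1 θ))⁻¹) ^ n * (aa g (circleMap 0 1 θ) / g (circleMap 0 1 θ))) with hf'
  have hder : ∀ θ ∈ uIcc (0:ℝ) (2 * Real.pi), HasDerivAt f (f' θ) θ := by
    intro θ _
    set v := circleMap 0 1 θ with hv
    have hvn : ‖v‖ = 1 := by simp [hv, circleMap]
    have hgv := D.g_sph_ne hvn
    have hv0 := sph_ne hvn
    have h1 : HasDerivAt g (deriv g v) v :=
      (D.diff.differentiableAt (isOpen_ball.mem_nhds (D.sph_mem hvn))).hasDerivAt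
    have h2 : HasDerivAt (fun u => (g u)⁻¹) (-(deriv g v) / g v ^ 2) v := h1.fun_inv hgv
    have h3 : HasDerivAt (fun u => ((g u)⁻¹) ^ (n + 1))
        (((n + 1 : ℕ) : ℂ) * ((g v)⁻¹) ^ n * (-(deriv g v) / g v ^ 2)) v := by
      simpa using h2.fun_pow (n + 1)
    have h4 : HasDerivAt (circleMap 0 1) (circleMap 0 1 θ * I) θ := hasDerivAt_circleMap 0 1 θ
    have h5 := h3.scomp θ h4
    have hh : dslope g 0 v ≠ 0 := D.h_ne (D.sph_mem hvn)
    have hgeq : g v = v * dslope g 0 v := D.g_eq v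
    have heq : f' θ = (circleMap 0 1 θ * I) •
        (((n + 1 : ℕ) : ℂ) * ((g v)⁻¹) ^ n * (-(deriv g v) / g v ^ 2)) := by
      simp only [hf', smul_eq_mul, aa]
      rw [← hv]
      push_cast
      have hgv2 : dslope g 0 v = g v / v := by
        rw [hgeq]
        field_simp
      rw [hgv2]
      field_simp
    rw [heq]
    exact h5
  have hint' : IntervalIntegrable f' MeasureTheory.volume 0 (2 * Real.pi) := hint.const_mul _
  have hftc := intervalIntegral.integral_eq_sub_of_hasDerivAt hder hint'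
  have hper : f (2 * Real.pi) = f 0 := by
    have := (periodic_circleMap (0:ℂ) 1) 0
    simp only [zero_add] at this
    simp only [hf, this]
  rw [hper, sub_self, intervalIntegral.integral_const_mul] at hftc
  have hne : (-(I * ((n:ℂ) + 1))) ≠ 0 := by
    have : ((n:ℂ) + 1) ≠ 0 := Nat.cast_add_one_ne_zero n
    simp [this, I_ne_zero]
  have h0 := (mul_eq_zero.1 hftc).resolve_left hne
  simp only [av, Real.circleAverage_def]
  rw [h0, smul_zero]

theorem exact (R : Polynomial ℂ) : av (fun v => R.eval (g v)⁻¹ * (aa g v / g v)) = 0 := by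
  induction R using Polynomial.induction_on' with
  | add p q hp hq =>
    have h1 : ∀ (r : Polynomial ℂ), ContinuousOn (fun v => r.eval (g v)⁻¹ * (aa g v / g v))
        (sphere 0 1) := fun r =>
      (r.continuous.comp_continuousOn D.cont_sigma).mul D.cont_N
    have h2 : (fun v => (p + q).eval (g v)⁻¹ * (aa g v / g v)) =
        fun v => p.eval (g v)⁻¹ * (aa g v / g v) + q.eval (g v)⁻¹ * (aa g v / g v) := by
      funext v
      rw [Polynomial.eval_add, add_mul]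
    rw [h2, av_add (h1 p) (h1 q), hp, hq, add_zero]
  | monomial n c =>
    have h2 : (fun v => (Polynomial.monomial n c).eval (g v)⁻¹ * (aa g v / g v)) =
        fun v => c * (((g v)⁻¹) ^ n * (aa g v / g v)) := by
      funext v
      rw [Polynomial.eval_monomial, mul_assoc]
    rw [h2, av_const_mul, D.exact_pow, mul_zero]

end DiscData

/-- A slice of the kernel, divided by the simple pole. -/
noncomputable def Ker (g : ℂ → ℂ) (v₂ w : ℂ) : ℂ := aa g w * g v₂ / dslope g v₂ w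

/-- The analytic part of the kernel. -/
noncomputable def QQ (g : ℂ → ℂ) (v₂ v : ℂ) : ℂ := - dslope (Ker g v₂) v₂ v

/-- The kernel positivity. -/
def KernelNonneg (g : ℂ → ℂ) : Prop :=
  ∀ v₁ v₂ : ℂ, ‖v₁‖ = 1 → ‖v₂‖ = 1 → v₁ ≠ v₂ → 0 ≤ (aa g v₁ * g v₂ / (g v₂ - g v₁)).re

/-- The density of the kernel on the circle. -/
noncomputable def nn (g : ℂ → ℂ) (v₂ v : ℂ) : ℝ := 1 + 2 * (QQ g v₂ v).re

theorem re_half {v v₂ : ℂ} (hv : ‖v‖ = 1) (hv₂ : ‖v₂‖ = 1) (hne : v ≠ v₂) :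
    (v₂ / (v₂ - v)).re = 1 / 2 := by
  have hv0 : v ≠ 0 := by
    intro h
    rw [h] at hv
    simp at hv
  have hv₂0 : v₂ ≠ 0 := by
    intro h
    rw [h] at hv₂
    simp at hv₂
  have h1 : conj (v₂ / (v₂ - v)) = v / (v - v₂) := by
    rw [map_div₀, map_sub, ← Complex.inv_eq_conj hv, ← Complex.inv_eq_conj hv₂]
    have h3 : v - v₂ ≠ 0 := sub_ne_zero.2 hne
    have h4 : v₂⁻¹ - v⁻¹ ≠ 0 := by
      rw [sub_ne_zero]
      intro h
      exact hne (inv_injective h).symm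
    rw [div_eq_div_iff h4 h3]
    field_simp
  have h3 : v₂ - v ≠ 0 := sub_ne_zero.2 (Ne.symm hne)
  have h4 : v - v₂ ≠ 0 := sub_ne_zero.2 hne
  have h2 : v₂ / (v₂ - v) + conj (v₂ / (v₂ - v)) = 1 := by
    rw [h1]
    have : v - v₂ = -(v₂ - v) := by ring
    rw [this]
    field_simp
    ring
  have h5 := congrArg Complex.re h2
  simp only [add_re, conj_re, one_re] at h5
  linarith

namespace DiscData

variable {g : ℂ → ℂ} {ρ : ℝ} (D : DiscData g ρ)
include D

theorem slope_ne {v₂ w : ℂ} (hv₂ : v₂ ∈ ball (0:ℂ) ρ) (hw : w ∈ ball (0:ℂ) ρ) :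
    dslope g v₂ w ≠ 0 := by
  by_cases h : w = v₂
  · subst h
    rw [dslope_same]
    exact D.deriv_ne _ hw
  · rw [dslope_of_ne _ h, slope_def_field]
    exact div_ne_zero (sub_ne_zero.2 (fun e => h (D.inj hw hv₂ e))) (sub_ne_zero.2 h)

theorem diff_slope {v₂ : ℂ} (hv₂ : v₂ ∈ ball (0:ℂ) ρ) :
    DifferentiableOn ℂ (dslope g v₂) (ball 0 ρ) :=
  (Complex.differentiableOn_dslope (isOpen_ball.mem_nhds hv₂)).2 D.diff

theorem diff_Ker {v₂ : ℂ} (hv₂ : v₂ ∈ ball (0:ℂ) ρ) :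
    DifferentiableOn ℂ (Ker g v₂) (ball 0 ρ) :=
  (D.diff_a.mul_const _).div (D.diff_slope hv₂) (fun _ hw => D.slope_ne hv₂ hw)

theorem Ker_self {v₂ : ℂ} (hv₂ : v₂ ∈ ball (0:ℂ) ρ) : Ker g v₂ v₂ = v₂ := by
  simp only [Ker, aa, dslope_same]
  have h1 := D.deriv_ne v₂ hv₂
  have h2 := D.h_ne hv₂
  rw [D.g_eq v₂]
  field_simp

theorem diff_Q {v₂ : ℂ} (hv₂ : v₂ ∈ ball (0:ℂ) ρ) :
    DifferentiableOn ℂ (QQ g v₂) (ball 0 ρ) :=
  ((Complex.differentiableOn_dslope (isOpen_ball.mem_nhds hv₂)).2 (D.diff_Ker hv₂)).neg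

theorem Q_zero {v₂ : ℂ} (hv₂ : v₂ ∈ ball (0:ℂ) ρ) (h0 : v₂ ≠ 0) : QQ g v₂ 0 = 0 := by
  have hg2 := D.g_ne hv₂ h0
  have hS : dslope g v₂ 0 = g v₂ / v₂ := by
    rw [dslope_of_ne _ h0.symm, slope_def_field, D.zero]
    field_simp
    ring
  have hK : Ker g v₂ 0 = v₂ := by
    simp only [Ker, D.a_zero, one_mul, hS]
    field_simp
  simp only [QQ]
  rw [dslope_of_ne _ h0.symm, slope_def_field, hK, D.Ker_self hv₂]
  simp

theorem Q_add {v₂ v : ℂ} (hv₂ : v₂ ∈ ball (0:ℂ) ρ) (hv : v ∈ ball (0:ℂ) ρ) (hne : v ≠ v₂) :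
    QQ g v₂ v + v₂ / (v₂ - v) = aa g v * g v₂ / (g v₂ - g v) := by
  have h1 : dslope g v₂ v = (g v - g v₂) / (v - v₂) := by
    rw [dslope_of_ne _ hne, slope_def_field]
  have h2 : g v - g v₂ ≠ 0 := sub_ne_zero.2 (fun e => hne (D.inj hv hv₂ e))
  have h3 : g v₂ - g v ≠ 0 := sub_ne_zero.2 (fun e => hne (D.inj hv hv₂ e.symm))
  have h4 : v - v₂ ≠ 0 := sub_ne_zero.2 hne
  have h5 : v₂ - v ≠ 0 := sub_ne_zero.2 (Ne.symm hne)
  simp only [QQ]
  rw [dslope_of_ne _ hne, slope_def_field, D.Ker_self hv₂]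
  simp only [Ker, h1]
  have e1 : v - v₂ = -(v₂ - v) := by ring
  have e2 : g v - g v₂ = -(g v₂ - g v) := by ring
  rw [e1, e2]
  field_simp
  ring

theorem cont_Q {v₂ : ℂ} (hv₂ : ‖v₂‖ = 1) : ContinuousOn (QQ g v₂) (sphere 0 1) :=
  (D.diff_Q (D.sph_mem hv₂)).continuousOn.mono D.sph_sub

theorem cont_nn {v₂ : ℂ} (hv₂ : ‖v₂‖ = 1) : ContinuousOn (nn g v₂) (sphere 0 1) := by
  have := D.cont_Q hv₂
  exact continuousOn_const.add (continuousOn_const.mul (Complex.continuous_re.comp_continuousOn this))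

theorem nn_nonneg (hK : KernelNonneg g) {v₂ : ℂ} (hv₂ : ‖v₂‖ = 1) :
    ∀ v, ‖v‖ = 1 → 0 ≤ nn g v₂ v := by
  refine nonneg_of_off (D.cont_nn hv₂) v₂ ?_
  intro v hv hne
  have h1 := hK v v₂ hv hv₂ hne
  rw [← D.Q_add (D.sph_mem hv₂) (D.sph_mem hv) hne, add_re, re_half hv hv₂ hne] at h1
  simp only [nn]
  linarith

/-- The Laurent coefficient of the kernel. -/
theorem coeff_Q {P : Polynomial ℂ} {q : ℂ → ℂ} {k : ℕ}
    (hq : DifferentiableOn ℂ q (ball 0 ρ)) (hq0 : q 0 = 0)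
    (hP : ∀ v ∈ ball (0:ℂ) ρ, v ≠ 0 → P.eval (g v)⁻¹ = (v⁻¹) ^ k + q v)
    {v₂ : ℂ} (hv₂ : ‖v₂‖ = 1) :
    av (fun v => (v⁻¹) ^ k * QQ g v₂ v) = q v₂ := by
  have hv₂m := D.sph_mem hv₂
  have hv₂0 := sph_ne hv₂
  set σ₂ : ℂ := (g v₂)⁻¹ with hσ₂
  obtain ⟨R, hR⟩ := Polynomial.X_sub_C_dvd_sub_C_eval (a := σ₂) (p := P)
  have hRz : ∀ z, (z - σ₂) * R.eval z = P.eval z - P.eval σ₂ := by
    intro z
    have := congrArg (Polynomial.eval z) hR
    simp only [Polynomial.eval_sub, Polynomial.eval_X, Polynomial.eval_C, Polynomial.eval_mul] at this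
    exact this.symm
  set P₂ : ℂ := P.eval σ₂ with hP₂
  have hP₂e : P₂ = (v₂⁻¹) ^ k + q v₂ := hP v₂ hv₂m hv₂0
  have hQd := D.diff_Q hv₂m
  have hqc : ContinuousOn q (sphere 0 1) := hq.continuousOn.mono D.sph_sub
  have hQc := D.cont_Q hv₂
  -- the five functions
  set T0 : ℂ → ℂ := fun v => R.eval (g v)⁻¹ * (aa g v / g v) with hT0
  set T1 : ℂ → ℂ := fun v => (v⁻¹) ^ k * QQ g v₂ v with hT1
  set T2 : ℂ → ℂ := fun v => (q v - P₂) * QQ g v₂ v with hT2
  set T3 : ℂ → ℂ := fun v => ∑ i ∈ Finset.range k, (v₂⁻¹) ^ (k - 1 - i) * (v⁻¹) ^ (i + 1) with hT3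
  set T4 : ℂ → ℂ := fun v => (-v₂) * dslope q v₂ v with hT4
  have hT0c : ContinuousOn T0 (sphere 0 1) :=
    (R.continuous.comp_continuousOn D.cont_sigma).mul D.cont_N
  have hT1c : ContinuousOn T1 (sphere 0 1) := (cont_inv_pow k).mul hQc
  have hT2d : DifferentiableOn ℂ T2 (ball 0 ρ) := (hq.sub_const _).mul hQd
  have hT2c : ContinuousOn T2 (sphere 0 1) := hT2d.continuousOn.mono D.sph_sub
  have hT3i : ∀ i ∈ Finset.range k,
      ContinuousOn (fun v : ℂ => (v₂⁻¹) ^ (k - 1 - i) * (v⁻¹) ^ (i + 1)) (sphere 0 1) :=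
    fun i _ => continuousOn_const.mul (cont_inv_pow _)
  have hT3c : ContinuousOn T3 (sphere 0 1) := continuousOn_finsetSum _ hT3i
  have hT4d : DifferentiableOn ℂ T4 (ball 0 ρ) :=
    ((Complex.differentiableOn_dslope (isOpen_ball.mem_nhds hv₂m)).2 hq).const_mul _
  have hT4c : ContinuousOn T4 (sphere 0 1) := hT4d.continuousOn.mono D.sph_sub
  -- the decomposition
  have hdec : ∀ v ∈ sphere (0:ℂ) 1, T0 v = ((T1 v + T2 v) + T3 v) + T4 v := by
    refine eqOn_of_off hT0c (((hT1c.add hT2c).add hT3c).add hT4c) v₂ ?_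
    intro v hv hne
    have hvm := D.sph_mem hv
    have hv0 := sph_ne hv
    have hg := D.g_sph_ne hv
    have hg₂ := D.g_sph_ne hv₂
    have hsub : v₂ - v ≠ 0 := sub_ne_zero.2 (Ne.symm hne)
    have hgsub : g v₂ - g v ≠ 0 := sub_ne_zero.2 (fun e => hne (D.inj hvm hv₂m e.symm))
    have hN : aa g v / g v = ((g v)⁻¹ - σ₂) * (QQ g v₂ v + v₂ / (v₂ - v)) := by
      rw [D.Q_add hv₂m hvm hne, hσ₂]
      field_simp
    have hsne : v⁻¹ - v₂⁻¹ ≠ 0 := by
      rw [sub_ne_zero]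
      intro h
      exact hne (inv_injective h)
    have hw : v₂ / (v₂ - v) = v⁻¹ / (v⁻¹ - v₂⁻¹) := by
      rw [div_eq_div_iff hsub hsne]
      field_simp
    have hgeom : ((v⁻¹) ^ k - (v₂⁻¹) ^ k) * (v₂ / (v₂ - v)) = T3 v := by
      have h1 := geom_sum₂_mul (v⁻¹) (v₂⁻¹) k
      rw [← h1, hw]
      simp only [hT3]
      rw [Finset.sum_mul, Finset.sum_mul, Finset.sum_congr rfl]
      intro i _
      have aux : ∀ a x s : ℂ, x ≠ 0 → a * x * (s / x) = a * s := by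
        intro a x s hx
        field_simp
      rw [aux _ _ _ hsne]
      ring
    have hslope : (q v - q v₂) * (v₂ / (v₂ - v)) = T4 v := by
      simp only [hT4]
      rw [dslope_of_ne _ hne, slope_def_field]
      have e1 : v - v₂ = -(v₂ - v) := by ring
      rw [e1]
      field_simp
    have hR2 : R.eval (g v)⁻¹ * ((g v)⁻¹ - σ₂) = (v⁻¹) ^ k + q v - P₂ := by
      rw [mul_comm, hRz, hP v hvm hv0]
    simp only [hT0, hT1, hT2]
    rw [hN, ← mul_assoc, hR2, ← hgeom, ← hslope, hP₂e]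
    ring
  -- averages
  have hT0a : av T0 = 0 := D.exact R
  have hT2a : av T2 = 0 := by
    rw [av_of_diff D.one_lt hT2d]
    simp [hT2, D.Q_zero hv₂m hv₂0]
  have hT3a : av T3 = 0 := by
    simp only [hT3]
    rw [av_sum _ _ hT3i]
    refine Finset.sum_eq_zero ?_
    intro i _
    rw [av_const_mul, av_inv_pow (i + 1) (by omega), mul_zero]
  have hT4a : av T4 = -q v₂ := by
    rw [av_of_diff D.one_lt hT4d]
    simp only [hT4]
    rw [dslope_of_ne _ hv₂0.symm, slope_def_field, hq0]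
    field_simp
    simp [mul_comm]
  have hsum := av_congr hdec
  have c12 : ContinuousOn (fun v => T1 v + T2 v) (sphere 0 1) := hT1c.add hT2c
  have c123 : ContinuousOn (fun v => T1 v + T2 v + T3 v) (sphere 0 1) := c12.add hT3c
  rw [av_add c123 hT4c, av_add c12 hT3c, av_add hT1c hT2c, hT0a, hT2a, hT3a, hT4a] at hsum
  have : av T1 = q v₂ := by
    linear_combination -hsum
  exact this


omit D in
theorem nn_ofReal (v₂ v : ℂ) : ((nn g v₂ v : ℝ) : ℂ) = 1 + QQ g v₂ v + conj (QQ g v₂ v) := by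
  apply Complex.ext
  · simp [nn]
    ring
  · simp [nn]

theorem cont_nnC {v₂ : ℂ} (hv₂ : ‖v₂‖ = 1) :
    ContinuousOn (fun v => ((nn g v₂ v : ℝ) : ℂ)) (sphere 0 1) :=
  Complex.continuous_ofReal.comp_continuousOn (D.cont_nn hv₂)

/-- The total mass of the kernel. -/
theorem mass_nn {v₂ : ℂ} (hv₂ : ‖v₂‖ = 1) : av (fun v => ((nn g v₂ v : ℝ) : ℂ)) = 1 := by
  have hm := D.sph_mem hv₂
  have h0 := sph_ne hv₂
  have hQc := D.cont_Q hv₂
  have e : (fun v => ((nn g v₂ v : ℝ) : ℂ)) = fun v => (1 + QQ g v₂ v) + conj (QQ g v₂ v) := by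
    funext v
    exact nn_ofReal v₂ v
  have hQa : av (QQ g v₂) = 0 := by
    rw [av_of_diff D.one_lt (D.diff_Q hm), D.Q_zero hm h0]
  have c1 : ContinuousOn (fun v => 1 + QQ g v₂ v) (sphere 0 1) := continuousOn_const.add hQc
  have c2 : ContinuousOn (fun v => conj (QQ g v₂ v)) (sphere 0 1) :=
    Complex.continuous_conj.comp_continuousOn hQc
  rw [e, av_add c1 c2, av_conj hQc, av_add continuousOn_const hQc, av_const, hQa]
  simp

/-- The Laurent coefficient of the density. -/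
theorem coeff_nn {P : Polynomial ℂ} {q : ℂ → ℂ} {k : ℕ} (hk : 1 ≤ k)
    (hq : DifferentiableOn ℂ q (ball 0 ρ)) (hq0 : q 0 = 0)
    (hP : ∀ v ∈ ball (0:ℂ) ρ, v ≠ 0 → P.eval (g v)⁻¹ = (v⁻¹) ^ k + q v)
    {v₂ : ℂ} (hv₂ : ‖v₂‖ = 1) :
    av (fun v => (v⁻¹) ^ k * ((nn g v₂ v : ℝ) : ℂ)) = q v₂ := by
  have hm := D.sph_mem hv₂
  have h0 := sph_ne hv₂
  have hQc := D.cont_Q hv₂
  have hQd := D.diff_Q hm
  have e : ∀ v ∈ sphere (0:ℂ) 1, (v⁻¹) ^ k * ((nn g v₂ v : ℝ) : ℂ) =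
      ((v⁻¹) ^ k + (v⁻¹) ^ k * QQ g v₂ v) + conj (v ^ k * QQ g v₂ v) := by
    intro v hv
    rw [nn_ofReal, map_mul, ← inv_pow_eq_conj (mem_sph.1 hv)]
    ring
  have c1 := cont_inv_pow k
  have c2 : ContinuousOn (fun v => (v⁻¹) ^ k * QQ g v₂ v) (sphere 0 1) := c1.mul hQc
  have c3d : DifferentiableOn ℂ (fun v => v ^ k * QQ g v₂ v) (ball 0 ρ) :=
    (DifferentiableOn.pow differentiableOn_id k).mul hQd
  have c3 : ContinuousOn (fun v => v ^ k * QQ g v₂ v) (sphere 0 1) :=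
    c3d.continuousOn.mono D.sph_sub
  have c4 : ContinuousOn (fun v => conj (v ^ k * QQ g v₂ v)) (sphere 0 1) :=
    Complex.continuous_conj.comp_continuousOn c3
  have c5 : ContinuousOn (fun v => (v⁻¹) ^ k + (v⁻¹) ^ k * QQ g v₂ v) (sphere 0 1) := c1.add c2
  rw [av_congr e, av_add c5 c4, av_add c1 c2, av_conj c3, av_inv_pow k hk,
    D.coeff_Q hq hq0 hP hv₂, av_of_diff D.one_lt c3d]
  simp [D.Q_zero hm h0]

end DiscData

/-- Real averages as real parts of complex averages. -/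
theorem re_av {Y : ℂ → ℝ} (hY : ContinuousOn Y (sphere 0 1)) :
    (av (fun v => ((Y v : ℝ) : ℂ))).re = Real.circleAverage Y 0 1 := by
  have h1 : CircleIntegrable (fun v => ((Y v : ℝ) : ℂ)) 0 1 :=
    cont_circ (Complex.continuous_ofReal.comp_continuousOn hY)
  have := Complex.reCLM.circleAverage_comp_comm h1
  simp only [av]
  rw [show Complex.re (Real.circleAverage (fun v => ((Y v : ℝ) : ℂ)) 0 1) =
    Complex.reCLM (Real.circleAverage (fun v => ((Y v : ℝ) : ℂ)) 0 1) from rfl, ← this]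
  congr 1

theorem av_real_nonneg {Y : ℂ → ℝ} (hY : ContinuousOn Y (sphere 0 1))
    (h0 : ∀ v, ‖v‖ = 1 → 0 ≤ Y v) : 0 ≤ (av (fun v => ((Y v : ℝ) : ℂ))).re := by
  rw [re_av hY]
  exact Real.circleAverage_nonneg_of_nonneg (fun v hv => h0 v (by simpa using hv))

/-- Cauchy Schwarz for a probability density on the circle. -/
theorem cs_weight {W : ℂ → ℝ} (hWc : ContinuousOn W (sphere 0 1))
    (hW0 : ∀ v, ‖v‖ = 1 → 0 ≤ W v) (hW1 : av (fun v => ((W v : ℝ) : ℂ)) = 1)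
    {L : ℂ → ℂ} (hL : ContinuousOn L (sphere 0 1)) :
    ‖av (fun v => L v * ((W v : ℝ) : ℂ))‖ ^ 2 ≤
      (av (fun v => L v * conj (L v) * ((W v : ℝ) : ℂ))).re := by
  set c : ℂ := av (fun v => L v * ((W v : ℝ) : ℂ)) with hc
  have hWC : ContinuousOn (fun v => ((W v : ℝ) : ℂ)) (sphere 0 1) :=
    Complex.continuous_ofReal.comp_continuousOn hWc
  have hLc : ContinuousOn (fun v => conj (L v)) (sphere 0 1) :=
    Complex.continuous_conj.comp_continuousOn hL
  set Y : ℂ → ℝ := fun v => ‖L v - c‖ ^ 2 * W v with hY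
  have hYc : ContinuousOn Y (sphere 0 1) :=
    ((hL.sub continuousOn_const).norm.pow 2).mul hWc
  have hpos := av_real_nonneg hYc (fun v hv => mul_nonneg (by positivity) (hW0 v hv))
  have e : ∀ v ∈ sphere (0:ℂ) 1, ((Y v : ℝ) : ℂ) =
      ((L v * conj (L v) * ((W v : ℝ) : ℂ) - conj c * (L v * ((W v : ℝ) : ℂ))) -
        c * conj (L v * ((W v : ℝ) : ℂ))) + (c * conj c) * ((W v : ℝ) : ℂ) := by
    intro v _
    have hns : ((‖L v - c‖ : ℝ) : ℂ) ^ 2 = (L v - c) * conj (L v - c) := by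
      rw [Complex.mul_conj, Complex.normSq_eq_norm_sq]
      push_cast
      rfl
    simp only [hY]
    push_cast
    rw [hns]
    simp only [map_sub, map_mul, Complex.conj_ofReal]
    ring
  have c1 : ContinuousOn (fun v => L v * conj (L v) * ((W v : ℝ) : ℂ)) (sphere 0 1) :=
    (hL.mul hLc).mul hWC
  have c2' : ContinuousOn (fun v => L v * ((W v : ℝ) : ℂ)) (sphere 0 1) := hL.mul hWC
  have c2 : ContinuousOn (fun v => conj c * (L v * ((W v : ℝ) : ℂ))) (sphere 0 1) :=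
    continuousOn_const.mul c2'
  have c3' : ContinuousOn (fun v => conj (L v * ((W v : ℝ) : ℂ))) (sphere 0 1) :=
    Complex.continuous_conj.comp_continuousOn c2'
  have c3 : ContinuousOn (fun v => c * conj (L v * ((W v : ℝ) : ℂ))) (sphere 0 1) :=
    continuousOn_const.mul c3'
  have c4 : ContinuousOn (fun v => c * conj c * ((W v : ℝ) : ℂ)) (sphere 0 1) :=
    continuousOn_const.mul hWC
  have c12 : ContinuousOn (fun v => L v * conj (L v) * ((W v : ℝ) : ℂ) -
      conj c * (L v * ((W v : ℝ) : ℂ))) (sphere 0 1) := c1.sub c2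
  have c123 : ContinuousOn (fun v => (L v * conj (L v) * ((W v : ℝ) : ℂ) -
      conj c * (L v * ((W v : ℝ) : ℂ))) - c * conj (L v * ((W v : ℝ) : ℂ))) (sphere 0 1) :=
    c12.sub c3
  rw [av_congr e, av_add c123 c4, av_sub c12 c3, av_sub c1 c2, av_const_mul, av_const_mul,
    av_const_mul, av_conj c2', hW1, ← hc] at hpos
  have hnorm : (c * conj c).re = ‖c‖ ^ 2 := by
    rw [Complex.mul_conj, Complex.ofReal_re, Complex.normSq_eq_norm_sq]
  have e2 : (conj c * c).re = ‖c‖ ^ 2 := by rw [mul_comm, hnorm]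
  simp only [sub_re, add_re, mul_one] at hpos
  linarith

namespace DiscData

variable {g : ℂ → ℂ} {ρ : ℝ} (D : DiscData g ρ)
include D

end DiscData

/-- The moment pattern of the density, for indices `k, j`. -/
noncomputable def momK (q : ℕ → ℂ → ℂ) (k j : ℕ) (x : ℂ) : ℂ :=
  if k = j then 1 else if j < k then q (k - j) x else conj (q (j - k) x)

theorem inv_pow_mul_pow {v : ℂ} (hv : v ≠ 0) (k j : ℕ) :
    (v⁻¹) ^ (k + 1) * v ^ (j + 1) =
      if k = j then 1 else if j < k then (v⁻¹) ^ (k - j) else v ^ (j - k) := by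
  split_ifs with h1 h2
  · subst h1
    rw [← mul_pow, inv_mul_cancel₀ hv, one_pow]
  · obtain ⟨m, rfl⟩ : ∃ m, k = j + m := ⟨k - j, by omega⟩
    have : j + m - j = m := by omega
    rw [this]
    have e : j + m + 1 = (j + 1) + m := by ring
    rw [e, pow_add, mul_right_comm, ← mul_pow, inv_mul_cancel₀ hv, one_pow, one_mul]
  · obtain ⟨m, rfl⟩ : ∃ m, j = k + m := ⟨j - k, by omega⟩
    have : k + m - k = m := by omega
    rw [this]
    have e : k + m + 1 = (k + 1) + m := by ring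
    rw [e, pow_add v, ← mul_assoc, ← mul_pow, inv_mul_cancel₀ hv, one_pow, one_mul]

/-- Expansion of the square of a trigonometric polynomial on the circle. -/
theorem expand_sq (τ : ℕ → ℂ) (N : ℕ) {v : ℂ} (hv : ‖v‖ = 1) :
    (∑ k ∈ Finset.range N, τ k * (v⁻¹) ^ (k + 1)) *
        conj (∑ k ∈ Finset.range N, τ k * (v⁻¹) ^ (k + 1)) =
      ∑ k ∈ Finset.range N, ∑ j ∈ Finset.range N,
        (τ k * conj (τ j)) * ((v⁻¹) ^ (k + 1) * v ^ (j + 1)) := by
  rw [map_sum, Finset.sum_mul_sum]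
  refine Finset.sum_congr rfl fun k _ => Finset.sum_congr rfl fun j _ => ?_
  have hc : conj (v⁻¹) = v := by rw [map_inv₀, ← Complex.inv_eq_conj hv, inv_inv]
  rw [map_mul, map_pow, hc]
  ring

namespace DiscData

variable {g : ℂ → ℂ} {ρ : ℝ} (D : DiscData g ρ)
include D

/-- Moments of the density. -/
theorem mom_nn {F : ℕ → Polynomial ℂ} {q : ℕ → ℂ → ℂ}
    (hq : ∀ k, DifferentiableOn ℂ (q k) (ball 0 ρ)) (hq0 : ∀ k, q k 0 = 0)
    (hF : ∀ k, ∀ v ∈ ball (0:ℂ) ρ, v ≠ 0 → (F k).eval (g v)⁻¹ = (v⁻¹) ^ k + q k v)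
    {v₂ : ℂ} (hv₂ : ‖v₂‖ = 1) (k j : ℕ) :
    av (fun v => ((v⁻¹) ^ (k + 1) * v ^ (j + 1)) * ((nn g v₂ v : ℝ) : ℂ)) = momK q k j v₂ := by
  have hpw : ∀ m : ℕ, 1 ≤ m → av (fun v => (v⁻¹) ^ m * ((nn g v₂ v : ℝ) : ℂ)) = q m v₂ :=
    fun m hm => D.coeff_nn hm (hq m) (hq0 m) (hF m) hv₂
  have e : ∀ v ∈ sphere (0:ℂ) 1, ((v⁻¹) ^ (k + 1) * v ^ (j + 1)) * ((nn g v₂ v : ℝ) : ℂ) =
      if k = j then ((nn g v₂ v : ℝ) : ℂ) else if j < k then (v⁻¹) ^ (k - j) * ((nn g v₂ v : ℝ) : ℂ)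
        else conj ((v⁻¹) ^ (j - k) * ((nn g v₂ v : ℝ) : ℂ)) := by
    intro v hv
    have hv1 := mem_sph.1 hv
    rw [inv_pow_mul_pow (sph_ne hv1)]
    split_ifs with h1 h2
    · simp
    · rfl
    · have hc : conj (v⁻¹) = v := by rw [map_inv₀, ← Complex.inv_eq_conj hv1, inv_inv]
      rw [map_mul, map_pow, hc, Complex.conj_ofReal]
  rw [av_congr e]
  simp only [momK]
  split_ifs with h1 h2
  · exact D.mass_nn hv₂
  · exact hpw _ (by omega)
  · have c : ContinuousOn (fun v => (v⁻¹) ^ (j - k) * ((nn g v₂ v : ℝ) : ℂ)) (sphere 0 1) :=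
      (cont_inv_pow _).mul (D.cont_nnC hv₂)
    rw [av_conj c, hpw _ (by omega)]

/-- Schur's inequality at one point of the circle. -/
theorem contraction_pt (hK : KernelNonneg g) {F : ℕ → Polynomial ℂ} {q : ℕ → ℂ → ℂ}
    (hq : ∀ k, DifferentiableOn ℂ (q k) (ball 0 ρ)) (hq0 : ∀ k, q k 0 = 0)
    (hF : ∀ k, ∀ v ∈ ball (0:ℂ) ρ, v ≠ 0 → (F k).eval (g v)⁻¹ = (v⁻¹) ^ k + q k v)
    (τ : ℕ → ℂ) (N : ℕ) {v₂ : ℂ} (hv₂ : ‖v₂‖ = 1) :
    ‖∑ k ∈ Finset.range N, τ k * q (k + 1) v₂‖ ^ 2 ≤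
      (∑ k ∈ Finset.range N, ∑ j ∈ Finset.range N,
        (τ k * conj (τ j)) * momK q k j v₂).re := by
  set L : ℂ → ℂ := fun v => ∑ k ∈ Finset.range N, τ k * (v⁻¹) ^ (k + 1) with hL
  have hLc : ContinuousOn L (sphere 0 1) :=
    continuousOn_finsetSum _ (fun k _ => continuousOn_const.mul (cont_inv_pow _))
  have hcs := cs_weight (D.cont_nn hv₂) (D.nn_nonneg hK hv₂) (D.mass_nn hv₂) hLc
  have hnnc := D.cont_nnC hv₂
  have e1 : av (fun v => L v * ((nn g v₂ v : ℝ) : ℂ)) = ∑ k ∈ Finset.range N, τ k * q (k + 1) v₂ := by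
    have : (fun v => L v * ((nn g v₂ v : ℝ) : ℂ)) =
        fun v => ∑ k ∈ Finset.range N, τ k * ((v⁻¹) ^ (k + 1) * ((nn g v₂ v : ℝ) : ℂ)) := by
      funext v
      simp only [hL]
      rw [Finset.sum_mul]
      refine Finset.sum_congr rfl fun k _ => ?_
      ring
    rw [this, av_sum (Finset.range N) (fun k v => τ k * ((v⁻¹) ^ (k + 1) * ((nn g v₂ v : ℝ) : ℂ)))
      (fun k _ => continuousOn_const.mul ((cont_inv_pow _).mul hnnc))]
    refine Finset.sum_congr rfl fun k _ => ?_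
    rw [av_const_mul, D.coeff_nn (by omega) (hq _) (hq0 _) (hF _) hv₂]
  have e2 : av (fun v => L v * conj (L v) * ((nn g v₂ v : ℝ) : ℂ)) =
      ∑ k ∈ Finset.range N, ∑ j ∈ Finset.range N, (τ k * conj (τ j)) * momK q k j v₂ := by
    have h1 : ∀ v ∈ sphere (0:ℂ) 1, L v * conj (L v) * ((nn g v₂ v : ℝ) : ℂ) =
        ∑ k ∈ Finset.range N, ∑ j ∈ Finset.range N,
          (τ k * conj (τ j)) * (((v⁻¹) ^ (k + 1) * v ^ (j + 1)) * ((nn g v₂ v : ℝ) : ℂ)) := by
      intro v hv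
      simp only [hL]
      rw [expand_sq τ N (mem_sph.1 hv), Finset.sum_mul]
      refine Finset.sum_congr rfl fun k _ => ?_
      rw [Finset.sum_mul]
      refine Finset.sum_congr rfl fun j _ => ?_
      ring
    have hc : ∀ k j : ℕ, ContinuousOn
        (fun v => (τ k * conj (τ j)) * (((v⁻¹) ^ (k + 1) * v ^ (j + 1)) * ((nn g v₂ v : ℝ) : ℂ)))
        (sphere 0 1) := fun k j =>
      continuousOn_const.mul (((cont_inv_pow _).mul (continuousOn_id.pow _)).mul hnnc)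
    rw [av_congr h1, av_sum _ _ (fun k _ => continuousOn_finsetSum _ (fun j _ => hc k j))]
    refine Finset.sum_congr rfl fun k _ => ?_
    rw [av_sum _ _ (fun j _ => hc k j)]
    refine Finset.sum_congr rfl fun j _ => ?_
    rw [av_const_mul, D.mom_nn hq hq0 hF hv₂]
  rw [e1, e2] at hcs
  exact hcs

/-- Schur's inequality for the Faber remainders. -/
theorem contraction (hK : KernelNonneg g) {F : ℕ → Polynomial ℂ} {q : ℕ → ℂ → ℂ}
    (hq : ∀ k, DifferentiableOn ℂ (q k) (ball 0 ρ)) (hq0 : ∀ k, q k 0 = 0)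
    (hF : ∀ k, ∀ v ∈ ball (0:ℂ) ρ, v ≠ 0 → (F k).eval (g v)⁻¹ = (v⁻¹) ^ k + q k v)
    (τ : ℕ → ℂ) (N : ℕ) :
    Real.circleAverage (fun v => ‖∑ k ∈ Finset.range N, τ k * q (k + 1) v‖ ^ 2) 0 1 ≤
      ∑ k ∈ Finset.range N, ‖τ k‖ ^ 2 := by
  have hqc : ∀ k, ContinuousOn (q k) (sphere 0 1) :=
    fun k => (hq k).continuousOn.mono D.sph_sub
  have hc1 : ContinuousOn (fun v => ‖∑ k ∈ Finset.range N, τ k * q (k + 1) v‖ ^ 2) (sphere 0 1) :=
    ((continuousOn_finsetSum _ (fun k _ => continuousOn_const.mul (hqc _))).norm).pow 2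
  have hmc : ∀ k j, ContinuousOn (momK q k j) (sphere 0 1) := by
    intro k j
    unfold momK
    split_ifs with h1 h2
    · exact continuousOn_const
    · exact hqc _
    · exact Complex.continuous_conj.comp_continuousOn (hqc _)
  have hma : ∀ k j, av (momK q k j) = if k = j then 1 else 0 := by
    intro k j
    unfold momK
    split_ifs with h1 h2
    · exact av_const 1
    · rw [av_of_diff D.one_lt (hq _), hq0]
    · rw [av_conj (hqc _), av_of_diff D.one_lt (hq _), hq0]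
      simp
  set Z : ℂ → ℂ := fun v => ∑ k ∈ Finset.range N, ∑ j ∈ Finset.range N,
    (τ k * conj (τ j)) * momK q k j v with hZ
  have hZi : ∀ k j : ℕ, ContinuousOn (fun v => (τ k * conj (τ j)) * momK q k j v) (sphere 0 1) :=
    fun k j => continuousOn_const.mul (hmc k j)
  have hZc : ContinuousOn Z (sphere 0 1) :=
    continuousOn_finsetSum _ (fun k _ => continuousOn_finsetSum _ (fun j _ => hZi k j))
  have hZa : av Z = ∑ k ∈ Finset.range N, ((‖τ k‖ ^ 2 : ℝ) : ℂ) := by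
    simp only [hZ]
    rw [av_sum _ _ (fun k _ => continuousOn_finsetSum _ (fun j _ => hZi k j))]
    refine Finset.sum_congr rfl fun k hk => ?_
    rw [av_sum _ _ (fun j _ => hZi k j)]
    rw [Finset.sum_eq_single k]
    · rw [av_const_mul, hma, if_pos rfl, mul_one, Complex.mul_conj, Complex.normSq_eq_norm_sq]
    · intro j _ hj
      rw [av_const_mul, hma, if_neg (Ne.symm hj), mul_zero]
    · intro h
      exact absurd hk h
  have hdiff : Real.circleAverage (fun v => (Z v).re) 0 1 = (av Z).re := by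
    have h1 := Complex.reCLM.circleAverage_comp_comm (cont_circ hZc)
    simpa [av, Function.comp_def] using h1
  have hmono : Real.circleAverage (fun v => ‖∑ k ∈ Finset.range N, τ k * q (k + 1) v‖ ^ 2) 0 1 ≤
      Real.circleAverage (fun v => (Z v).re) 0 1 := by
    refine Real.circleAverage_mono (cont_circ' hc1) (cont_circ' (Complex.continuous_re.comp_continuousOn hZc)) ?_
    intro v hv
    have hv1 : ‖v‖ = 1 := by simpa using hv
    exact D.contraction_pt hK hq hq0 hF τ N hv1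
  rw [hdiff, hZa] at hmono
  have e : (∑ k ∈ Finset.range N, ((‖τ k‖ ^ 2 : ℝ) : ℂ)).re = ∑ k ∈ Finset.range N, ‖τ k‖ ^ 2 := by
    rw [← Complex.ofReal_sum, Complex.ofReal_re]
  rw [e] at hmono
  exact hmono


/-- Orthogonality of the moments. -/
theorem mom_one (k j : ℕ) :
    av (fun v => (v⁻¹) ^ (k + 1) * v ^ (j + 1)) = if k = j then 1 else 0 := by
  have e : ∀ v ∈ sphere (0:ℂ) 1, (v⁻¹) ^ (k + 1) * v ^ (j + 1) =
      if k = j then 1 else if j < k then (v⁻¹) ^ (k - j) else v ^ (j - k) := by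
    intro v hv
    exact inv_pow_mul_pow (sph_ne (mem_sph.1 hv)) k j
  rw [av_congr e]
  split_ifs with h1 h2
  · exact av_const 1
  · exact av_inv_pow _ (by omega)
  · have h3 : av (fun v => v ^ (j - k)) = (0:ℂ) ^ (j - k) :=
      av_of_diff D.one_lt (DifferentiableOn.pow differentiableOn_id _)
    rw [h3, zero_pow (by omega)]

/-- The `L²` bound on the circle for combinations of Faber polynomials. -/
theorem faber_L2 (hK : KernelNonneg g) {F : ℕ → Polynomial ℂ} {q : ℕ → ℂ → ℂ}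
    (hq : ∀ k, DifferentiableOn ℂ (q k) (ball 0 ρ)) (hq0 : ∀ k, q k 0 = 0)
    (hF : ∀ k, ∀ v ∈ ball (0:ℂ) ρ, v ≠ 0 → (F k).eval (g v)⁻¹ = (v⁻¹) ^ k + q k v)
    (τ : ℕ → ℂ) (N : ℕ) :
    Real.circleAverage (fun v =>
      ‖(1 + ∑ k ∈ Finset.range N, Polynomial.C (τ k) * F (k + 1)).eval (g v)⁻¹‖ ^ 2) 0 1 ≤
      1 + 2 * ∑ k ∈ Finset.range N, ‖τ k‖ ^ 2 := by
  set β : Polynomial ℂ := 1 + ∑ k ∈ Finset.range N, Polynomial.C (τ k) * F (k + 1) with hβ
  set ℓ : ℂ → ℂ := fun v => ∑ k ∈ Finset.range N, τ k * (v⁻¹) ^ (k + 1) with hℓ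
  set B : ℂ → ℂ := fun v => ∑ k ∈ Finset.range N, τ k * q (k + 1) v with hB
  set A' : ℂ → ℂ := fun v => 1 + ∑ k ∈ Finset.range N, conj (τ k) * v ^ (k + 1) with hA'
  have hℓc : ContinuousOn ℓ (sphere 0 1) :=
    continuousOn_finsetSum _ (fun k _ => continuousOn_const.mul (cont_inv_pow _))
  have hBd : DifferentiableOn ℂ B (ball 0 ρ) :=
    DifferentiableOn.fun_sum (fun k _ => (hq _).const_mul _)
  have hBc : ContinuousOn B (sphere 0 1) := hBd.continuousOn.mono D.sph_sub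
  have hB0 : B 0 = 0 := by
    simp [hB, hq0]
  have hA'd : DifferentiableOn ℂ A' (ball 0 ρ) :=
    (differentiableOn_const _).add (DifferentiableOn.fun_sum (fun k _ =>
      (DifferentiableOn.pow differentiableOn_id _).const_mul _))
  have hA'c : ContinuousOn A' (sphere 0 1) := hA'd.continuousOn.mono D.sph_sub
  have hA'0 : A' 0 = 1 := by
    simp [hA']
  have hA'conj : ∀ v, ‖v‖ = 1 → conj (1 + ℓ v) = A' v := by
    intro v hv
    have hc : conj (v⁻¹) = v := by rw [map_inv₀, ← Complex.inv_eq_conj hv, inv_inv]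
    simp only [hℓ, hA', map_add, map_one, map_sum, map_mul, map_pow, hc]
  have hβe : ∀ v, ‖v‖ = 1 → β.eval (g v)⁻¹ = (1 + ℓ v) + B v := by
    intro v hv
    simp only [hβ, hℓ, hB, Polynomial.eval_add, Polynomial.eval_one, Polynomial.eval_finsetSum,
      Polynomial.eval_mul, Polynomial.eval_C]
    rw [add_assoc, ← Finset.sum_add_distrib]
    congr 1
    refine Finset.sum_congr rfl fun k _ => ?_
    rw [hF _ v (D.sph_mem hv) (sph_ne hv)]
    ring
  have hβc : ContinuousOn (fun v => β.eval (g v)⁻¹) (sphere 0 1) :=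
    β.continuous.comp_continuousOn D.cont_sigma
  have hYc : ContinuousOn (fun v => ‖β.eval (g v)⁻¹‖ ^ 2) (sphere 0 1) := hβc.norm.pow 2
  have hBsq : ContinuousOn (fun v => ‖B v‖ ^ 2) (sphere 0 1) := hBc.norm.pow 2
  -- pointwise expansion
  have hexp : ∀ v ∈ sphere (0:ℂ) 1, ((‖β.eval (g v)⁻¹‖ ^ 2 : ℝ) : ℂ) =
      (((A' v + (ℓ v * conj (ℓ v) + ℓ v)) + ((‖B v‖ ^ 2 : ℝ) : ℂ)) + conj (A' v * B v)) +
        A' v * B v := by
    intro v hv
    have hv1 := mem_sph.1 hv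
    rw [hβe v hv1]
    have h1 : ((‖(1 + ℓ v) + B v‖ ^ 2 : ℝ) : ℂ) = ((1 + ℓ v) + B v) * conj ((1 + ℓ v) + B v) := by
      rw [Complex.mul_conj, Complex.normSq_eq_norm_sq]
    have h2 : ((‖B v‖ ^ 2 : ℝ) : ℂ) = B v * conj (B v) := by
      rw [Complex.mul_conj, Complex.normSq_eq_norm_sq]
    have h3 := hA'conj v hv1
    have h4 : conj (ℓ v) = A' v - 1 := by
      rw [← h3]
      simp
    rw [h1, h2, map_add, h3, map_mul, ← h3, Complex.conj_conj, h3, h4]
    ring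
  -- averages
  have hℓa : av ℓ = 0 := by
    simp only [hℓ]
    rw [av_sum (Finset.range N) (fun k v => τ k * (v⁻¹) ^ (k + 1))
      (fun k _ => continuousOn_const.mul (cont_inv_pow _))]
    refine Finset.sum_eq_zero fun k _ => ?_
    rw [av_const_mul, av_inv_pow _ (by omega), mul_zero]
  have hℓℓi : ∀ k j : ℕ, ContinuousOn (fun v : ℂ => (τ k * conj (τ j)) * ((v⁻¹) ^ (k + 1) * v ^ (j + 1)))
      (sphere 0 1) := fun k j =>
    continuousOn_const.mul ((cont_inv_pow _).mul (continuousOn_id.pow _))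
  have hℓℓa : av (fun v => ℓ v * conj (ℓ v)) = ∑ k ∈ Finset.range N, ((‖τ k‖ ^ 2 : ℝ) : ℂ) := by
    have h1 : ∀ v ∈ sphere (0:ℂ) 1, ℓ v * conj (ℓ v) = ∑ k ∈ Finset.range N, ∑ j ∈ Finset.range N,
        (τ k * conj (τ j)) * ((v⁻¹) ^ (k + 1) * v ^ (j + 1)) :=
      fun v hv => expand_sq τ N (mem_sph.1 hv)
    rw [av_congr h1, av_sum (Finset.range N) (fun k v => ∑ j ∈ Finset.range N,
        (τ k * conj (τ j)) * ((v⁻¹) ^ (k + 1) * v ^ (j + 1)))
      (fun k _ => continuousOn_finsetSum _ (fun j _ => hℓℓi k j))]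
    refine Finset.sum_congr rfl fun k hk => ?_
    rw [av_sum (Finset.range N) (fun j v => (τ k * conj (τ j)) * ((v⁻¹) ^ (k + 1) * v ^ (j + 1)))
      (fun j _ => hℓℓi k j)]
    rw [Finset.sum_eq_single k]
    · rw [av_const_mul, D.mom_one, if_pos rfl, mul_one, Complex.mul_conj, Complex.normSq_eq_norm_sq]
    · intro j _ hj
      rw [av_const_mul, D.mom_one, if_neg (Ne.symm hj), mul_zero]
    · intro h
      exact absurd hk h
  have hABd : DifferentiableOn ℂ (fun v => A' v * B v) (ball 0 ρ) := hA'd.mul hBd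
  have hABc : ContinuousOn (fun v => A' v * B v) (sphere 0 1) := hABd.continuousOn.mono D.sph_sub
  have hABa : av (fun v => A' v * B v) = 0 := by
    rw [av_of_diff D.one_lt hABd]
    simp [hB0]
  have hA'a : av A' = 1 := by
    rw [av_of_diff D.one_lt hA'd, hA'0]
  have hℓconj : ContinuousOn (fun v => conj (ℓ v)) (sphere 0 1) :=
    Complex.continuous_conj.comp_continuousOn hℓc
  have hℓℓc : ContinuousOn (fun v => ℓ v * conj (ℓ v)) (sphere 0 1) := hℓc.mul hℓconj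
  have c1 : ContinuousOn (fun v => ℓ v * conj (ℓ v) + ℓ v) (sphere 0 1) := hℓℓc.add hℓc
  have c2 : ContinuousOn (fun v => A' v + (ℓ v * conj (ℓ v) + ℓ v)) (sphere 0 1) := hA'c.add c1
  have c3 : ContinuousOn (fun v => ((‖B v‖ ^ 2 : ℝ) : ℂ)) (sphere 0 1) :=
    Complex.continuous_ofReal.comp_continuousOn hBsq
  have c4 : ContinuousOn (fun v => (A' v + (ℓ v * conj (ℓ v) + ℓ v)) + ((‖B v‖ ^ 2 : ℝ) : ℂ))
      (sphere 0 1) := c2.add c3
  have c5 : ContinuousOn (fun v => conj (A' v * B v)) (sphere 0 1) :=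
    Complex.continuous_conj.comp_continuousOn hABc
  have c6 : ContinuousOn (fun v => ((A' v + (ℓ v * conj (ℓ v) + ℓ v)) + ((‖B v‖ ^ 2 : ℝ) : ℂ)) +
      conj (A' v * B v)) (sphere 0 1) := c4.add c5
  have htot := av_congr hexp
  rw [av_add c6 hABc, av_add c4 c5, av_add c2 c3, av_add hA'c c1, av_add hℓℓc hℓc, av_conj hABc,
    hABa, hℓℓa, hℓa, hA'a] at htot
  have hre := congrArg Complex.re htot
  rw [re_av hYc] at hre
  simp only [add_re, map_zero, add_zero, one_re] at hre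
  rw [re_av hBsq] at hre
  have e : (∑ k ∈ Finset.range N, ((‖τ k‖ ^ 2 : ℝ) : ℂ)).re = ∑ k ∈ Finset.range N, ‖τ k‖ ^ 2 := by
    rw [← Complex.ofReal_sum, Complex.ofReal_re]
  rw [e] at hre
  have hcontr := D.contraction hK hq hq0 hF τ N
  rw [hre]
  linarith

end DiscData

end Vale.Agent.Lib.P123.Rmt
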