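import Vale.Agent.Lib.P123.Rmt.Laurent

/-!
# The main inequality for a conformal map on a disc larger than the unit disc
-/

open Complex Metric Set Filter Topology ComplexConjugate
open scoped Real

namespace Vale.Agent.Lib.P123.Rmt

set_option linter.unusedSectionVars false
set_option linter.unusedVariables false

variable {H : Type*} [NormedAddCommGroup H] [InnerProductSpace ℂ H] [CompleteSpace H]

/-- Matrix coefficient as a continuous linear functional. -/
noncomputable def ev (a b : H) : (H →L[ℂ] H) →L[ℂ] ℂ :=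
  (innerSL ℂ a).comp (ContinuousLinearMap.apply ℂ H b)

@[simp] lemma ev_apply (a b : H) (T : H →L[ℂ] H) : ev a b T = inner ℂ a (T b) := rfl

section Core

variable {g : ℂ → ℂ} {R₀ : ℝ} (G : GMap g R₀) (A : H →L[ℂ] H)
  (hU : ∀ v ∈ closedBall (0 : ℂ) 1, IsUnit (1 - g v • A))
include G hU

/-- The scalar kernel. -/
noncomputable def qf (g : ℂ → ℂ) (A : H →L[ℂ] H) (a b : H) (v : ℂ) : ℂ :=
  inner ℂ a (QQ g A v b)

lemma qf_dc (a b : H) : DiffContOnCl ℂ (qf g A a b) (ball 0 1) :=
  (ev a b).differentiable.comp_diffContOnCl (qq_diffCont G hU)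

lemma qf_cs (a b : H) : Cs (qf g A a b) := by
  have := (qf_dc G A hU a b).continuousOn
  rw [closure_ball _ one_ne_zero] at this
  exact this.mono sphere_subset_closedBall

omit hU in
lemma qf_zero (a b : H) : qf g A a b 0 = inner ℂ a b := by
  unfold qf
  rw [qq_zero G]
  simp

lemma qf_eval (a b : H) (p : Polynomial ℂ) :
    Av (fun v => p.eval (psi g v) * qf g A a b v) = inner ℂ a (Polynomial.aeval A p b) := by
  have hcs : ContinuousOn (fun v => p.eval (psi g v) • QQ g A v) (sphere (0 : ℂ) 1) :=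
    ContinuousOn.smul (p.continuous.comp_continuousOn G.psi_cs) (qq_cs G hU)
  have h := av_clm ((ev a b).restrictScalars ℝ) hcs
  rw [av_eval_qq G hU p] at h
  have h2 : Av (fun v => ((ev a b).restrictScalars ℝ) (p.eval (psi g v) • QQ g A v)) =
      Av (fun v => p.eval (psi g v) * qf g A a b v) := by
    apply av_congr
    intro v _
    simp [qf]
  rw [← h2, h]
  simp

omit G hU in
lemma commute_aeval (f : Polynomial ℂ) : Commute A (Polynomial.aeval A f) := by
  show A * Polynomial.aeval A f = Polynomial.aeval A f * A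
  calc A * Polynomial.aeval A f = Polynomial.aeval A (Polynomial.X * f) := by
        rw [map_mul, Polynomial.aeval_X]
    _ = Polynomial.aeval A (f * Polynomial.X) := by rw [mul_comm]
    _ = Polynomial.aeval A f * A := by rw [map_mul, Polynomial.aeval_X]

lemma qq_commute (f : Polynomial ℂ) {v : ℂ} (hv : v ∈ closedBall (0 : ℂ) 1) :
    Commute (QQ g A v) (Polynomial.aeval A f) := by
  unfold QQ
  obtain ⟨u, hu⟩ := hU v hv
  have h1 : Commute ((1 : H →L[ℂ] H) - g v • A) (Polynomial.aeval A f) :=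
    (Commute.one_left _).sub_left ((commute_aeval A f).smul_left _)
  have h2 : Commute (Ring.inverse ((1 : H →L[ℂ] H) - g v • A)) (Polynomial.aeval A f) := by
    rw [← hu, Ring.inverse_unit]
    rw [← hu] at h1
    exact h1.units_inv_left
  exact h2.smul_left _

end Core

section Pointwise

variable {g : ℂ → ℂ} {A : H →L[ℂ] H}

/-- The Cauchy-Schwarz inequality for the real part of a positive sesquilinear form. -/
lemma pointwise_cs {Q : H →L[ℂ] H} (hQ : ∀ a : H, 0 ≤ (inner ℂ a (Q a)).re) {x y : H}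
    (hxy : inner ℂ y (Q y) = inner ℂ x (Q x)) :
    ‖(inner ℂ y (Q x) : ℂ) + conj (inner ℂ x (Q y))‖ ^ 2 ≤
      (2 * (inner ℂ x (Q x) : ℂ).re) ^ 2 := by
  rw [sq (2 * (inner ℂ x (Q x) : ℂ).re)]
  refine quad_cs (by linarith [hQ x]) fun c => ?_
  have h := hQ (x - c • y)
  simp only [inner_sub_left, inner_sub_right, map_sub, map_smul, inner_smul_left, inner_smul_right]
    at h
  rw [hxy] at h
  generalize (inner ℂ x (Q x) : ℂ) = a at *
  generalize (inner ℂ x (Q y) : ℂ) = d at *
  generalize (inner ℂ y (Q x) : ℂ) = b at *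
  simp only [Complex.sub_re, Complex.sub_im, Complex.mul_re, Complex.conj_re, Complex.conj_im,
    Complex.mul_im] at h
  have hc : ‖c‖ ^ 2 = c.re ^ 2 + c.im ^ 2 := by
    rw [Complex.sq_norm, Complex.normSq_apply]
    ring
  rw [hc]
  simp only [Complex.mul_re, Complex.add_re, Complex.add_im, Complex.conj_re, Complex.conj_im]
  nlinarith

end Pointwise

/-- **Main inequality** on the unit circle. -/
theorem main_core {g : ℂ → ℂ} {R₀ : ℝ} (G : GMap g R₀) (A : H →L[ℂ] H)
    (hU : ∀ v ∈ closedBall (0 : ℂ) 1, IsUnit (1 - g v • A))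
    (hpos : ∀ v ∈ sphere (0 : ℂ) 1, ∀ a : H, 0 ≤ (inner ℂ a (QQ g A v a)).re)
    (hker : ∀ v ∈ sphere (0 : ℂ) 1, ∀ η ∈ sphere (0 : ℂ) 1, v ≠ η →
      0 ≤ (ss g η + η * deriv g η / (g v - g η)).re)
    (f : Polynomial ℂ) {Mf K : ℝ} (hMf : ∀ v ∈ sphere (0 : ℂ) 1, ‖f.eval (psi g v)‖ ≤ Mf)
    (hK : 0 ≤ K) {x y : H} (hx : ‖x‖ = 1) (hy : ‖y‖ = 1)
    (h1 : Polynomial.aeval A f x = (K : ℂ) • y)
    (h2 : ContinuousLinearMap.adjoint (Polynomial.aeval A f) y = (K : ℂ) • x) :
    K ≤ 2 * Mf := by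
  have hMf0 : 0 ≤ Mf := by
    have h1mem : (1 : ℂ) ∈ sphere (0 : ℂ) 1 := by simp
    exact (norm_nonneg _).trans (hMf 1 h1mem)
  rcases hK.eq_or_lt with hK0 | hKpos
  · rw [← hK0]; linarith
  set T := Polynomial.aeval A f with hT
  set t := qf g A x x with ht
  have hKne : (K : ℂ) ≠ 0 := by exact_mod_cast hKpos.ne'
  have hxx : (inner ℂ x x : ℂ) = 1 := by
    rw [inner_self_eq_norm_sq_to_K, hx]
    simp
  have hyy : (inner ℂ y y : ℂ) = 1 := by
    rw [inner_self_eq_norm_sq_to_K, hy]
    simp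
  have htdc : DiffContOnCl ℂ t (ball 0 1) := qf_dc G A hU x x
  have htcs : Cs t := qf_cs G A hU x x
  have ht0 : t 0 = 1 := by rw [ht, qf_zero G, hxx]
  -- the two quadratic forms agree
  have hqyy : ∀ v ∈ closedBall (0 : ℂ) 1, qf g A y y v = t v := by
    intro v hv
    have hc := qq_commute G A hU f hv
    have e1 : (K : ℂ) * qf g A y y v = inner ℂ y (QQ g A v ((K : ℂ) • y)) := by
      unfold qf
      rw [map_smul, inner_smul_right]
    have e2 : QQ g A v ((K : ℂ) • y) = T (QQ g A v x) := by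
      rw [← h1]
      have := congrArg (fun S : H →L[ℂ] H => S x) hc.eq
      simpa using this
    have e3 : (inner ℂ y (T (QQ g A v x)) : ℂ) = inner ℂ (ContinuousLinearMap.adjoint T y) (QQ g A v x) :=
      (ContinuousLinearMap.adjoint_inner_left T (QQ g A v x) y).symm
    rw [e2, e3, h2, inner_smul_left, Complex.conj_ofReal] at e1
    exact mul_left_cancel₀ hKne e1
  -- the boundary function
  set μ : ℂ → ℂ := fun v => qf g A y x v + conj (qf g A x y v) with hμ
  have hμcs : Cs μ := (qf_cs G A hU y x).add (qf_cs G A hU x y).conj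
  have hμpt : ∀ v ∈ sphere (0 : ℂ) 1, ‖μ v‖ ^ 2 ≤ (2 * (t v).re) ^ 2 := by
    intro v hv
    exact pointwise_cs (hpos v hv) (hqyy v (sphere_subset_closedBall hv))
  set At := Av (fun v => ‖t v‖ ^ 2) with hAt
  have hAt0 : 0 ≤ At := av_nonneg fun _ _ => by positivity
  have hμav : Av (fun v => ‖μ v‖ ^ 2) ≤ 2 * At + 2 := by
    have hform : ∀ v, (2 * (t v).re) ^ 2 = 2 * ‖t v‖ ^ 2 + 2 * (t v * t v).re := by
      intro v
      simp only [Complex.sq_norm, Complex.normSq_apply, Complex.mul_re]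
      ring
    have c1 : Cs (fun v => (2 : ℝ) * ‖t v‖ ^ 2) := ContinuousOn.mul continuousOn_const htcs.normSq
    have c2 : Cs (fun v => (2 : ℝ) * (t v * t v).re) :=
      ContinuousOn.mul continuousOn_const (htcs.mul htcs).re
    have h3 : Av (fun v => (2 * (t v).re) ^ 2) = 2 * At + 2 := by
      simp_rw [hform]
      rw [av_add c1 c2]
      have e1 : Av (fun v => (2 : ℝ) * ‖t v‖ ^ 2) = 2 * At := by
        have := av_smul (E := ℝ) (2 : ℝ) (fun v => ‖t v‖ ^ 2)
        simpa using this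
      have e2 : Av (fun v => (2 : ℝ) * (t v * t v).re) = 2 := by
        have := av_smul (E := ℝ) (2 : ℝ) (fun v => (t v * t v).re)
        simp only [smul_eq_mul] at this
        rw [this, av_re (htcs.mul htcs), av_mean (dc_mul htdc htdc), ht0]
        simp
      rw [e1, e2]
    rw [← h3]
    refine av_mono hμcs.normSq ?_ hμpt
    exact (ContinuousOn.mul continuousOn_const htcs.re).pow 2
  -- the moments
  set τ : ℕ → ℂ := fun k => Av (fun v : ℂ => (v⁻¹) ^ k * t v) with hτ
  have hτ0 : τ 0 = 1 := by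
    simp only [hτ, pow_zero, one_mul]
    rw [av_mean htdc, ht0]
  set D : ℕ → ℝ := fun n => ∑ k ∈ Finset.range n, ‖τ (k + 1)‖ ^ 2 with hD
  have hD0 : ∀ n, 0 ≤ D n := fun n => Finset.sum_nonneg fun _ _ => by positivity
  -- the estimate at level n
  have hlevel : ∀ n, K ^ 2 * (1 + D n / 2) ≤ Mf ^ 2 * (2 * At + 2) := by
    intro n
    set ℓ : Polynomial ℂ :=
      ∑ k ∈ Finset.range n, Polynomial.C (conj (τ (k + 1))) * Polynomial.X ^ (k + 1) with hℓ
    have hℓdeg : ℓ.natDegree ≤ n := by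
      refine Polynomial.natDegree_sum_le_of_forall_le _ _ fun k hk => ?_
      refine (Polynomial.natDegree_C_mul_X_pow_le _ _).trans ?_
      exact Finset.mem_range.1 hk
    have hℓ0 : ℓ.coeff 0 = 0 := by
      rw [hℓ, Polynomial.finsetSum_coeff]
      refine Finset.sum_eq_zero fun k _ => ?_
      rw [Polynomial.coeff_C_mul_X_pow, if_neg (by omega)]
    have hℓev : ∀ v : ℂ, ℓ.eval v⁻¹ = ∑ k ∈ Finset.range n, conj (τ (k + 1)) * (v⁻¹) ^ (k + 1) := by
      intro v
      rw [hℓ, Polynomial.eval_finsetSum]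
      simp
    obtain ⟨F, Hf, hLD⟩ := G.ld_surj n ℓ hℓdeg
    have hcontr := G.contraction hker hLD.diff hLD.zero hℓ0 hLD.eq
    have hℓav : Av (fun v => ‖ℓ.eval v⁻¹‖ ^ 2) = D n := by
      simp_rw [hℓev]
      rw [av_norm_sum]
      simp [hD]
    rw [hℓav] at hcontr
    -- the polynomial
    set b : Polynomial ℂ := 1 + Polynomial.C (1 / 2 : ℂ) * F with hb
    have hbev : ∀ v ∈ sphere (0 : ℂ) 1, b.eval (psi g v) = 1 + (1 / 2 : ℂ) * ℓ.eval v⁻¹ + (1 / 2 : ℂ) * Hf v := by
      intro v hv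
      rw [hb]
      simp only [Polynomial.eval_add, Polynomial.eval_one, Polynomial.eval_mul, Polynomial.eval_C]
      rw [hLD.eq v (G.mem_of_sphere hv) (ne_zero_sphere hv)]
      ring
    have hHfdc : DiffContOnCl ℂ Hf (ball 0 1) :=
      (hLD.diff.mono G.closed_sub).diffContOnCl_ball subset_rfl
    have hHfcs : Cs Hf := hLD.diff.continuousOn.mono G.sphere_sub
    have hℓcs := cs_eval_inv ℓ
    -- the value on x
    have hbval : (inner ℂ x (Polynomial.aeval A b x) : ℂ) = ((1 + D n / 2 : ℝ) : ℂ) := by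
      rw [← qf_eval G A hU x x b]
      have e1 : Av (fun v => b.eval (psi g v) * qf g A x x v) =
          Av (fun v => (t v + (1 / 2 : ℂ) * (ℓ.eval v⁻¹ * t v)) + (1 / 2 : ℂ) * (Hf v * t v)) := by
        apply av_congr
        intro v hv
        rw [hbev v hv]
        simp only [ht]
        ring
      have c1 : Cs (fun v => (1 / 2 : ℂ) * (ℓ.eval v⁻¹ * t v)) := (cs_const _).mul (hℓcs.mul htcs)
      have c2 : Cs (fun v => (1 / 2 : ℂ) * (Hf v * t v)) := (cs_const _).mul (hHfcs.mul htcs)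
      rw [e1, av_add (htcs.add c1) c2, av_add htcs c1]
      have e2 : Av t = 1 := by rw [av_mean htdc, ht0]
      have e3 : Av (fun v => (1 / 2 : ℂ) * (Hf v * t v)) = 0 := by
        have := av_smul (1 / 2 : ℂ) (fun v => Hf v * t v)
        simp only [smul_eq_mul] at this
        rw [this, av_mean (dc_mul hHfdc htdc), hLD.zero]
        simp
      have e4 : Av (fun v => ℓ.eval v⁻¹ * t v) = ((D n : ℝ) : ℂ) := by
        simp_rw [hℓev, Finset.sum_mul]
        rw [av_sum]
        · rw [hD]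
          push_cast
          refine Finset.sum_congr rfl fun k _ => ?_
          have := av_smul (conj (τ (k + 1))) (fun v : ℂ => (v⁻¹) ^ (k + 1) * t v)
          simp only [smul_eq_mul] at this
          have e5 : Av (fun v : ℂ => conj (τ (k + 1)) * (v⁻¹) ^ (k + 1) * t v) =
              conj (τ (k + 1)) * τ (k + 1) := by
            rw [← show Av (fun v : ℂ => (v⁻¹) ^ (k + 1) * t v) = τ (k + 1) from rfl, ← this]
            apply av_congr
            intro v _
            ring
          rw [e5, Complex.conj_mul']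
        · intro k _
          exact ((cs_const _).mul (ContinuousOn.pow cs_inv _)).mul htcs
      have e6 : Av (fun v => (1 / 2 : ℂ) * (ℓ.eval v⁻¹ * t v)) = (1 / 2 : ℂ) * ((D n : ℝ) : ℂ) := by
        have := av_smul (1 / 2 : ℂ) (fun v => ℓ.eval v⁻¹ * t v)
        simp only [smul_eq_mul] at this
        rw [this, e4]
      rw [e2, e3, e6]
      push_cast
      ring
    -- the norm of b
    have hbnorm : Av (fun v => ‖b.eval (psi g v)‖ ^ 2) ≤ 1 + D n / 2 := by
      have e1 : Av (fun v => ‖b.eval (psi g v)‖ ^ 2) =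
          Av (fun v => ‖(1 : ℂ) + (Polynomial.C (1 / 2 : ℂ) * ℓ).eval v⁻¹ + (1 / 2 : ℂ) * Hf v‖ ^ 2) := by
        apply av_congr
        intro v hv
        rw [hbev v hv]
        simp
      have hdc2 : DiffContOnCl ℂ (fun v => (1 / 2 : ℂ) * Hf v) (ball 0 1) :=
        dc_mul (differentiable_const _).diffContOnCl hHfdc
      have e2 := pyth (1 : ℂ) (L := Polynomial.C (1 / 2 : ℂ) * ℓ) (h := fun v => (1 / 2 : ℂ) * Hf v)
        (by rw [Polynomial.coeff_C_mul, hℓ0, mul_zero]) hdc2 (by simp [hLD.zero])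
      rw [e1, e2]
      have e3 : Av (fun v => ‖(Polynomial.C (1 / 2 : ℂ) * ℓ).eval v⁻¹‖ ^ 2) = D n / 4 := by
        rw [← hℓav]
        have := av_smul (E := ℝ) (1 / 4 : ℝ) (fun v => ‖ℓ.eval v⁻¹‖ ^ 2)
        simp only [smul_eq_mul] at this
        have e4 : Av (fun v => ‖(Polynomial.C (1 / 2 : ℂ) * ℓ).eval v⁻¹‖ ^ 2) =
            Av (fun v => (1 / 4 : ℝ) * ‖ℓ.eval v⁻¹‖ ^ 2) := by
          apply av_congr
          intro v _
          simp only [Polynomial.eval_mul, Polynomial.eval_C, norm_mul, mul_pow]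
          norm_num
        rw [e4, this]
        ring
      have e5 : Av (fun v => ‖(1 / 2 : ℂ) * Hf v‖ ^ 2) = Av (fun v => ‖Hf v‖ ^ 2) / 4 := by
        have := av_smul (E := ℝ) (1 / 4 : ℝ) (fun v => ‖Hf v‖ ^ 2)
        simp only [smul_eq_mul] at this
        have e4 : Av (fun v => ‖(1 / 2 : ℂ) * Hf v‖ ^ 2) =
            Av (fun v => (1 / 4 : ℝ) * ‖Hf v‖ ^ 2) := by
          apply av_congr
          intro v _
          simp only [norm_mul, mul_pow]
          norm_num
        rw [e4, this]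
        ring
      rw [e3, e5]
      simp only [norm_one, one_pow]
      linarith
    -- the main chain
    set En : ℝ := 1 + D n / 2 with hEn
    have hEnpos : 0 < En := by have := hD0 n; positivity
    set α : Polynomial ℂ := f * b with hα
    obtain ⟨L, hα', hLDα⟩ := G.ld_exists α
    have hchain : (inner ℂ y (Polynomial.aeval A α x) : ℂ) = ((K * En : ℝ) : ℂ) := by
      have e1 : Polynomial.aeval A α x = T (Polynomial.aeval A b x) := by
        rw [hα, map_mul]
        rfl
      have e2 : (inner ℂ y (T (Polynomial.aeval A b x)) : ℂ) =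
          inner ℂ (ContinuousLinearMap.adjoint T y) (Polynomial.aeval A b x) :=
        (ContinuousLinearMap.adjoint_inner_left T _ y).symm
      rw [e1, e2, h2, inner_smul_left, Complex.conj_ofReal, hbval]
      push_cast
      ring
    have hdec := decomp_bound G hLDα (qf_dc G A hU y x) (qf_dc G A hU x y)
      (by rw [qf_zero G, qf_zero G, inner_conj_symm])
    rw [qf_eval G A hU y x α, hchain, Complex.norm_real, Real.norm_eq_abs, sq_abs] at hdec
    have hαnorm : Av (fun v => ‖α.eval (psi g v)‖ ^ 2) ≤ Mf ^ 2 * En := by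
      have e1 : ∀ v ∈ sphere (0 : ℂ) 1, ‖α.eval (psi g v)‖ ^ 2 ≤ Mf ^ 2 * ‖b.eval (psi g v)‖ ^ 2 := by
        intro v hv
        rw [hα, Polynomial.eval_mul, norm_mul, mul_pow]
        refine mul_le_mul_of_nonneg_right ?_ (by positivity)
        exact pow_le_pow_left₀ (norm_nonneg _) (hMf v hv) 2
      have hbcs : Cs (fun v => b.eval (psi g v)) := b.continuous.comp_continuousOn G.psi_cs
      have hαcs : Cs (fun v => α.eval (psi g v)) := α.continuous.comp_continuousOn G.psi_cs
      have c5 : Cs (fun v => Mf ^ 2 * ‖b.eval (psi g v)‖ ^ 2) :=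
        ContinuousOn.mul continuousOn_const hbcs.normSq
      have h5 := av_mono hαcs.normSq c5 e1
      refine h5.trans ?_
      have := av_smul (E := ℝ) (Mf ^ 2) (fun v => ‖b.eval (psi g v)‖ ^ 2)
      simp only [smul_eq_mul] at this
      rw [this]
      exact mul_le_mul_of_nonneg_left hbnorm (by positivity)
    have hμnn : 0 ≤ Av (fun v => ‖μ v‖ ^ 2) := av_nonneg fun _ _ => by positivity
    have hfinal : (K * En) ^ 2 ≤ (Mf ^ 2 * En) * (2 * At + 2) := by
      refine hdec.trans ?_
      refine mul_le_mul hαnorm hμav hμnn ?_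
      positivity
    have h6 : K ^ 2 * En * En ≤ (Mf ^ 2 * (2 * At + 2)) * En := by nlinarith
    exact le_of_mul_le_mul_right h6 hEnpos
  -- passing to the limit
  have hpar := parseval htdc
  have hDlim : Tendsto D atTop (𝓝 (At - 1)) := by
    have h3 := (tendsto_add_atTop_iff_nat 1).2 hpar
    have h4 : ∀ n, ∑ k ∈ Finset.range (n + 1), ‖Av (fun v : ℂ => (v⁻¹) ^ k * t v)‖ ^ 2 = D n + 1 := by
      intro n
      rw [Finset.sum_range_succ']
      have : ‖Av (fun v : ℂ => (v⁻¹) ^ 0 * t v)‖ ^ 2 = 1 := by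
        have h5 : Av (fun v : ℂ => (v⁻¹) ^ 0 * t v) = τ 0 := rfl
        rw [h5, hτ0]
        simp
      rw [this]
    simp_rw [h4] at h3
    have h5 := h3.sub_const 1
    simpa using h5
  have hlim : K ^ 2 * (1 + (At - 1) / 2) ≤ Mf ^ 2 * (2 * At + 2) := by
    have h7 : Tendsto (fun n => K ^ 2 * (1 + D n / 2)) atTop (𝓝 (K ^ 2 * (1 + (At - 1) / 2))) :=
      Tendsto.const_mul _ (Tendsto.const_add _ (hDlim.div_const 2))
    exact le_of_tendsto' h7 hlevel
  have hfin : K ^ 2 ≤ (2 * Mf) ^ 2 := by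
    have h3 : 0 < At + 1 := by linarith
    have h4 : K ^ 2 * (At + 1) ≤ (2 * Mf) ^ 2 * (At + 1) := by nlinarith
    exact le_of_mul_le_mul_right h4 h3
  exact (pow_le_pow_iff_left₀ hK (by positivity) (by norm_num)).1 hfin

end Vale.Agent.Lib.P123.Rmt
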