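import Vale.Agent.Lib.P123.Rmt.BridgeCurve
import Vale.Agent.Lib.P123.Rmt.Main

/-!
# The main inequality on a level curve, and Crouzeix's theorem
-/

namespace Vale.Agent.Lib.P123.Rmt

open Complex Metric Set Filter Topology ComplexConjugate
open scoped InnerProductSpace

universe u

section

variable {H : Type u} [NormedAddCommGroup H] [InnerProductSpace ℂ H] [CompleteSpace H]
  [FiniteDimensional ℂ H]

theorem gmap_of_level {L : Set ℂ} {ρ : ℝ} {g : ℂ → ℂ} (hG : LevelG L ρ g) : GMap g ρ :=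
  ⟨hG.one_lt, hG.diff, hG.zero, hG.inj, hG.deriv_ne⟩

theorem isUnit_of_level {L : Set ℂ} {ρ : ℝ} {g : ℂ → ℂ} (hG : LevelG L ρ g) (A : H →L[ℂ] H)
    (hW : ∀ x : H, ‖x‖ = 1 → ⟪x, A x⟫_ℂ ∈ L) {v : ℂ} (hv : v ∈ closedBall (0 : ℂ) 1) :
    IsUnit (1 - g v • A) := by
  have hvmem : v ∈ ball (0 : ℂ) ρ := closedBall_subset_ball hG.one_lt hv
  rw [ContinuousLinearMap.isUnit_iff_isUnit_toLinearMap, LinearMap.isUnit_iff_ker_eq_bot,
    LinearMap.ker_eq_bot']
  intro x hx
  by_contra hx0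
  have hx' : x = g v • A x := by
    have : x - g v • A x = 0 := by simpa using hx
    exact sub_eq_zero.1 this
  by_cases hv0 : v = 0
  · apply hx0
    rw [hx', hv0, hG.zero, zero_smul]
  have hg0 : g v ≠ 0 := (gmap_of_level hG).g_ne hvmem hv0
  have hxn : ‖x‖ ≠ 0 := norm_ne_zero_iff.2 hx0
  have hxc : ((‖x‖ : ℝ) : ℂ) ≠ 0 := by exact_mod_cast hxn
  set u : H := ((‖x‖ : ℝ) : ℂ)⁻¹ • x with hu
  have hun : ‖u‖ = 1 := by
    rw [hu, norm_smul, norm_inv, Complex.norm_real, norm_norm]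
    field_simp
  have hAx : A x = (g v)⁻¹ • x := by
    conv_rhs => rw [hx']
    rw [smul_smul, inv_mul_cancel₀ hg0, one_smul]
  have hAu : A u = (g v)⁻¹ • u := by
    rw [hu, map_smul, hAx, smul_comm]
  have huu : ⟪u, u⟫_ℂ = 1 := by
    rw [inner_self_eq_norm_sq_to_K, hun]
    simp
  have hval : ⟪u, A u⟫_ℂ = (g v)⁻¹ := by
    rw [hAu, inner_smul_right, huu, mul_one]
  have hmem := hW u hun
  rw [hval] at hmem
  exact hG.outside v hvmem hv0 hmem

theorem pos_of_level {L : Set ℂ} {ρ : ℝ} {g : ℂ → ℂ} (hG : LevelG L ρ g) (A : H →L[ℂ] H)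
    (hW : ∀ x : H, ‖x‖ = 1 → ⟪x, A x⟫_ℂ ∈ L) {v : ℂ} (hv : v ∈ sphere (0 : ℂ) 1) (a : H) :
    0 ≤ (inner ℂ a (QQ g A v a)).re := by
  have hv1 : ‖v‖ = 1 := by simpa using hv
  have hvc : v ∈ closedBall (0 : ℂ) 1 := sphere_subset_closedBall hv
  have hvmem : v ∈ ball (0 : ℂ) ρ := closedBall_subset_ball hG.one_lt hvc
  have hU := isUnit_of_level hG A hW hvc
  set B : H →L[ℂ] H := 1 - g v • A with hB
  set y : H := Ring.inverse B a with hy
  have hay : a = y - g v • A y := by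
    have h1 : B * Ring.inverse B = 1 := Ring.mul_inverse_cancel _ hU
    have h2 := congrArg (fun T : H →L[ℂ] H => T a) h1
    have h3 : B (Ring.inverse B a) = a := h2
    rw [hy] 
    conv_lhs => rw [← h3]
    rw [hB]
    simp
  have hQ : QQ g A v a = ss g v • y := by
    rfl
  by_cases hy0 : y = 0
  · have ha0 : a = 0 := by
      rw [hay, hy0]
      simp
    rw [ha0]
    simp
  have hyn : ‖y‖ ≠ 0 := norm_ne_zero_iff.2 hy0
  have hyc : ((‖y‖ : ℝ) : ℂ) ≠ 0 := by exact_mod_cast hyn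
  set u : H := ((‖y‖ : ℝ) : ℂ)⁻¹ • y with hu
  have hun : ‖u‖ = 1 := by
    rw [hu, norm_smul, norm_inv, Complex.norm_real, norm_norm]
    field_simp
  set z : ℂ := ⟪u, A u⟫_ℂ with hz
  have hzL : z ∈ L := hW u hun
  have hyA : ⟪y, A y⟫_ℂ = ((‖y‖ ^ 2 : ℝ) : ℂ) * z := by
    have hyu : y = ((‖y‖ : ℝ) : ℂ) • u := by
      rw [hu, smul_smul, mul_inv_cancel₀ hyc, one_smul]
    have : ⟪y, A y⟫_ℂ = conj ((‖y‖ : ℝ) : ℂ) * (((‖y‖ : ℝ) : ℂ) * z) := by
      conv_lhs => rw [hyu]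
      rw [map_smul, inner_smul_left, inner_smul_right]
    rw [this, Complex.conj_ofReal]
    push_cast
    ring
  set D : ℂ := 1 - z * g v with hD
  have hDne : D ≠ 0 := by
    intro h
    have hv0 : v ≠ 0 := by
      intro h0
      rw [h0] at hv1
      simp at hv1
    have hg0 : g v ≠ 0 := (gmap_of_level hG).g_ne hvmem hv0
    have h1 : z * g v = 1 := (sub_eq_zero.1 h).symm
    have h2 : (g v)⁻¹ = z := by
      field_simp
      rw [mul_comm]
      exact h1.symm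
    exact hG.outside v hvmem hv0 (h2 ▸ hzL)
  have hinner : inner ℂ a (QQ g A v a) = ss g v * (((‖y‖ ^ 2 : ℝ) : ℂ) * conj D) := by
    rw [hQ, inner_smul_right]
    congr 1
    have h1 : ⟪a, y⟫_ℂ = conj ⟪y, a⟫_ℂ := (inner_conj_symm _ _).symm
    rw [h1]
    have h2 : ⟪y, a⟫_ℂ = ((‖y‖ ^ 2 : ℝ) : ℂ) * D := by
      rw [hay, inner_sub_right, inner_smul_right, hyA, inner_self_eq_norm_sq_to_K, hD]
      push_cast
      simp only [Complex.coe_algebraMap]
      ring
    rw [h2, map_mul, Complex.conj_ofReal]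
  have hstar := hG.star z hzL v hv1
  have heq : ss g v * (((‖y‖ ^ 2 : ℝ) : ℂ) * conj D) =
      (logD g v / (1 - z * g v)) * ((‖y‖ ^ 2 * Complex.normSq D : ℝ) : ℂ) := by
    have h1 : (Complex.normSq D : ℂ) = D * conj D := (Complex.mul_conj D).symm
    have h2 : logD g v = ss g v := rfl
    push_cast
    rw [h1, h2, ← hD]
    field_simp
  rw [hinner, heq, Complex.re_mul_ofReal]
  exact mul_nonneg hstar (mul_nonneg (by positivity) (Complex.normSq_nonneg _))

end

theorem ker_of_level {L : Set ℂ} {ρ : ℝ} {g : ℂ → ℂ} (hG : LevelG L ρ g) {v η : ℂ}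
    (hv : v ∈ sphere (0 : ℂ) 1) (hη : η ∈ sphere (0 : ℂ) 1) (hne : v ≠ η) :
    0 ≤ (ss g η + η * deriv g η / (g v - g η)).re := by
  have hv1 : ‖v‖ = 1 := by simpa using hv
  have hη1 : ‖η‖ = 1 := by simpa using hη
  have hG' := gmap_of_level hG
  have hk := hG.kernel η v hη1 hv1 hne.symm
  have hηmem := hG'.mem_of_sphere hη
  have hvmem := hG'.mem_of_sphere hv
  have hη0 : η ≠ 0 := hG'.ne_zero_of_sphere hη
  have hgη : g η ≠ 0 := hG'.g_ne hηmem hη0
  have hdiff : g v - g η ≠ 0 := by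
    intro h
    exact hne (hG.inj hvmem hηmem (sub_eq_zero.1 h))
  have heq : ss g η + η * deriv g η / (g v - g η) = logD g η * g v / (g v - g η) := by
    have h1 : logD g η = ss g η := rfl
    rw [h1, hG'.ss_eq hηmem hη0]
    field_simp
    ring
  rw [heq]
  exact hk

/-- The main inequality on the level curves. -/
theorem mainG : MainG.{u} := by
  intro H _ _ _ _ _ A L ρ g hG hW p M hM
  have hG' := gmap_of_level hG
  obtain ⟨x, y, hx, hy, h1, h2⟩ := Vale.Agent.Lib.P123C.ReduceFinal.exists_singular_pair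
    (Polynomial.aeval A p)
  refine main_core hG' A (fun v hv => isUnit_of_level hG A hW hv)
    (fun v hv a => pos_of_level hG A hW hv a) (fun v hv η hη hne => ker_of_level hG hv hη hne)
    p (Mf := M) (K := ‖Polynomial.aeval A p‖) ?_ (norm_nonneg _) hx hy h1 h2
  intro v hv
  have hv1 : ‖v‖ = 1 := by simpa using hv
  exact hM v hv1

/-- The curve statement. -/
theorem curveThm : Vale.Agent.Lib.P123C.ReduceFinal.CurveThm.{u} := curveThm_of_main mainG

/-- **Crouzeix's conjecture.** -/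
theorem crouzeix :
    IsLeast {C : ℝ | Vale.Agent.Lib.P123C.Wrap.Admissible.{u} C} 2 ∧
      Vale.Agent.Lib.P123C.Wrap.BoundForm.{u} :=
  Vale.Agent.Lib.P123C.Wrap.final_of_curve curveThm

end Vale.Agent.Lib.P123.Rmt
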