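import Vale.Agent.Lib.P123.Rmt.Main
import Vale.Agent.Lib.P123.Rmt.ExtExists
import Vale.Agent.Lib.P123C.ReduceFinal

/-!
# The Crouzeix inequality with constant two
-/

open Complex Metric Set Filter Topology ComplexConjugate
open scoped Real InnerProductSpace

namespace Vale.Agent.Lib.P123.Rmt.FinalB

set_option linter.unusedSectionVars false
set_option linter.unusedVariables false

section Level

variable {L : Set ℂ} (E : ExtMap L)

/-- The disc coordinate of the exterior map, at the level `r`. -/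
noncomputable def gOf (r : ℝ) (v : ℂ) : ℂ := if v = 0 then 0 else (E.psi ((r : ℂ) / v))⁻¹

lemma gOf_zero (r : ℝ) : gOf E r 0 = 0 := by simp [gOf]

lemma gOf_ne {r : ℝ} {v : ℂ} (hv : v ≠ 0) : gOf E r v = (E.psi ((r : ℂ) / v))⁻¹ := by
  simp [gOf, hv]

lemma norm_div_of {r : ℝ} (hr : 0 < r) (v : ℂ) : ‖(r : ℂ) / v‖ = r / ‖v‖ := by
  rw [norm_div, Complex.norm_real, Real.norm_of_nonneg hr.le]

lemma one_lt_norm_div {r : ℝ} (hr : 0 < r) {v : ℂ} (hv0 : v ≠ 0) (hv : ‖v‖ < r) :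
    1 < ‖(r : ℂ) / v‖ := by
  rw [norm_div_of hr, one_lt_div (norm_pos_iff.2 hv0)]
  exact hv

variable (h0L : (0 : ℂ) ∈ L)
include h0L

lemma psi_ne_zero {w : ℂ} (hw : 1 < ‖w‖) : E.psi w ≠ 0 := fun h =>
  E.maps_psi w hw (h ▸ h0L)

lemma gOf_hasDerivAt {r : ℝ} (hr : 1 < r) {v : ℂ} (hv0 : v ≠ 0) (hv : ‖v‖ < r) :
    HasDerivAt (gOf E r) (deriv E.psi ((r : ℂ) / v) * ((r : ℂ) / v ^ 2) /
      (E.psi ((r : ℂ) / v)) ^ 2) v := by
  have hr0 : 0 < r := by linarith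
  set u := (r : ℂ) / v with hu
  have hu1 : 1 < ‖u‖ := one_lt_norm_div hr0 hv0 hv
  have hopen : IsOpen {w : ℂ | 1 < ‖w‖} := isOpen_lt continuous_const continuous_norm
  have h1 : HasDerivAt (fun v : ℂ => (r : ℂ) / v) (-(r : ℂ) / v ^ 2) v := by
    have h10 := (hasDerivAt_inv hv0).const_mul (r : ℂ)
    have e : (fun v : ℂ => (r : ℂ) / v) = fun v : ℂ => (r : ℂ) * v⁻¹ := by
      funext w
      rw [div_eq_mul_inv]
    rw [e]
    refine h10.congr_deriv ?_
    field_simp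
  have h2 : HasDerivAt E.psi (deriv E.psi u) u :=
    (E.diff_psi.differentiableAt (hopen.mem_nhds hu1)).hasDerivAt
  have h3 : HasDerivAt (fun v : ℂ => E.psi ((r : ℂ) / v)) (deriv E.psi u * (-(r : ℂ) / v ^ 2)) v :=
    HasDerivAt.comp (h₂ := E.psi) v h2 h1
  have h4 := h3.inv (psi_ne_zero E h0L hu1)
  have h5 : gOf E r =ᶠ[𝓝 v] fun v : ℂ => (E.psi ((r : ℂ) / v))⁻¹ := by
    filter_upwards [isOpen_ne.mem_nhds hv0] with w hw
    exact gOf_ne E hw
  refine (h4.congr_of_eventuallyEq h5).congr_deriv ?_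
  rw [← hu]
  ring

lemma gOf_continuousAt_zero {r : ℝ} (hr : 1 < r) : ContinuousAt (gOf E r) 0 := by
  have hr0 : 0 < r := by linarith
  obtain ⟨C, hC⟩ := E.bound_Phi
  have hcpos : 0 < ‖E.c‖ := norm_pos_iff.2 E.hc
  rw [Metric.continuousAt_iff]
  intro ε hε
  have hA : 0 < |C| + 2 + 1 / (‖E.c‖ * ε) := by positivity
  refine ⟨r / (|C| + 2 + 1 / (‖E.c‖ * ε)), by positivity, ?_⟩
  intro v hv
  rw [dist_zero_right] at hv
  rw [gOf_zero, dist_zero_right]
  by_cases hv0 : v = 0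
  · rw [hv0, gOf_zero, norm_zero]
    exact hε
  have hvpos : 0 < ‖v‖ := norm_pos_iff.2 hv0
  have h1 : |C| + 2 + 1 / (‖E.c‖ * ε) < r / ‖v‖ := by
    rw [lt_div_iff₀ hvpos]
    rw [lt_div_iff₀ hA] at hv
    linarith
  have h2 : (0 : ℝ) ≤ 1 / (‖E.c‖ * ε) := by positivity
  have h3 : 0 ≤ |C| := abs_nonneg C
  set u := (r : ℂ) / v with hu
  have hun : ‖u‖ = r / ‖v‖ := norm_div_of hr0 v
  have hu1 : 1 < ‖u‖ := by rw [hun]; linarith
  have h4 := hC (E.psi u) (E.maps_psi u hu1)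
  rw [E.left_inv u hu1] at h4
  have h5 : 1 / (‖E.c‖ * ε) < ‖E.psi u‖ / ‖E.c‖ := by
    have := le_abs_self C
    linarith
  have h6 : 0 < ‖E.psi u‖ := norm_pos_iff.2 (psi_ne_zero E h0L hu1)
  have h7 : 1 / ε < ‖E.psi u‖ := by
    rw [lt_div_iff₀ hcpos] at h5
    have h8 : 1 / (‖E.c‖ * ε) * ‖E.c‖ = 1 / ε := by
      field_simp
    linarith
  rw [gOf_ne E hv0, norm_inv]
  rw [div_lt_iff₀ hε] at h7
  rw [inv_lt_iff_one_lt_mul₀ h6]
  linarith

lemma gOf_diffOn {r : ℝ} (hr : 1 < r) : DifferentiableOn ℂ (gOf E r) (ball 0 r) := by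
  have hr0 : 0 < r := by linarith
  refine (Complex.differentiableOn_compl_singleton_and_continuousAt_iff
    (ball_mem_nhds _ hr0)).1 ⟨?_, gOf_continuousAt_zero E h0L hr⟩
  intro v hv
  have hv0 : v ≠ 0 := fun h => hv.2 (by simp [h])
  have hvr : ‖v‖ < r := by simpa using hv.1
  exact (gOf_hasDerivAt E h0L hr hv0 hvr).differentiableAt.differentiableWithinAt

lemma gOf_inj {r : ℝ} (hr : 1 < r) : InjOn (gOf E r) (ball 0 r) := by
  have hr0 : 0 < r := by linarith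
  have hne : ∀ v ∈ ball (0 : ℂ) r, v ≠ 0 → gOf E r v ≠ 0 := by
    intro v hv hv0
    rw [gOf_ne E hv0]
    exact inv_ne_zero (psi_ne_zero E h0L (one_lt_norm_div hr0 hv0 (by simpa using hv)))
  intro v hv w hw hvw
  by_cases hv0 : v = 0
  · by_contra hne'
    have hw0 : w ≠ 0 := fun h => hne' (by rw [hv0, h])
    rw [hv0, gOf_zero] at hvw
    exact hne w hw hw0 hvw.symm
  by_cases hw0 : w = 0
  · rw [hw0, gOf_zero] at hvw
    exact absurd hvw (hne v hv hv0)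
  rw [gOf_ne E hv0, gOf_ne E hw0] at hvw
  have h1 := inv_inj.1 hvw
  have hv1 := one_lt_norm_div hr0 hv0 (by simpa using hv)
  have hw1 := one_lt_norm_div hr0 hw0 (by simpa using hw)
  have h2 : (r : ℂ) / v = (r : ℂ) / w := by
    rw [← E.left_inv _ hv1, ← E.left_inv _ hw1, h1]
  have hrc : (r : ℂ) ≠ 0 := by exact_mod_cast hr0.ne'
  field_simp at h2
  exact h2.symm

lemma gOf_der_zero {r : ℝ} (hr : 1 < r) : deriv (gOf E r) 0 ≠ 0 := by
  have hr0 : 0 < r := by linarith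
  obtain ⟨C, hC⟩ := E.bound_psi
  have hcpos : 0 < ‖E.c‖ := norm_pos_iff.2 E.hc
  have hd : HasDerivAt (gOf E r) (deriv (gOf E r) 0) 0 :=
    ((gOf_diffOn E h0L hr).differentiableAt (ball_mem_nhds _ hr0)).hasDerivAt
  rw [hasDerivAt_iff_tendsto_slope_zero] at hd
  set a := 1 / (‖E.c‖ * r + |C|) with ha
  have hdenpos : 0 < ‖E.c‖ * r + |C| := by positivity
  have hapos : 0 < a := by positivity
  have hn := hd.norm
  have hle : a ≤ ‖deriv (gOf E r) 0‖ := by
    refine ge_of_tendsto hn ?_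
    have hb : ball (0 : ℂ) 1 ∈ 𝓝 (0 : ℂ) := ball_mem_nhds _ one_pos
    filter_upwards [nhdsWithin_le_nhds hb, self_mem_nhdsWithin] with t ht ht0
    have ht0' : t ≠ 0 := ht0
    have htn : ‖t‖ < 1 := by simpa using ht
    have htpos : 0 < ‖t‖ := norm_pos_iff.2 ht0'
    have htr : ‖t‖ < r := by linarith
    rw [zero_add, gOf_zero, sub_zero, norm_smul, norm_inv, gOf_ne E ht0', norm_inv]
    set u := (r : ℂ) / t with hu
    have hun : ‖u‖ = r / ‖t‖ := norm_div_of hr0 t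
    have hu1 : 1 < ‖u‖ := one_lt_norm_div hr0 ht0' htr
    have h1 := hC u hu1
    have h6 : 0 < ‖E.psi u‖ := norm_pos_iff.2 (psi_ne_zero E h0L hu1)
    -- `‖ψ‖ ‖t‖ ≤ ‖c‖ r + |C|`
    have h2 : ‖E.psi u‖ * ‖t‖ ≤ ‖E.c‖ * r + |C| := by
      have h3 : ‖E.psi u‖ * ‖t‖ ≤ (‖E.c‖ * ‖u‖ + C) * ‖t‖ :=
        mul_le_mul_of_nonneg_right h1 htpos.le
      have h4 : (‖E.c‖ * ‖u‖ + C) * ‖t‖ = ‖E.c‖ * r + C * ‖t‖ := by
        rw [hun]
        field_simp
      have h5 : C * ‖t‖ ≤ |C| := by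
        have h7 : C * ‖t‖ ≤ |C| * ‖t‖ := mul_le_mul_of_nonneg_right (le_abs_self C) htpos.le
        have h8 : |C| * ‖t‖ ≤ |C| * 1 := mul_le_mul_of_nonneg_left htn.le (abs_nonneg C)
        linarith
      linarith
    rw [ha, ← mul_inv, ← one_div]
    exact one_div_le_one_div_of_le (by positivity) (by linarith)
  intro h
  rw [h, norm_zero] at hle
  linarith

lemma gOf_der (hLc : IsClosed L) {r : ℝ} (hr : 1 < r) {v : ℂ} (hv : v ∈ ball (0 : ℂ) r) :
    deriv (gOf E r) v ≠ 0 := by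
  have hr0 : 0 < r := by linarith
  by_cases hv0 : v = 0
  · rw [hv0]
    exact gOf_der_zero E h0L hr
  have hvr : ‖v‖ < r := by simpa using hv
  rw [(gOf_hasDerivAt E h0L hr hv0 hvr).deriv]
  have hu1 := one_lt_norm_div hr0 hv0 hvr
  have h1 := ExtMap.deriv_Phi_psi E hLc hu1
  have h2 : deriv E.psi ((r : ℂ) / v) ≠ 0 := by
    intro h
    rw [h, mul_zero] at h1
    exact zero_ne_one h1
  have hrc : (r : ℂ) ≠ 0 := by exact_mod_cast hr0.ne'
  have h3 := psi_ne_zero E h0L hu1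
  exact div_ne_zero (mul_ne_zero h2 (div_ne_zero hrc (pow_ne_zero _ hv0))) (pow_ne_zero _ h3)

/-- The disc coordinate of the exterior map is a conformal map of a larger disc. -/
lemma gOf_gmap (hLc : IsClosed L) {r : ℝ} (hr : 1 < r) : GMap (gOf E r) r where
  hR := hr
  diff := gOf_diffOn E h0L hr
  zero := gOf_zero E r
  inj := gOf_inj E h0L hr
  der := fun _ hv => gOf_der E h0L hLc hr hv

/-- The logarithmic derivative in terms of the exterior map. -/
lemma gOf_ss {r : ℝ} (hr : 1 < r) {v : ℂ} (hv0 : v ≠ 0) (hvr : ‖v‖ < r) (hLc : IsClosed L) :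
    ss (gOf E r) v = ((r : ℂ) / v) * deriv E.psi ((r : ℂ) / v) / E.psi ((r : ℂ) / v) := by
  have hr0 : 0 < r := by linarith
  have G := gOf_gmap E h0L hLc hr
  have hvb : v ∈ ball (0 : ℂ) r := by simpa using hvr
  rw [G.ss_eq hvb hv0, (gOf_hasDerivAt E h0L hr hv0 hvr).deriv, gOf_ne E hv0]
  have hu1 := one_lt_norm_div hr0 hv0 hvr
  have h3 := psi_ne_zero E h0L hu1
  field_simp

lemma gOf_psi {r : ℝ} {v : ℂ} (hv0 : v ≠ 0) : psi (gOf E r) v = E.psi ((r : ℂ) / v) := by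
  unfold psi
  rw [gOf_ne E hv0, inv_inv]

/-- The kernel in terms of the exterior map. -/
lemma gOf_ker {r : ℝ} (hr : 1 < r) {v η : ℂ} (hv0 : v ≠ 0) (hη0 : η ≠ 0) (hvr : ‖v‖ < r)
    (hηr : ‖η‖ < r) (hne : v ≠ η) (hLc : IsClosed L) :
    ss (gOf E r) η + η * deriv (gOf E r) η / (gOf E r v - gOf E r η) =
      ((r : ℂ) / η) * deriv E.psi ((r : ℂ) / η) / (E.psi ((r : ℂ) / η) - E.psi ((r : ℂ) / v)) := by
  have hr0 : 0 < r := by linarith
  have G := gOf_gmap E h0L hLc hr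
  have hvb : v ∈ ball (0 : ℂ) r := by simpa using hvr
  have hηb : η ∈ ball (0 : ℂ) r := by simpa using hηr
  have hu1 := one_lt_norm_div hr0 hη0 hηr
  have hu2 := one_lt_norm_div hr0 hv0 hvr
  have h3 := psi_ne_zero E h0L hu1
  have h4 := psi_ne_zero E h0L hu2
  have hgne : gOf E r v - gOf E r η ≠ 0 := fun h => hne (G.inj hvb hηb (sub_eq_zero.1 h))
  have hpsine : E.psi ((r : ℂ) / η) - E.psi ((r : ℂ) / v) ≠ 0 := by
    intro h
    apply hgne
    rw [gOf_ne E hv0, gOf_ne E hη0, ← sub_eq_zero.1 h, sub_self]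
  rw [gOf_ss E h0L hr hη0 hηr hLc, (gOf_hasDerivAt E h0L hr hη0 hηr).deriv]
  rw [gOf_ne E hv0, gOf_ne E hη0] at hgne ⊢
  set P := E.psi ((r : ℂ) / η) with hP
  set Q := E.psi ((r : ℂ) / v) with hQ
  set D := deriv E.psi ((r : ℂ) / η) with hD
  have hgne' : Q⁻¹ - P⁻¹ = (P - Q) / (P * Q) := by
    field_simp
  rw [hgne']
  field_simp
  ring

end Level

section Core

variable {H : Type*} [NormedAddCommGroup H] [InnerProductSpace ℂ H] [CompleteSpace H]

lemma unit_normalize {b : H} (hb : b ≠ 0) : ‖((‖b‖ : ℝ) : ℂ)⁻¹ • b‖ = 1 := by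
  have hn : ‖b‖ ≠ 0 := norm_ne_zero_iff.2 hb
  rw [norm_smul, norm_inv, Complex.norm_real, norm_norm]
  field_simp

lemma isUnit_sub [FiniteDimensional ℂ H] {L : Set ℂ} {A : H →L[ℂ] H}
    (hW : ∀ x : H, ‖x‖ = 1 → ⟪x, A x⟫_ℂ ∈ L) {z : ℂ} (hz : z ∉ L) :
    IsUnit (z • (1 : H →L[ℂ] H) - A) := by
  rw [ContinuousLinearMap.isUnit_iff_bijective]
  have hinj : Function.Injective (z • (1 : H →L[ℂ] H) - A) := by
    rw [injective_iff_map_eq_zero]
    intro b hb
    by_contra hb0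
    have hn : ‖b‖ ≠ 0 := norm_ne_zero_iff.2 hb0
    have hnc : ((‖b‖ : ℝ) : ℂ) ≠ 0 := by exact_mod_cast hn
    have hx := unit_normalize hb0
    set x := ((‖b‖ : ℝ) : ℂ)⁻¹ • b with hxdef
    have hb1 : z • b = A b := by
      have : z • b - A b = 0 := by simpa using hb
      exact sub_eq_zero.1 this
    have h1 : A x = z • x := by
      rw [hxdef, map_smul, ← hb1, smul_comm]
    apply hz
    have h2 := hW x hx
    rw [h1, inner_smul_right, inner_self_eq_norm_sq_to_K, hx] at h2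
    simpa using h2
  refine ⟨hinj, ?_⟩
  exact (LinearMap.injective_iff_surjective
    (f := ((z • (1 : H →L[ℂ] H) - A) : H →L[ℂ] H).toLinearMap)).1 hinj

variable {L : Set ℂ} (E : ExtMap L)

lemma gOf_unit [FiniteDimensional ℂ H] {A : H →L[ℂ] H} (h0L : (0 : ℂ) ∈ L)
    (hW : ∀ x : H, ‖x‖ = 1 → ⟪x, A x⟫_ℂ ∈ L) {r : ℝ} (hr : 1 < r) :
    ∀ v ∈ closedBall (0 : ℂ) 1, IsUnit (1 - gOf E r v • A) := by
  intro v hv
  by_cases hv0 : v = 0
  · rw [hv0, gOf_zero]
    simp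
  have hr0 : 0 < r := by linarith
  have hvr : ‖v‖ < r := by
    have : ‖v‖ ≤ 1 := by simpa using hv
    linarith
  have hu1 := one_lt_norm_div hr0 hv0 hvr
  have hzne := psi_ne_zero E h0L hu1
  rw [gOf_ne E hv0]
  set z := E.psi ((r : ℂ) / v) with hz
  have e : (1 : H →L[ℂ] H) - z⁻¹ • A = z⁻¹ • (z • (1 : H →L[ℂ] H) - A) := by
    rw [smul_sub, smul_smul, inv_mul_cancel₀ hzne, one_smul]
  rw [e]
  have h1 := isUnit_sub hW (E.maps_psi _ hu1)
  exact (h1.smul (Units.mk0 z⁻¹ (inv_ne_zero hzne)) : _)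

/-- Positivity of the resolvent kernel. -/
lemma gOf_pos [FiniteDimensional ℂ H] {A : H →L[ℂ] H} (hLk : IsCompact L) (hLv : Convex ℝ L)
    (h0L : (0 : ℂ) ∈ L) (hW : ∀ x : H, ‖x‖ = 1 → ⟪x, A x⟫_ℂ ∈ L) {r : ℝ} (hr : 1 < r)
    {v : ℂ} (hv : v ∈ sphere (0 : ℂ) 1) (a : H) :
    0 ≤ (⟪a, QQ (gOf E r) A v a⟫_ℂ).re := by
  have hr0 : 0 < r := by linarith
  have hv1 : ‖v‖ = 1 := by simpa using hv
  have hv0 : v ≠ 0 := by
    intro h
    rw [h] at hv1
    simp at hv1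
  have hvr : ‖v‖ < r := by rw [hv1]; exact hr
  have hu1 := one_lt_norm_div hr0 hv0 hvr
  have hLn : L.Nonempty := ⟨0, h0L⟩
  have hunit := gOf_unit E h0L hW hr v (sphere_subset_closedBall hv)
  have hss := gOf_ss E h0L hr hv0 hvr hLk.isClosed
  have hzne := psi_ne_zero E h0L hu1
  unfold QQ
  rw [hss]
  have hgv := gOf_ne E (r := r) hv0
  rw [hgv] at hunit ⊢
  set u := (r : ℂ) / v with hu
  set z := E.psi u with hz
  set D := deriv E.psi u with hD
  set R := Ring.inverse ((1 : H →L[ℂ] H) - z⁻¹ • A) with hR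
  have hmul : ((1 : H →L[ℂ] H) - z⁻¹ • A) * R = 1 := Ring.mul_inverse_cancel _ hunit
  set b := R a with hb
  have ha : a = b - z⁻¹ • A b := by
    have := congrArg (fun S : H →L[ℂ] H => S a) hmul
    simpa using this.symm
  have hval : (⟪a, ((u * D / z) • R) a⟫_ℂ) = (u * D / z) * ⟪a, b⟫_ℂ := by
    simp [hb]
  rw [hval]
  by_cases hb0 : b = 0
  · have ha0 : a = 0 := by rw [ha, hb0]; simp
    rw [ha0]
    simp
  have hn : ‖b‖ ≠ 0 := norm_ne_zero_iff.2 hb0
  have hnc : ((‖b‖ : ℝ) : ℂ) ≠ 0 := by exact_mod_cast hn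
  have hx := unit_normalize hb0
  set x := ((‖b‖ : ℝ) : ℂ)⁻¹ • b with hxdef
  set w : ℂ := ⟪x, A x⟫_ℂ with hw
  have hwL : w ∈ L := hW x hx
  have hbb : (⟪b, A b⟫_ℂ) = ((‖b‖ : ℝ) : ℂ) ^ 2 * w := by
    rw [hw, hxdef, map_smul, inner_smul_left, inner_smul_right, map_inv₀, Complex.conj_ofReal]
    field_simp
  have hab : (⟪a, b⟫_ℂ) = ((‖b‖ : ℝ) : ℂ) ^ 2 * (1 - conj z⁻¹ * conj w) := by
    conv_lhs => rw [ha]
    rw [inner_sub_left, inner_smul_left, ← inner_conj_symm (A b) b, hbb,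
      inner_self_eq_norm_sq_to_K]
    simp only [map_mul, map_pow, Complex.conj_ofReal]
    have : ((‖b‖ : ℝ) : ℂ) = (‖b‖ : ℂ) := rfl
    simp only [Complex.coe_algebraMap]
    ring
  have hzw : z - w ≠ 0 := by
    intro h
    have h5 : z ∈ L := by
      rw [sub_eq_zero.1 h]
      exact hwL
    exact E.maps_psi u hu1 h5
  have hstar := ExtMap.star_nonneg E hLk hLv hLn hu1 hwL
  rw [← hz, ← hD] at hstar
  set X := u * D / (z - w) with hX
  have hzc : conj z ≠ 0 := (map_ne_zero _).2 hzne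
  have hzwc : conj z - conj w ≠ 0 := by
    rw [← map_sub]
    exact (map_ne_zero _).2 hzw
  have e1 : (u * D / z) * ((((‖b‖ : ℝ) : ℂ)) ^ 2 * (1 - conj z⁻¹ * conj w)) =
      ((‖b‖ ^ 2 * ‖z - w‖ ^ 2 / ‖z‖ ^ 2 : ℝ) : ℂ) * X := by
    have h1 : ((‖z - w‖ ^ 2 : ℝ) : ℂ) = (z - w) * (conj z - conj w) := by
      rw [← map_sub, Complex.mul_conj']
      push_cast
      rfl
    have h2 : ((‖z‖ ^ 2 : ℝ) : ℂ) = z * conj z := by
      rw [Complex.mul_conj']
      push_cast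
      rfl
    rw [hX, map_inv₀]
    push_cast at h1 h2 ⊢
    rw [h1, h2]
    field_simp
  rw [hab, e1, Complex.re_ofReal_mul]
  exact mul_nonneg (by positivity) hstar

/-- A polynomial is nearly bounded near a compact set. -/
lemma poly_near (hLk : IsCompact L) (hLn : L.Nonempty) (p : Polynomial ℂ) {M : ℝ}
    (hp : ∀ z ∈ L, ‖p.eval z‖ ≤ M) {ε : ℝ} (hε : 0 < ε) :
    ∃ η : ℝ, 0 < η ∧ ∀ z, infDist z L < η → ‖p.eval z‖ ≤ M + ε := by
  have hK : IsCompact (cthickening 1 L) := hLk.cthickening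
  have huc := hK.uniformContinuousOn_of_continuous (p.continuous.continuousOn)
  rw [Metric.uniformContinuousOn_iff] at huc
  obtain ⟨δ, hδ, hu⟩ := huc ε hε
  refine ⟨min 1 δ, lt_min one_pos hδ, fun z hz => ?_⟩
  obtain ⟨y, hy, hd⟩ := hLk.exists_infDist_eq_dist hLn z
  have h1 : dist z y < min 1 δ := hd ▸ hz
  have hzK : z ∈ cthickening 1 L := by
    refine Metric.mem_cthickening_of_dist_le z y 1 L hy ?_
    exact (h1.trans_le (min_le_left _ _)).le
  have hyK : y ∈ cthickening 1 L := self_subset_cthickening L hy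
  have h2 := hu z hzK y hyK (h1.trans_le (min_le_right _ _))
  rw [dist_eq_norm] at h2
  have h3 : ‖p.eval z‖ ≤ ‖p.eval z - p.eval y‖ + ‖p.eval y‖ := by
    have e : p.eval z = (p.eval z - p.eval y) + p.eval y := by ring
    conv_lhs => rw [e]
    exact norm_add_le _ _
  linarith [hp y hy]

/-- **The inequality on a compact convex set with the origin in its interior.** -/
theorem core_of_set [FiniteDimensional ℂ H] [Nontrivial H] (hLk : IsCompact L) (hLv : Convex ℝ L)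
    {r₀ : ℝ} (hr₀ : 0 < r₀) (hball : ball (0 : ℂ) r₀ ⊆ L) (A : H →L[ℂ] H)
    (hW : ∀ x : H, ‖x‖ = 1 → ⟪x, A x⟫_ℂ ∈ L) (p : Polynomial ℂ) {M : ℝ}
    (hp : ∀ z ∈ L, ‖p.eval z‖ ≤ M) : ‖Polynomial.aeval A p‖ ≤ 2 * M := by
  obtain ⟨E⟩ := exists_extMap hLk hLv hr₀ hball
  have h0L : (0 : ℂ) ∈ L := hball (mem_ball_self hr₀)
  have hLn : L.Nonempty := ⟨0, h0L⟩
  obtain ⟨x, y, hx, hy, h1, h2⟩ :=
    Vale.Agent.Lib.P123C.ReduceFinal.exists_singular_pair (Polynomial.aeval A p)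
  refine le_of_forall_pos_le_add fun ε hε => ?_
  have hε2 : 0 < ε / 2 := by positivity
  obtain ⟨η, hη, hnear⟩ := poly_near hLk hLn p hp hε2
  obtain ⟨δ, hδ, hprox⟩ := E.proper_psi η hη
  set r : ℝ := 1 + δ / 2 with hrdef
  have hr : 1 < r := by rw [hrdef]; linarith
  have hr0 : 0 < r := by linarith
  have G := gOf_gmap E h0L hLk.isClosed hr
  have hU := gOf_unit E h0L hW hr
  have hpos : ∀ v ∈ sphere (0 : ℂ) 1, ∀ a : H, 0 ≤ (⟪a, QQ (gOf E r) A v a⟫_ℂ).re :=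
    fun v hv a => gOf_pos E hLk hLv h0L hW hr hv a
  have hker : ∀ v ∈ sphere (0 : ℂ) 1, ∀ η ∈ sphere (0 : ℂ) 1, v ≠ η →
      0 ≤ (ss (gOf E r) η + η * deriv (gOf E r) η / (gOf E r v - gOf E r η)).re := by
    intro v hv η' hη' hne
    have hv1 : ‖v‖ = 1 := by simpa using hv
    have hη1 : ‖η'‖ = 1 := by simpa using hη'
    have hv0 : v ≠ 0 := ne_zero_sphere hv
    have hη0 : η' ≠ 0 := ne_zero_sphere hη'
    have hvr : ‖v‖ < r := by rw [hv1]; exact hr
    have hηr : ‖η'‖ < r := by rw [hη1]; exact hr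
    rw [gOf_ker E h0L hr hv0 hη0 hvr hηr hne hLk.isClosed]
    have hu1 := one_lt_norm_div hr0 hη0 hηr
    have hnorm : ‖(r : ℂ) / v‖ = ‖(r : ℂ) / η'‖ := by
      rw [norm_div_of hr0, norm_div_of hr0, hv1, hη1]
    have hne' : (r : ℂ) / η' ≠ (r : ℂ) / v := by
      intro h
      have hrc : (r : ℂ) ≠ 0 := by exact_mod_cast hr0.ne'
      field_simp at h
      exact hne h
    exact ExtMap.kernel_nonneg E hLk hLv hLn hu1 hnorm hne'
  have hMf : ∀ v ∈ sphere (0 : ℂ) 1, ‖p.eval (psi (gOf E r) v)‖ ≤ M + ε / 2 := by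
    intro v hv
    have hv1 : ‖v‖ = 1 := by simpa using hv
    have hv0 : v ≠ 0 := ne_zero_sphere hv
    rw [gOf_psi E h0L hv0]
    have hun : ‖(r : ℂ) / v‖ = r := by
      rw [norm_div_of hr0, hv1, div_one]
    refine hnear _ (hprox _ (by rw [hun]; exact hr) (by rw [hun, hrdef]; linarith))
  have hmain := main_core G A hU hpos hker p hMf (norm_nonneg _) hx hy h1 h2
  linarith

end Core

section Curve

open Vale.Agent.Lib.P123C.ReduceFinal

universe u

/-- The curve statement. -/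
theorem curveThm : CurveThm.{u} := by
  intro H _ _ _ _ _ A s hs hspos hmargin p M hp
  obtain ⟨c, hc, hmar⟩ := hmargin
  set L : Set ℂ := {z | ∀ t, dot t z ≤ s t} with hL
  have hsc : Continuous s := hs.smooth.continuous
  have h2π : (0 : ℝ) < 2 * π := by positivity
  have hrange : IsCompact (range s) := hs.per.compact_of_continuous h2π.ne' hsc
  have hne : (range s).Nonempty := range_nonempty s
  obtain ⟨t₀, ⟨τ₀, hτ₀⟩, hlow⟩ := hrange.exists_isLeast hne
  have hlow' : ∀ t, s τ₀ ≤ s t := fun t => by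
    rw [hτ₀]
    exact hlow ⟨t, rfl⟩
  obtain ⟨B, hB⟩ := hrange.isBounded.exists_norm_le
  have hdotc : ∀ t, Continuous fun z : ℂ => dot t z := by
    intro t
    unfold dot
    fun_prop
  have hclosed : IsClosed L := by
    have : L = ⋂ t, {z | dot t z ≤ s t} := by
      ext z
      simp [hL]
    rw [this]
    exact isClosed_iInter fun t => isClosed_le (hdotc t) continuous_const
  have hdot_le : ∀ (t : ℝ) (z : ℂ), dot t z ≤ ‖z‖ := by
    intro t z
    have := Vale.Agent.Lib.P123.re_rot z t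
    exact (le_abs_self _).trans this
  have hbounded : ∀ z ∈ L, ‖z‖ ≤ B := by
    intro z hz
    have h1 := hz (Complex.arg z)
    have h2 : dot (Complex.arg z) z = ‖z‖ := by
      unfold dot
      by_cases h0 : z = 0
      · simp [h0]
      have hn : 0 < ‖z‖ := norm_pos_iff.2 h0
      rw [Complex.cos_arg h0, Complex.sin_arg]
      have h3 := Complex.sq_norm z
      rw [Complex.normSq_apply] at h3
      field_simp
      nlinarith
    have h3 := hB _ ⟨Complex.arg z, rfl⟩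
    have h4 := le_abs_self (s (Complex.arg z))
    rw [Real.norm_eq_abs] at h3
    linarith
  have hcompact : IsCompact L := by
    refine Metric.isCompact_of_isClosed_isBounded hclosed ?_
    rw [isBounded_iff_forall_norm_le]
    exact ⟨B, hbounded⟩
  have hconvex : Convex ℝ L := by
    intro x hx y hy a b ha hb hab t
    have e : dot t (a • x + b • y) = a * dot t x + b * dot t y := by
      simp only [dot, Complex.add_re, Complex.add_im, Complex.real_smul, Complex.mul_re,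
        Complex.mul_im, Complex.ofReal_re, Complex.ofReal_im, zero_mul, sub_zero, add_zero]
      ring
    rw [e]
    have h1 := mul_le_mul_of_nonneg_left (hx t) ha
    have h2 := mul_le_mul_of_nonneg_left (hy t) hb
    have h3 : a * s t + b * s t = s t := by
      rw [← add_mul, hab, one_mul]
    linarith
  have hball : ball (0 : ℂ) (s τ₀) ⊆ L := by
    intro z hz t
    have h1 : ‖z‖ < s τ₀ := by simpa using hz
    linarith [hdot_le t z, hlow' t]
  have hW : ∀ x : H, ‖x‖ = 1 → ⟪x, A x⟫_ℂ ∈ L := by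
    intro x hx t
    linarith [hmar x hx t]
  exact core_of_set hcompact hconvex (hspos τ₀) hball A hW p hp

end Curve

/-- **Crouzeix's conjecture.** -/
theorem crouzeix_two.{u} (H : Type u) [NormedAddCommGroup H] [InnerProductSpace ℂ H]
    [CompleteSpace H] (A : H →L[ℂ] H) (p : Polynomial ℂ) (M : ℝ) (hM : 0 ≤ M)
    (hp : ∀ x : H, ‖x‖ = 1 → ‖p.eval ⟪x, A x⟫_ℂ‖ ≤ M) : ‖Polynomial.aeval A p‖ ≤ 2 * M :=
  Vale.Agent.Lib.P123C.ReduceFinal.crouzeix_of_curve curveThm H A p M hM hp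

end Vale.Agent.Lib.P123.Rmt.FinalB
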