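import Vale.Agent.Lib.P123.Rmt.Setup

/-!
# The kernel on the torus
-/

open Complex Metric Set Filter Topology ComplexConjugate
open scoped Real

namespace Vale.Agent.Lib.P123.Rmt

set_option linter.unusedSectionVars false
set_option linter.unusedVariables false

/-- The first divided difference, as an integral. -/
noncomputable def Dl (g : ℂ → ℂ) (v η : ℂ) : ℂ :=
  ∫ s in (0 : ℝ)..1, deriv g (v + (s : ℂ) * (η - v))

/-- The second divided difference, as an integral. -/
noncomputable def Dd (g : ℂ → ℂ) (v η : ℂ) : ℂ :=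
  ∫ s in (0 : ℝ)..1, (s : ℂ) * deriv (deriv g) (v + (s : ℂ) * (η - v))

/-- The kernel. -/
noncomputable def kk (g : ℂ → ℂ) (v η : ℂ) : ℂ :=
  ss g η - 1 - η * Dd g v η / Dl g v η

lemma seg_mem {R₀ : ℝ} {v η : ℂ} (hv : v ∈ ball (0 : ℂ) R₀) (hη : η ∈ ball (0 : ℂ) R₀) {s : ℝ}
    (hs : s ∈ Icc (0 : ℝ) 1) : v + (s : ℂ) * (η - v) ∈ ball (0 : ℂ) R₀ := by
  have h := (convex_ball (0 : ℂ) R₀) hv hη (sub_nonneg.2 hs.2) hs.1 (by ring)
  convert h using 1
  simp only [real_smul]
  push_cast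
  ring

lemma clamp_mem (s : ℝ) : max 0 (min 1 s) ∈ Icc (0 : ℝ) 1 :=
  ⟨le_max_left _ _, max_le zero_le_one (min_le_left _ _)⟩

lemma clamp_eq {s : ℝ} (hs : s ∈ Set.uIcc (0 : ℝ) 1) : max 0 (min 1 s) = s := by
  rw [Set.uIcc_of_le zero_le_one] at hs
  rw [min_eq_right hs.2, max_eq_right hs.1]

lemma param_cont {R₀ : ℝ} {φ : ℂ → ℂ} (hφ : ContinuousOn φ (ball 0 R₀)) {w : ℝ → ℂ}
    (hw : Continuous w) :
    ContinuousOn (fun p : ℂ × ℂ => ∫ s in (0 : ℝ)..1, w s * φ (p.1 + (s : ℂ) * (p.2 - p.1)))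
      (ball 0 R₀ ×ˢ ball 0 R₀) := by
  have heq : (fun p : ℂ × ℂ => ∫ s in (0 : ℝ)..1, w s * φ (p.1 + (s : ℂ) * (p.2 - p.1))) =
      fun p : ℂ × ℂ => ∫ s in (0 : ℝ)..1,
        w s * φ (p.1 + ((max 0 (min 1 s) : ℝ) : ℂ) * (p.2 - p.1)) := by
    funext p
    apply intervalIntegral.integral_congr
    intro s hs
    simp only
    rw [clamp_eq hs]
  rw [heq, continuousOn_iff_continuous_domRestrict]
  apply intervalIntegral.continuous_parametric_intervalIntegral_of_continuous'
  have hmem : ∀ x : (↥(ball (0 : ℂ) R₀ ×ˢ ball (0 : ℂ) R₀)) × ℝ,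
      (x.1.1.1 + ((max 0 (min 1 x.2) : ℝ) : ℂ) * (x.1.1.2 - x.1.1.1)) ∈ ball (0 : ℂ) R₀ := fun x =>
    seg_mem x.1.2.1 x.1.2.2 (clamp_mem x.2)
  have hc : Continuous fun x : (↥(ball (0 : ℂ) R₀ ×ˢ ball (0 : ℂ) R₀)) × ℝ =>
      (x.1.1.1 + ((max 0 (min 1 x.2) : ℝ) : ℂ) * (x.1.1.2 - x.1.1.1)) := by
    fun_prop
  have h2 := hφ.comp_continuous hc hmem
  exact (hw.comp continuous_snd).mul h2

lemma line_hasDerivAt (v η : ℂ) (s : ℝ) :
    HasDerivAt (fun s : ℝ => v + (s : ℂ) * (η - v)) (η - v) s := by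
  have h1 : HasDerivAt (fun s : ℝ => (s : ℂ)) 1 s := Complex.ofRealCLM.hasDerivAt
  have h2 := (h1.mul_const (η - v)).const_add v
  simpa using h2

namespace GMap

variable {g : ℂ → ℂ} {R₀ : ℝ} (G : GMap g R₀)
include G

lemma deriv_diff : DifferentiableOn ℂ (deriv g) (ball 0 R₀) := G.diff.deriv isOpen_ball

lemma deriv2_diff : DifferentiableOn ℂ (deriv (deriv g)) (ball 0 R₀) :=
  G.deriv_diff.deriv isOpen_ball

lemma dl_cont : ContinuousOn (fun p : ℂ × ℂ => Dl g p.1 p.2) (ball 0 R₀ ×ˢ ball 0 R₀) := by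
  have h := param_cont (R₀ := R₀) (φ := deriv g) G.deriv_diff.continuousOn (w := fun _ => 1)
    continuous_const
  simpa [Dl] using h

lemma dd_cont : ContinuousOn (fun p : ℂ × ℂ => Dd g p.1 p.2) (ball 0 R₀ ×ˢ ball 0 R₀) := by
  have h := param_cont (R₀ := R₀) (φ := deriv (deriv g)) G.deriv2_diff.continuousOn
    (w := fun s => (s : ℂ)) Complex.continuous_ofReal
  simpa [Dd] using h

/-- The first divided difference. -/
lemma dl_mul {v η : ℂ} (hv : v ∈ ball (0 : ℂ) R₀) (hη : η ∈ ball (0 : ℂ) R₀) :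
    (η - v) * Dl g v η = g η - g v := by
  unfold Dl
  rw [← intervalIntegral.integral_const_mul]
  have hd : ∀ s ∈ Set.uIcc (0 : ℝ) 1, HasDerivAt (fun s : ℝ => g (v + (s : ℂ) * (η - v)))
      ((η - v) * deriv g (v + (s : ℂ) * (η - v))) s := by
    intro s hs
    rw [Set.uIcc_of_le zero_le_one] at hs
    have hm := seg_mem hv hη hs
    have h1 : HasDerivAt (fun s : ℝ => g (v + (s : ℂ) * (η - v)))
        ((η - v) • deriv g (v + (s : ℂ) * (η - v))) s :=
      (G.diffAt hm).hasDerivAt.scomp s (line_hasDerivAt v η s)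
    exact h1
  have hi : IntervalIntegrable (fun s : ℝ => (η - v) * deriv g (v + (s : ℂ) * (η - v)))
      MeasureTheory.volume 0 1 := by
    apply ContinuousOn.intervalIntegrable
    apply ContinuousOn.mul continuousOn_const
    rw [Set.uIcc_of_le zero_le_one]
    refine G.deriv_diff.continuousOn.comp ?_ (fun s hs => seg_mem hv hη hs)
    fun_prop
  rw [intervalIntegral.integral_eq_sub_of_hasDerivAt hd hi]
  simp

/-- The second divided difference. -/
lemma dl_add_dd {v η : ℂ} (hv : v ∈ ball (0 : ℂ) R₀) (hη : η ∈ ball (0 : ℂ) R₀) :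
    Dl g v η + (η - v) * Dd g v η = deriv g η := by
  have hc : ContinuousOn (fun s : ℝ => v + (s : ℂ) * (η - v)) (Icc (0 : ℝ) 1) := by fun_prop
  have hd : ∀ s ∈ Set.uIcc (0 : ℝ) 1,
      HasDerivAt (fun s : ℝ => (s : ℂ) * deriv g (v + (s : ℂ) * (η - v)))
      (deriv g (v + (s : ℂ) * (η - v)) +
        (η - v) * ((s : ℂ) * deriv (deriv g) (v + (s : ℂ) * (η - v)))) s := by
    intro s hs
    rw [Set.uIcc_of_le zero_le_one] at hs
    have hm := seg_mem hv hη hs
    have hh : DifferentiableAt ℂ (deriv g) (v + (s : ℂ) * (η - v)) :=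
      G.deriv_diff.differentiableAt (isOpen_ball.mem_nhds hm)
    have h1 : HasDerivAt (fun s : ℝ => deriv g (v + (s : ℂ) * (η - v)))
        ((η - v) • deriv (deriv g) (v + (s : ℂ) * (η - v))) s :=
      HasDerivAt.scomp (g₁ := deriv g) s hh.hasDerivAt (line_hasDerivAt v η s)
    have h2 : HasDerivAt (fun s : ℝ => (s : ℂ)) 1 s := Complex.ofRealCLM.hasDerivAt
    have h3 := h2.fun_mul h1
    refine h3.congr_deriv ?_
    simp only [smul_eq_mul, one_mul]
    ring
  have hi1 : IntervalIntegrable (fun s : ℝ => deriv g (v + (s : ℂ) * (η - v)))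
      MeasureTheory.volume 0 1 := by
    apply ContinuousOn.intervalIntegrable
    rw [Set.uIcc_of_le zero_le_one]
    exact G.deriv_diff.continuousOn.comp hc (fun s hs => seg_mem hv hη hs)
  have hi2 : IntervalIntegrable (fun s : ℝ => (η - v) * ((s : ℂ) * deriv (deriv g) (v + (s : ℂ) * (η - v))))
      MeasureTheory.volume 0 1 := by
    apply ContinuousOn.intervalIntegrable
    apply ContinuousOn.mul continuousOn_const
    apply ContinuousOn.mul (by fun_prop)
    rw [Set.uIcc_of_le zero_le_one]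
    exact G.deriv2_diff.continuousOn.comp hc (fun s hs => seg_mem hv hη hs)
  have hF := intervalIntegral.integral_eq_sub_of_hasDerivAt hd (hi1.add hi2)
  rw [intervalIntegral.integral_add hi1 hi2, intervalIntegral.integral_const_mul] at hF
  unfold Dl Dd
  rw [hF]
  simp

lemma dl_ne {v η : ℂ} (hv : v ∈ ball (0 : ℂ) R₀) (hη : η ∈ ball (0 : ℂ) R₀) : Dl g v η ≠ 0 := by
  intro h0
  by_cases hve : v = η
  · subst hve
    have h := G.dl_add_dd hv hv
    rw [h0] at h
    simp at h
    exact G.der v hv h.symm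
  · have h := G.dl_mul hv hη
    rw [h0, mul_zero] at h
    exact hve (G.inj hv hη (sub_eq_zero.1 h.symm).symm)

lemma kk_cont : ContinuousOn (fun p : ℂ × ℂ => kk g p.1 p.2) (ball 0 R₀ ×ˢ ball 0 R₀) := by
  unfold kk
  have h1 : ContinuousOn (fun p : ℂ × ℂ => ss g p.2) (ball 0 R₀ ×ˢ ball 0 R₀) :=
    G.ss_diff.continuousOn.comp continuousOn_snd (fun p hp => hp.2)
  refine (h1.sub continuousOn_const).sub ?_
  refine ContinuousOn.div (continuousOn_snd.mul G.dd_cont) G.dl_cont ?_
  exact fun p hp => G.dl_ne hp.1 hp.2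

/-- Explicit form off the diagonal. -/
lemma kk_eq {v η : ℂ} (hv : v ∈ ball (0 : ℂ) R₀) (hη : η ∈ ball (0 : ℂ) R₀) (hne : v ≠ η) :
    kk g v η = ss g η + η * deriv g η / (g v - g η) - v / (v - η) := by
  have h1 := G.dl_mul hv hη
  have h2 := G.dl_add_dd hv hη
  have h3 := G.dl_ne hv hη
  have hne1 : η - v ≠ 0 := sub_ne_zero.2 hne.symm
  have hne2 : v - η ≠ 0 := sub_ne_zero.2 hne
  have hg : g v - g η ≠ 0 := by
    intro h
    exact hne (G.inj hv hη (sub_eq_zero.1 h))
  have hg1 : g v - g η = -(η - v) * Dl g v η := by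
    rw [neg_mul, h1]; ring
  have hd : Dd g v η = (deriv g η - Dl g v η) / (η - v) := by
    rw [eq_div_iff hne1, ← h2]; ring
  unfold kk
  rw [hg1, hd, ← h2]
  have hvη : v - η = -(η - v) := by ring
  rw [hvη]
  field_simp
  ring

lemma kk_cont_left {v : ℂ} (hv : v ∈ ball (0 : ℂ) R₀) : ContinuousOn (kk g v) (ball 0 R₀) := by
  have h := G.kk_cont.comp (f := fun η : ℂ => (v, η)) (s := ball 0 R₀)
    (by fun_prop) (fun η hη => ⟨hv, hη⟩)
  exact h

lemma kk_cont_right {η : ℂ} (hη : η ∈ ball (0 : ℂ) R₀) :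
    ContinuousOn (fun v => kk g v η) (ball 0 R₀) := by
  have h := G.kk_cont.comp (f := fun v : ℂ => (v, η)) (s := ball 0 R₀)
    (by fun_prop) (fun v hv => ⟨hv, hη⟩)
  exact h

lemma diffAt' {v : ℂ} (hv : v ∈ ball (0 : ℂ) R₀) : DifferentiableAt ℂ (deriv g) v :=
  G.deriv_diff.differentiableAt (isOpen_ball.mem_nhds hv)

/-- Analyticity in the second variable. -/
lemma kk_diff_left {v : ℂ} (hv : v ∈ ball (0 : ℂ) R₀) : DifferentiableOn ℂ (kk g v) (ball 0 R₀) := by
  refine (Complex.differentiableOn_compl_singleton_and_continuousAt_iff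
    (isOpen_ball.mem_nhds hv)).1 ⟨?_, ?_⟩
  · have hd : DifferentiableOn ℂ (fun η => ss g η + η * deriv g η / (g v - g η) - v / (v - η))
        (ball 0 R₀ \ {v}) := by
      intro η hη
      have hb := hη.1
      have hne : v ≠ η := fun h => hη.2 (by simp [h])
      have hne2 : v - η ≠ 0 := sub_ne_zero.2 hne
      have hg : g v - g η ≠ 0 := fun h => hne (G.inj hv hb (sub_eq_zero.1 h))
      have h1 := G.ss_diffAt hb
      have h2 := G.diffAt' hb
      have h3 := G.diffAt hb
      apply DifferentiableAt.differentiableWithinAt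
      refine DifferentiableAt.sub (h1.add (DifferentiableAt.div (differentiableAt_id.mul h2)
        ((differentiableAt_const _).sub h3) hg)) (DifferentiableAt.div (differentiableAt_const _)
        ((differentiableAt_const _).sub differentiableAt_id) hne2)
    refine hd.congr fun η hη => ?_
    exact G.kk_eq hv hη.1 (fun h => hη.2 (by simp [h]))
  · exact (G.kk_cont_left hv).continuousAt (isOpen_ball.mem_nhds hv)

/-- Analyticity in the first variable. -/
lemma kk_diff_right {η : ℂ} (hη : η ∈ ball (0 : ℂ) R₀) :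
    DifferentiableOn ℂ (fun v => kk g v η) (ball 0 R₀) := by
  refine (Complex.differentiableOn_compl_singleton_and_continuousAt_iff
    (isOpen_ball.mem_nhds hη)).1 ⟨?_, ?_⟩
  · have hd : DifferentiableOn ℂ (fun v => ss g η + η * deriv g η / (g v - g η) - v / (v - η))
        (ball 0 R₀ \ {η}) := by
      intro v hv
      have hb := hv.1
      have hne : v ≠ η := fun h => hv.2 (by simp [h])
      have hne2 : v - η ≠ 0 := sub_ne_zero.2 hne
      have hg : g v - g η ≠ 0 := fun h => hne (G.inj hb hη (sub_eq_zero.1 h))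
      have h3 := G.diffAt hb
      apply DifferentiableAt.differentiableWithinAt
      refine DifferentiableAt.sub ((differentiableAt_const _).add (DifferentiableAt.div
        (differentiableAt_const _) (h3.sub (differentiableAt_const _)) hg))
        (DifferentiableAt.div differentiableAt_id (differentiableAt_id.sub (differentiableAt_const _))
        hne2)
    refine hd.congr fun v hv => ?_
    exact G.kk_eq hv.1 hη (fun h => hv.2 (by simp [h]))
  · exact (G.kk_cont_right hη).continuousAt (isOpen_ball.mem_nhds hη)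

lemma kk_zero_right (v : ℂ) : kk g v 0 = 0 := by
  unfold kk
  rw [G.ss_zero]
  simp

lemma kk_zero_left {η : ℂ} (hη : η ∈ ball (0 : ℂ) R₀) (h0 : η ≠ 0) : kk g 0 η = 0 := by
  rw [G.kk_eq (mem_ball_self G.pos) hη (Ne.symm h0), G.zero, G.ss_eq hη h0]
  have := G.g_ne hη h0
  field_simp
  ring

end GMap

end Vale.Agent.Lib.P123.Rmt
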