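import Vale.Agent.Lib.P123.Rmt.Contr

/-!
# Laurent data of polynomials in the exterior map, Pythagoras and Parseval
-/

open Complex Metric Set Filter Topology ComplexConjugate MeasureTheory
open scoped Real

namespace Vale.Agent.Lib.P123.Rmt

set_option linter.unusedSectionVars false
set_option linter.unusedVariables false

/-- Laurent data: `F(ψ(v)) = L(1/v) + h(v)`. -/
structure LD (g : ℂ → ℂ) (R₀ : ℝ) (F L : Polynomial ℂ) (h : ℂ → ℂ) : Prop where
  diff : DifferentiableOn ℂ h (ball 0 R₀)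
  zero : h 0 = 0
  eq : ∀ v ∈ ball (0 : ℂ) R₀, v ≠ 0 → F.eval (psi g v) = L.eval v⁻¹ + h v

section Data

variable {g : ℂ → ℂ} {R₀ : ℝ}

lemma LD.add {F F' L L' : Polynomial ℂ} {h h' : ℂ → ℂ} (H : LD g R₀ F L h) (H' : LD g R₀ F' L' h') :
    LD g R₀ (F + F') (L + L') (fun v => h v + h' v) where
  diff := H.diff.add H'.diff
  zero := by simp [H.zero, H'.zero]
  eq := fun v hv h0 => by
    rw [Polynomial.eval_add, Polynomial.eval_add, H.eq v hv h0, H'.eq v hv h0]
    ring

lemma LD.smul {F L : Polynomial ℂ} {h : ℂ → ℂ} (H : LD g R₀ F L h) (a : ℂ) :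
    LD g R₀ (Polynomial.C a * F) (Polynomial.C a * L) (fun v => a * h v) where
  diff := (differentiableOn_const a).mul H.diff
  zero := by simp [H.zero]
  eq := fun v hv h0 => by
    simp only [Polynomial.eval_mul, Polynomial.eval_C]
    rw [H.eq v hv h0]
    ring

lemma LD_const (a : ℂ) : LD g R₀ (Polynomial.C a) (Polynomial.C a) (fun _ => 0) where
  diff := differentiableOn_const 0
  zero := rfl
  eq := fun v _ _ => by simp

/-- Laurent expansion of a power of `1/v` times an analytic function. -/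
lemma laurent_mono (hR : 0 < R₀) (m : ℕ) :
    ∀ {K : ℂ → ℂ}, DifferentiableOn ℂ K (ball 0 R₀) → ∃ (L : Polynomial ℂ) (h : ℂ → ℂ),
      L.natDegree ≤ m ∧ L.coeff m = K 0 ∧ DifferentiableOn ℂ h (ball 0 R₀) ∧ h 0 = 0 ∧
      ∀ v ∈ ball (0 : ℂ) R₀, v ≠ 0 → (v⁻¹) ^ m * K v = L.eval v⁻¹ + h v := by
  induction m with
  | zero =>
    intro K hK
    refine ⟨Polynomial.C (K 0), fun v => K v - K 0, by simp, by simp, hK.sub_const _, by simp, ?_⟩
    intro v _ _
    simp
  | succ m ih =>
    intro K hK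
    have hK1 : DifferentiableOn ℂ (dslope K 0) (ball 0 R₀) :=
      (Complex.differentiableOn_dslope (ball_mem_nhds _ hR)).2 hK
    obtain ⟨L, h, hd, hc, hh, hh0, heq⟩ := ih hK1
    refine ⟨Polynomial.C (K 0) * Polynomial.X ^ (m + 1) + L, h, ?_, ?_, hh, hh0, ?_⟩
    · refine (Polynomial.natDegree_add_le _ _).trans (max_le ?_ (hd.trans (Nat.le_succ m)))
      exact Polynomial.natDegree_C_mul_X_pow_le _ _
    · rw [Polynomial.coeff_add, Polynomial.coeff_C_mul_X_pow, if_pos rfl,
        Polynomial.coeff_eq_zero_of_natDegree_lt (lt_of_le_of_lt hd (Nat.lt_succ_self m)), add_zero]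
    · intro v hv h0
      have h1 : K v = K 0 + v * dslope K 0 v := by
        have := sub_smul_dslope K 0 v
        simp only [sub_zero, smul_eq_mul] at this
        rw [this]
        ring
      simp only [Polynomial.eval_add, Polynomial.eval_mul, Polynomial.eval_C, Polynomial.eval_pow,
        Polynomial.eval_X]
      rw [add_assoc, ← heq v hv h0]
      conv_lhs => rw [h1]
      have h2 : (v⁻¹) ^ (m + 1) * v = (v⁻¹) ^ m := by
        rw [pow_succ, mul_assoc, inv_mul_cancel₀ h0, mul_one]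
      calc (v⁻¹) ^ (m + 1) * (K 0 + v * dslope K 0 v)
          = (v⁻¹) ^ (m + 1) * K 0 + ((v⁻¹) ^ (m + 1) * v) * dslope K 0 v := by ring
        _ = K 0 * (v⁻¹) ^ (m + 1) + (v⁻¹) ^ m * dslope K 0 v := by rw [h2]; ring

namespace GMap

variable (G : GMap g R₀)
include G

/-- The Laurent data of a power of the exterior map. -/
lemma ld_pow (m : ℕ) : ∃ (L : Polynomial ℂ) (h : ℂ → ℂ), LD g R₀ (Polynomial.X ^ m) L h ∧
    L.natDegree ≤ m ∧ L.coeff m ≠ 0 := by
  have hK : DifferentiableOn ℂ (fun v => ((dslope g 0 v)⁻¹) ^ m) (ball 0 R₀) :=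
    (G.g1_diff.inv fun v hv => G.g1_ne hv).pow m
  obtain ⟨L, h, hd, hc, hh, hh0, heq⟩ := laurent_mono G.pos m hK
  refine ⟨L, h, ⟨hh, hh0, ?_⟩, hd, ?_⟩
  · intro v hv h0
    rw [← heq v hv h0]
    simp only [Polynomial.eval_pow, Polynomial.eval_X]
    unfold psi
    rw [G.g_eq v, mul_inv, mul_pow]
  · rw [hc]
    exact pow_ne_zero _ (inv_ne_zero (G.g1_ne (mem_ball_self G.pos)))

/-- Every polynomial in the inverse variable is the principal part of a polynomial in `ψ`. -/
lemma ld_surj (n : ℕ) : ∀ L : Polynomial ℂ, L.natDegree ≤ n → ∃ (F : Polynomial ℂ) (h : ℂ → ℂ),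
    LD g R₀ F L h := by
  induction n with
  | zero =>
    intro L hL
    rw [Polynomial.eq_C_of_natDegree_le_zero hL]
    exact ⟨_, _, LD_const _⟩
  | succ n ih =>
    intro L hL
    obtain ⟨P, hP, hLD, hd, hc⟩ := G.ld_pow (n + 1)
    set a := L.coeff (n + 1) / P.coeff (n + 1) with ha
    have hL' : (L - Polynomial.C a * P).natDegree ≤ n := by
      rw [Polynomial.natDegree_le_iff_coeff_eq_zero]
      intro N hN
      rw [Polynomial.coeff_sub, Polynomial.coeff_C_mul]
      rcases Nat.lt_or_ge (n + 1) N with h1 | h1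
      · rw [Polynomial.coeff_eq_zero_of_natDegree_lt (lt_of_le_of_lt hL h1),
          Polynomial.coeff_eq_zero_of_natDegree_lt (lt_of_le_of_lt hd h1)]
        simp
      · have h2 : N = n + 1 := le_antisymm h1 hN
        rw [h2, ha]
        field_simp
        ring
    obtain ⟨F', h', hLD'⟩ := ih _ hL'
    refine ⟨Polynomial.C a * Polynomial.X ^ (n + 1) + F', fun v => a * hP v + h' v, ?_⟩
    have := (hLD.smul a).add hLD'
    simpa using this

/-- Every polynomial in `ψ` has Laurent data. -/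
lemma ld_exists (p : Polynomial ℂ) : ∃ (L : Polynomial ℂ) (h : ℂ → ℂ), LD g R₀ p L h := by
  induction p using Polynomial.induction_on' with
  | add p q hp hq =>
    obtain ⟨L, h, H⟩ := hp
    obtain ⟨L', h', H'⟩ := hq
    exact ⟨_, _, H.add H'⟩
  | monomial n a =>
    obtain ⟨L, h, H, _, _⟩ := G.ld_pow n
    refine ⟨Polynomial.C a * L, fun v => a * h v, ?_⟩
    have := H.smul a
    rwa [Polynomial.C_mul_X_pow_eq_monomial] at this

end GMap

end Data

section Pyth

/-- Pythagoras on the circle. -/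
lemma pyth (a : ℂ) {L : Polynomial ℂ} {h : ℂ → ℂ} (hL : L.coeff 0 = 0)
    (hh : DiffContOnCl ℂ h (ball 0 1)) (hh0 : h 0 = 0) :
    Av (fun v => ‖a + L.eval v⁻¹ + h v‖ ^ 2) =
      ‖a‖ ^ 2 + Av (fun v => ‖L.eval v⁻¹‖ ^ 2) + Av (fun v => ‖h v‖ ^ 2) := by
  have hLcs := cs_eval_inv L
  have hhcs : Cs h := by
    have := hh.continuousOn
    rw [closure_ball _ one_ne_zero] at this
    exact this.mono sphere_subset_closedBall
  have h1 : Av (fun v => L.eval v⁻¹ * conj (h v)) = 0 := by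
    rw [av_inv_conj L hh, hh0, mul_zero, map_zero]
  have h2 : Av (fun v => L.eval v⁻¹) = 0 := by
    have := av_inv_conj L (X := fun _ => 1) (differentiable_const _).diffContOnCl
    simp only [map_one, mul_one] at this
    rw [this, ← Polynomial.coeff_zero_eq_eval_zero, Polynomial.coeff_map, hL]
    simp
  have h3 : Av h = 0 := by rw [av_mean hh, hh0]
  have hform : ∀ v, ‖a + L.eval v⁻¹ + h v‖ ^ 2 = ‖a‖ ^ 2 + ‖L.eval v⁻¹‖ ^ 2 + ‖h v‖ ^ 2 +
      2 * (conj a * L.eval v⁻¹).re + 2 * (conj a * h v).re + 2 * (L.eval v⁻¹ * conj (h v)).re := by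
    intro v
    generalize L.eval v⁻¹ = b
    generalize h v = c
    simp only [Complex.sq_norm, Complex.normSq_apply, Complex.add_re, Complex.add_im,
      Complex.mul_re, Complex.conj_re, Complex.conj_im]
    ring
  have hre1 : Cs (fun v => (conj a * L.eval v⁻¹).re) := ((cs_const _).mul hLcs).re
  have hre2 : Cs (fun v => (conj a * h v).re) := ((cs_const _).mul hhcs).re
  have hre3 : Cs (fun v => (L.eval v⁻¹ * conj (h v)).re) := (hLcs.mul hhcs.conj).re
  have e1 : Av (fun v => (conj a * L.eval v⁻¹).re) = 0 := by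
    rw [av_re ((cs_const _).mul hLcs)]
    have := av_smul (conj a) (fun v => L.eval v⁻¹)
    simp only [smul_eq_mul] at this
    rw [this, h2]
    simp
  have e2 : Av (fun v => (conj a * h v).re) = 0 := by
    rw [av_re ((cs_const _).mul hhcs)]
    have := av_smul (conj a) h
    simp only [smul_eq_mul] at this
    rw [this, h3]
    simp
  have e3 : Av (fun v => (L.eval v⁻¹ * conj (h v)).re) = 0 := by
    rw [av_re (hLcs.mul hhcs.conj), h1]
    simp
  have t2 : Av (fun v => (2 : ℝ) * (conj a * L.eval v⁻¹).re) = 0 := by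
    have := av_smul (E := ℝ) (2 : ℝ) (fun v => (conj a * L.eval v⁻¹).re)
    simp only [smul_eq_mul] at this
    rw [this, e1, mul_zero]
  have t3 : Av (fun v => (2 : ℝ) * (conj a * h v).re) = 0 := by
    have := av_smul (E := ℝ) (2 : ℝ) (fun v => (conj a * h v).re)
    simp only [smul_eq_mul] at this
    rw [this, e2, mul_zero]
  have t4 : Av (fun v => (2 : ℝ) * (L.eval v⁻¹ * conj (h v)).re) = 0 := by
    have := av_smul (E := ℝ) (2 : ℝ) (fun v => (L.eval v⁻¹ * conj (h v)).re)
    simp only [smul_eq_mul] at this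
    rw [this, e3, mul_zero]
  simp_rw [hform]
  have c0 : Cs (fun _ : ℂ => ‖a‖ ^ 2) := continuousOn_const
  have c1 : Cs (fun v => ‖L.eval v⁻¹‖ ^ 2) := hLcs.normSq
  have c2 : Cs (fun v => ‖h v‖ ^ 2) := hhcs.normSq
  have c3 : Cs (fun v => (2 : ℝ) * (conj a * L.eval v⁻¹).re) :=
    ContinuousOn.mul continuousOn_const hre1
  have c4 : Cs (fun v => (2 : ℝ) * (conj a * h v).re) := ContinuousOn.mul continuousOn_const hre2
  have c5 : Cs (fun v => (2 : ℝ) * (L.eval v⁻¹ * conj (h v)).re) :=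
    ContinuousOn.mul continuousOn_const hre3
  have c6 : Cs (fun v => ‖a‖ ^ 2 + ‖L.eval v⁻¹‖ ^ 2) := ContinuousOn.add c0 c1
  have c7 : Cs (fun v => ‖a‖ ^ 2 + ‖L.eval v⁻¹‖ ^ 2 + ‖h v‖ ^ 2) := ContinuousOn.add c6 c2
  have c8 : Cs (fun v => ‖a‖ ^ 2 + ‖L.eval v⁻¹‖ ^ 2 + ‖h v‖ ^ 2 + 2 * (conj a * L.eval v⁻¹).re) :=
    ContinuousOn.add c7 c3
  have c9 : Cs (fun v => ‖a‖ ^ 2 + ‖L.eval v⁻¹‖ ^ 2 + ‖h v‖ ^ 2 + 2 * (conj a * L.eval v⁻¹).re +
      2 * (conj a * h v).re) := ContinuousOn.add c8 c4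
  rw [av_add c9 c5, av_add c8 c4, av_add c7 c3, av_add c6 c2, av_add c0 c1, av_const, t2, t3, t4]
  ring

/-- The key decomposition bound. -/
lemma decomp_bound {g : ℂ → ℂ} {R₀ : ℝ} (G : GMap g R₀) {α L : Polynomial ℂ} {h : ℂ → ℂ}
    (hLD : LD g R₀ α L h) {q1 q2 : ℂ → ℂ} (hq1 : DiffContOnCl ℂ q1 (ball 0 1))
    (hq2 : DiffContOnCl ℂ q2 (ball 0 1)) (h0 : q1 0 = conj (q2 0)) :
    ‖Av (fun v => α.eval (psi g v) * q1 v)‖ ^ 2 ≤
      Av (fun v => ‖α.eval (psi g v)‖ ^ 2) * Av (fun v => ‖q1 v + conj (q2 v)‖ ^ 2) := by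
  set a0 := L.coeff 0 with ha0
  set Lp := L - Polynomial.C a0 with hLpdef
  have hLpz : Lp.coeff 0 = 0 := by simp [hLpdef, ha0]
  have hcs1 : Cs q1 := by
    have := hq1.continuousOn
    rw [closure_ball _ one_ne_zero] at this
    exact this.mono sphere_subset_closedBall
  have hcs2 : Cs q2 := by
    have := hq2.continuousOn
    rw [closure_ball _ one_ne_zero] at this
    exact this.mono sphere_subset_closedBall
  have hh : DiffContOnCl ℂ h (ball 0 1) :=
    (hLD.diff.mono G.closed_sub).diffContOnCl_ball subset_rfl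
  have hhcs : Cs h := hLD.diff.continuousOn.mono G.sphere_sub
  have hLcs := cs_eval_inv Lp
  have hpt : ∀ v ∈ sphere (0 : ℂ) 1, α.eval (psi g v) = a0 + Lp.eval v⁻¹ + h v := by
    intro v hv
    rw [hLD.eq v (G.mem_of_sphere hv) (ne_zero_sphere hv), hLpdef, Polynomial.eval_sub,
      Polynomial.eval_C]
    ring
  -- the integral identity
  have hid : Av (fun v => α.eval (psi g v) * q1 v) =
      Av (fun v => (a0 / 2 + Lp.eval v⁻¹ + 0) * (q1 v + conj (q2 v))) := by
    have hA : Av (fun v => α.eval (psi g v) * q1 v) = a0 * q1 0 + Av (fun v => Lp.eval v⁻¹ * q1 v) := by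
      have e1 : Av (fun v => α.eval (psi g v) * q1 v) =
          Av (fun v => (a0 * q1 v + Lp.eval v⁻¹ * q1 v) + h v * q1 v) := by
        apply av_congr
        intro v hv
        rw [hpt v hv]
        ring
      rw [e1, av_add (((cs_const a0).mul hcs1).add (hLcs.mul hcs1)) (hhcs.mul hcs1),
        av_add ((cs_const a0).mul hcs1) (hLcs.mul hcs1)]
      have e2 : Av (fun v => a0 * q1 v) = a0 * q1 0 := by
        have := av_smul a0 q1
        simp only [smul_eq_mul] at this
        rw [this, av_mean hq1]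
      have e3 : Av (fun v => h v * q1 v) = 0 := by
        rw [av_mean (dc_mul hh hq1), hLD.zero, zero_mul]
      rw [e2, e3, add_zero]
    have hB : Av (fun v => (a0 / 2 + Lp.eval v⁻¹ + 0) * (q1 v + conj (q2 v))) =
        a0 * q1 0 + Av (fun v => Lp.eval v⁻¹ * q1 v) := by
      have e1 : Av (fun v => (a0 / 2 + Lp.eval v⁻¹ + 0) * (q1 v + conj (q2 v))) =
          Av (fun v => ((a0 / 2) * (q1 v + conj (q2 v)) + Lp.eval v⁻¹ * q1 v) +
            Lp.eval v⁻¹ * conj (q2 v)) := by
        apply av_congr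
        intro v _
        ring
      have hmu : Cs (fun v => q1 v + conj (q2 v)) := hcs1.add hcs2.conj
      rw [e1, av_add (((cs_const _).mul hmu).add (hLcs.mul hcs1)) (hLcs.mul hcs2.conj),
        av_add ((cs_const _).mul hmu) (hLcs.mul hcs1)]
      have e2 : Av (fun v => (a0 / 2) * (q1 v + conj (q2 v))) = a0 * q1 0 := by
        have := av_smul (a0 / 2) (fun v => q1 v + conj (q2 v))
        simp only [smul_eq_mul] at this
        rw [this, av_add hcs1 hcs2.conj, av_conj hcs2, av_mean hq1, av_mean hq2, ← h0]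
        ring
      have e3 : Av (fun v => Lp.eval v⁻¹ * conj (q2 v)) = 0 := by
        rw [av_inv_conj Lp hq2, ← Polynomial.coeff_zero_eq_eval_zero, Polynomial.coeff_map, hLpz]
        simp
      rw [e2, e3, add_zero]
    rw [hA, hB]
  rw [hid]
  have hw : Cs (fun v => a0 / 2 + Lp.eval v⁻¹ + 0) := ((cs_const _).add hLcs).add (cs_const _)
  have hcs := av_cs hw (hcs1.add hcs2.conj)
  refine hcs.trans ?_
  have hdc0 : DiffContOnCl ℂ (fun _ : ℂ => (0 : ℂ)) (ball 0 1) :=
    (differentiable_const _).diffContOnCl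
  have hp1 : Av (fun v => ‖a0 / 2 + Lp.eval v⁻¹ + 0‖ ^ 2) =
      ‖a0 / 2‖ ^ 2 + Av (fun v => ‖Lp.eval v⁻¹‖ ^ 2) := by
    have := pyth (a0 / 2) hLpz hdc0 rfl
    simpa [av_const] using this
  have hp2 := pyth a0 hLpz hh hLD.zero
  have hnn : 0 ≤ Av (fun v => ‖q1 v + conj (q2 v)‖ ^ 2) := av_nonneg fun _ _ => by positivity
  refine mul_le_mul_of_nonneg_right ?_ hnn
  rw [hp1]
  have h5 : Av (fun v => ‖α.eval (psi g v)‖ ^ 2) = Av (fun v => ‖a0 + Lp.eval v⁻¹ + h v‖ ^ 2) := by
    apply av_congr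
    intro v hv
    rw [hpt v hv]
  rw [h5, hp2]
  have h6 : 0 ≤ Av (fun v => ‖h v‖ ^ 2) := av_nonneg fun _ _ => by positivity
  have h8 : ‖a0 / 2‖ ^ 2 ≤ ‖a0‖ ^ 2 := by
    rw [norm_div]
    have : ‖(2 : ℂ)‖ = 2 := by simp
    rw [this, div_pow]
    have : 0 ≤ ‖a0‖ ^ 2 := by positivity
    linarith
  linarith

end Pyth

section Orth

lemma av_pow (m : ℕ) : Av (fun v : ℂ => v ^ m) = if m = 0 then 1 else 0 := by
  have h : DiffContOnCl ℂ (fun v : ℂ => v ^ m) (ball 0 1) :=
    (differentiable_pow m).diffContOnCl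
  rw [av_mean h]
  by_cases hm : m = 0
  · simp [hm]
  · simp [hm]

lemma av_inv_pow_mul_pow (m j : ℕ) :
    Av (fun v : ℂ => (v⁻¹) ^ m * v ^ j) = if j = m then 1 else 0 := by
  rcases Nat.lt_or_ge j m with h | h
  · have h1 : Av (fun v : ℂ => (v⁻¹) ^ m * v ^ j) = Av (fun v : ℂ => conj (v ^ (m - j))) := by
      apply av_congr
      intro v hv
      have h0 := ne_zero_sphere hv
      rw [map_pow, ← inv_eq_conj_sphere hv]
      have hm : m = (m - j) + j := by omega
      conv_lhs => rw [hm, pow_add]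
      rw [mul_assoc, ← mul_pow, inv_mul_cancel₀ h0]
      simp
    have hcs : Cs (fun v : ℂ => v ^ (m - j)) := (continuous_pow _).continuousOn
    rw [h1, av_conj hcs, av_pow, if_neg (by omega), if_neg (by omega)]
    simp
  · have h1 : Av (fun v : ℂ => (v⁻¹) ^ m * v ^ j) = Av (fun v : ℂ => v ^ (j - m)) := by
      apply av_congr
      intro v hv
      have h0 := ne_zero_sphere hv
      have hm : j = (j - m) + m := by omega
      conv_lhs => rw [hm, pow_add]
      rw [mul_left_comm, ← mul_pow, inv_mul_cancel₀ h0]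
      simp
    rw [h1, av_pow]
    by_cases hjm : j = m
    · simp [hjm]
    · rw [if_neg (by omega), if_neg hjm]

/-- Orthonormality of the monomials in the inverse variable. -/
lemma av_norm_sum (c : ℕ → ℂ) (n : ℕ) :
    Av (fun v : ℂ => ‖∑ k ∈ Finset.range n, c k * (v⁻¹) ^ (k + 1)‖ ^ 2) =
      ∑ k ∈ Finset.range n, ‖c k‖ ^ 2 := by
  have hcs : ∀ m : ℕ, Cs (fun v : ℂ => (v⁻¹) ^ m) := fun m => ContinuousOn.pow cs_inv m
  have hS : Cs (fun v : ℂ => ∑ k ∈ Finset.range n, c k * (v⁻¹) ^ (k + 1)) :=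
    continuousOn_finsetSum _ fun k _ => (cs_const _).mul (hcs _)
  have hreal : Cs (fun v : ℂ => ‖∑ k ∈ Finset.range n, c k * (v⁻¹) ^ (k + 1)‖ ^ 2) := hS.normSq
  have h1 : ((Av (fun v : ℂ => ‖∑ k ∈ Finset.range n, c k * (v⁻¹) ^ (k + 1)‖ ^ 2) : ℝ) : ℂ) =
      ∑ k ∈ Finset.range n, c k * conj (c k) := by
    rw [← av_ofReal hreal]
    have h2 : ∀ v ∈ sphere (0 : ℂ) 1,
        ((‖∑ k ∈ Finset.range n, c k * (v⁻¹) ^ (k + 1)‖ ^ 2 : ℝ) : ℂ) =
        ∑ k ∈ Finset.range n, ∑ j ∈ Finset.range n,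
          (c k * conj (c j)) * ((v⁻¹) ^ (k + 1) * v ^ (j + 1)) := by
      intro v hv
      have h3 : conj (∑ k ∈ Finset.range n, c k * (v⁻¹) ^ (k + 1)) =
          ∑ j ∈ Finset.range n, conj (c j) * v ^ (j + 1) := by
        rw [map_sum]
        refine Finset.sum_congr rfl fun j _ => ?_
        rw [map_mul, map_pow, map_inv₀]
        have : (conj v)⁻¹ = v := by
          rw [← inv_eq_conj_sphere hv, inv_inv]
        rw [this]
      push_cast
      rw [← Complex.mul_conj' , h3, Finset.sum_mul_sum]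
      refine Finset.sum_congr rfl fun k _ => Finset.sum_congr rfl fun j _ => ?_
      ring
    rw [av_congr h2, av_sum]
    · refine Finset.sum_congr rfl fun k hk => ?_
      rw [av_sum]
      · have h4 : ∀ j ∈ Finset.range n, Av (fun v : ℂ =>
            (c k * conj (c j)) * ((v⁻¹) ^ (k + 1) * v ^ (j + 1))) =
            (c k * conj (c j)) * (if j = k then 1 else 0) := by
          intro j _
          have := av_smul (c k * conj (c j)) (fun v : ℂ => (v⁻¹) ^ (k + 1) * v ^ (j + 1))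
          simp only [smul_eq_mul] at this
          rw [this, av_inv_pow_mul_pow]
          simp
        rw [Finset.sum_congr rfl h4]
        simp only [mul_ite, mul_one, mul_zero]
        rw [Finset.sum_ite_eq' (Finset.range n) k, if_pos hk]
      · intro j _
        exact (cs_const _).mul ((hcs _).mul (continuous_pow _).continuousOn)
    · intro k _
      exact continuousOn_finsetSum _ fun j _ =>
        (cs_const _).mul ((hcs _).mul (continuous_pow _).continuousOn)
  have h5 : ∑ k ∈ Finset.range n, c k * conj (c k) = ((∑ k ∈ Finset.range n, ‖c k‖ ^ 2 : ℝ) : ℂ) := by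
    push_cast
    refine Finset.sum_congr rfl fun k _ => ?_
    rw [Complex.mul_conj']
  rw [h5] at h1
  exact_mod_cast h1

end Orth

section Parseval

/-- **Parseval** for analytic functions. -/
lemma parseval {t : ℂ → ℂ} (ht : DiffContOnCl ℂ t (ball 0 1)) :
    Tendsto (fun n => ∑ k ∈ Finset.range n, ‖Av (fun v : ℂ => (v⁻¹) ^ k * t v)‖ ^ 2) atTop
      (𝓝 (Av (fun v => ‖t v‖ ^ 2))) := by
  have htcs : Cs t := by
    have := ht.continuousOn
    rw [closure_ball _ one_ne_zero] at this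
    exact this.mono sphere_subset_closedBall
  have h2π : (0 : ℝ) < 2 * π := by positivity
  set f : ℝ → ℂ := fun θ => t (circleMap 0 1 θ) with hf
  have hfc : Continuous f := htcs.comp_continuous (continuous_circleMap 0 1) circle_mem
  have hmem : MemLp f 2 (volume.restrict (Ioc 0 (2 * π))) := by
    obtain ⟨C, hC⟩ := (isCompact_sphere (0 : ℂ) 1).exists_bound_of_continuousOn htcs
    refine MemLp.of_bound hfc.aestronglyMeasurable C ?_
    exact Eventually.of_forall fun θ => hC _ (circle_mem θ)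
  have hpars := hasSum_sq_fourierCoeffOn (a := 0) (b := 2 * π) h2π hmem
  have hcoef : ∀ n : ℤ, fourierCoeffOn h2π f n = (2 * π : ℝ)⁻¹ • ∫ θ in (0 : ℝ)..2 * π,
      Complex.exp (-(n : ℂ) * (θ * I)) * f θ := by
    intro n
    rw [fourierCoeffOn_eq_integral, sub_zero, one_div]
    congr 1
    refine intervalIntegral.integral_congr fun θ _ => ?_
    simp only [smul_eq_mul]
    congr 1
    rw [fourier_coe_apply]
    congr 1
    push_cast
    have : (π : ℂ) ≠ 0 := by exact_mod_cast Real.pi_ne_zero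
    field_simp
  have hnat : ∀ k : ℕ, fourierCoeffOn h2π f (k : ℤ) = Av (fun v : ℂ => (v⁻¹) ^ k * t v) := by
    intro k
    rw [hcoef]
    unfold Av Real.circleAverage
    congr 1
    refine intervalIntegral.integral_congr fun θ _ => ?_
    simp only [hf]
    congr 1
    simp only [circleMap, zero_add, ofReal_one, one_mul]
    rw [← Complex.exp_neg, ← Complex.exp_nat_mul]
    congr 1
    push_cast
    ring
  have hneg : ∀ n : ℤ, n ∉ Set.range (Nat.cast : ℕ → ℤ) → ‖fourierCoeffOn h2π f n‖ ^ 2 = 0 := by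
    intro n hn
    have hlt : n < 0 := by
      by_contra hge
      exact hn ⟨n.toNat, Int.toNat_of_nonneg (not_lt.1 hge)⟩
    obtain ⟨m, hm⟩ : ∃ m : ℕ, n = -((m + 1 : ℕ) : ℤ) := by
      refine ⟨(-n).toNat - 1, ?_⟩
      omega
    have hzero : fourierCoeffOn h2π f n = Av (fun v : ℂ => v ^ (m + 1) * t v) := by
      rw [hcoef]
      unfold Av Real.circleAverage
      congr 1
      refine intervalIntegral.integral_congr fun θ _ => ?_
      simp only [hf]
      congr 1
      simp only [circleMap, zero_add, ofReal_one, one_mul]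
      rw [← Complex.exp_nat_mul]
      congr 1
      rw [hm]
      push_cast
      ring
    have hdc : DiffContOnCl ℂ (fun v : ℂ => v ^ (m + 1) * t v) (ball 0 1) :=
      dc_mul (differentiable_pow (m + 1)).diffContOnCl ht
    rw [hzero, av_mean hdc]
    simp
  have hinj : Function.Injective (Nat.cast : ℕ → ℤ) := Nat.cast_injective
  have hsum := (hinj.hasSum_iff hneg).2 hpars
  have hlim := hsum.tendsto_sum_nat
  have hval : (2 * π - 0)⁻¹ • ∫ x in (0 : ℝ)..2 * π, ‖f x‖ ^ 2 = Av (fun v => ‖t v‖ ^ 2) := by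
    unfold Av Real.circleAverage
    rw [sub_zero]
  rw [hval] at hlim
  refine hlim.congr fun n => ?_
  refine Finset.sum_congr rfl fun k _ => ?_
  simp only [Function.comp]
  rw [hnat]

end Parseval

end Vale.Agent.Lib.P123.Rmt
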