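import Mathlib

/-!
# Level curves of the exterior conformal map of a convex set

`ExtMap L`: the exterior conformal map `psi` of a compact convex set `L`, with its inverse `Phi`.

`ExtMap.phi_comb_le`: for an analytic map `E` of the exterior of the unit disc that approaches `L` on
the unit circle and grows at most like the leading term of `psi`, one has `|Phi (E w)| ≤ |w|`.

Corollaries, by a derivative test:
* `ExtMap.kernel_nonneg`: `0 ≤ Re (u psi'(u) / (psi u - psi v))` for `|u| = |v| > 1`, `u ≠ v`;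
* `ExtMap.star_nonneg`: `0 ≤ Re (u psi'(u) / (psi u - z))` for `|u| > 1`, `z ∈ L`.
-/

namespace Vale.Agent.Lib.P123.Rmt

open Complex Metric Set Filter Topology

/-- The exterior conformal map of a set `L` with its inverse. -/
structure ExtMap (L : Set ℂ) where
  /-- the map from the exterior of the unit disc onto the complement of `L` -/
  psi : ℂ → ℂ
  /-- the inverse map -/
  Phi : ℂ → ℂ
  /-- the leading coefficient of `psi` at infinity -/
  c : ℂ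
  hc : c ≠ 0
  diff_psi : DifferentiableOn ℂ psi {w | 1 < ‖w‖}
  diff_Phi : DifferentiableOn ℂ Phi Lᶜ
  maps_psi : ∀ w, 1 < ‖w‖ → psi w ∉ L
  maps_Phi : ∀ z, z ∉ L → 1 < ‖Phi z‖
  left_inv : ∀ w, 1 < ‖w‖ → Phi (psi w) = w
  right_inv : ∀ z, z ∉ L → psi (Phi z) = z
  bound_psi : ∃ C : ℝ, ∀ w, 1 < ‖w‖ → ‖psi w‖ ≤ ‖c‖ * ‖w‖ + C
  bound_Phi : ∃ C : ℝ, ∀ z, z ∉ L → ‖Phi z‖ ≤ ‖z‖ / ‖c‖ + C
  proper_psi : ∀ η : ℝ, 0 < η → ∃ δ : ℝ, 0 < δ ∧ ∀ w, 1 < ‖w‖ → ‖w‖ < 1 + δ → infDist (psi w) L < η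
  proper_Phi : ∀ ε : ℝ, 0 < ε → ∃ η : ℝ, 0 < η ∧ ∀ z, z ∉ L → infDist z L < η → ‖Phi z‖ ≤ 1 + ε

namespace ExtMap

variable {L : Set ℂ}

/-- The main estimate: maps of the exterior that approach `L` on the unit circle and do not grow
faster than `psi` satisfy `|Phi (E w)| ≤ |w|`. -/
theorem phi_comb_le (M : ExtMap L) (hLc : IsClosed L) (hLn : L.Nonempty) {E : ℂ → ℂ}
    (hE : DifferentiableOn ℂ E {w | 1 < ‖w‖})
    (hprox : ∀ η : ℝ, 0 < η → ∃ δ : ℝ, 0 < δ ∧ ∀ w, 1 < ‖w‖ → ‖w‖ < 1 + δ → infDist (E w) L < η)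
    {C : ℝ} (hgrow : ∀ w, 1 < ‖w‖ → ‖E w‖ ≤ ‖M.c‖ * ‖w‖ + C)
    {w₀ : ℂ} (hw₀ : 1 < ‖w₀‖) (hw₀L : E w₀ ∉ L) : ‖M.Phi (E w₀)‖ ≤ ‖w₀‖ := by
  have hcpos : 0 < ‖M.c‖ := norm_pos_iff.2 M.hc
  obtain ⟨C', hC'⟩ := M.bound_Phi
  -- it suffices to prove the bound with a factor `1 + ε`
  refine le_of_forall_pos_le_add ?_
  intro ε' hε'
  have hw₀pos : 0 < ‖w₀‖ := by linarith
  set ε : ℝ := ε' / ‖w₀‖ with hε
  have hεpos : 0 < ε := div_pos hε' hw₀pos
  suffices hgoal : ‖M.Phi (E w₀)‖ ≤ (1 + ε) * ‖w₀‖ by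
    have : (1 + ε) * ‖w₀‖ = ‖w₀‖ + ε' := by
      rw [hε]; field_simp
    linarith
  by_cases hsmall : ‖M.Phi (E w₀)‖ ≤ 1 + ε
  · have : 1 + ε ≤ (1 + ε) * ‖w₀‖ := by nlinarith
    linarith
  have hsmall := not_le.1 hsmall
  obtain ⟨η, hηpos, hη⟩ := M.proper_Phi ε hεpos
  obtain ⟨δ, hδpos, hδ⟩ := hprox η hηpos
  -- the outer radius
  set W : ℝ := max (‖w₀‖ + 1) ((|C| / ‖M.c‖ + |C'| + 1) / ε + 1) with hW
  have hW1 : ‖w₀‖ + 1 ≤ W := le_max_left _ _
  have hW2 : (|C| / ‖M.c‖ + |C'| + 1) / ε + 1 ≤ W := le_max_right _ _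
  have hWpos : 1 < W := by linarith
  -- the domain
  set D : Set ℂ := {w | 1 < ‖w‖ ∧ ‖w‖ < W ∧ E w ∉ L ∧ 1 + ε < ‖M.Phi (E w)‖} with hD
  set A : Set ℂ := {w | 1 + δ ≤ ‖w‖ ∧ ‖w‖ ≤ W ∧ η ≤ infDist (E w) L} with hA
  have hinfpos : ∀ z, η ≤ infDist z L → z ∉ L := by
    intro z hz hzL
    have : infDist z L = 0 := infDist_zero_of_mem hzL
    linarith
  -- `A` lies in the domain of analyticity
  have hA1 : ∀ w ∈ A, 1 < ‖w‖ := fun w hw => by linarith [hw.1]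
  have hEcont : ContinuousOn E {w | 1 < ‖w‖} := hE.continuousOn
  have hPhicont : ContinuousOn M.Phi Lᶜ := M.diff_Phi.continuousOn
  have hLopen : IsOpen Lᶜ := hLc.isOpen_compl
  have hWopen : IsOpen {w : ℂ | 1 < ‖w‖} := isOpen_lt continuous_const continuous_norm
  have hcomp : ContinuousOn (fun w => M.Phi (E w)) ({w | 1 < ‖w‖} ∩ E ⁻¹' Lᶜ) := by
    refine hPhicont.comp (hEcont.mono inter_subset_left) ?_
    intro w hw
    exact hw.2
  have hdiffcomp : DifferentiableOn ℂ (fun w => M.Phi (E w)) ({w | 1 < ‖w‖} ∩ E ⁻¹' Lᶜ) := by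
    refine M.diff_Phi.comp (hE.mono inter_subset_left) ?_
    intro w hw
    exact hw.2
  have hAsub : A ⊆ {w | 1 < ‖w‖} ∩ E ⁻¹' Lᶜ := fun w hw => ⟨hA1 w hw, hinfpos _ hw.2.2⟩
  -- `A` is closed
  have hAclosed : IsClosed A := by
    have h0 : IsClosed {w : ℂ | 1 + δ ≤ ‖w‖ ∧ ‖w‖ ≤ W} :=
      (isClosed_le continuous_const continuous_norm).inter (isClosed_le continuous_norm continuous_const)
    have hEc : ContinuousOn E {w : ℂ | 1 + δ ≤ ‖w‖ ∧ ‖w‖ ≤ W} :=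
      hEcont.mono fun w hw => by
        show 1 < ‖w‖
        linarith [hw.1]
    have hd : ContinuousOn (fun w => infDist (E w) L) {w : ℂ | 1 + δ ≤ ‖w‖ ∧ ‖w‖ ≤ W} :=
      (continuous_infDist_pt L).comp_continuousOn hEc
    have := hd.preimage_isClosed_of_isClosed h0 (isClosed_Ici (a := η))
    convert this using 1
    ext w
    constructor
    · rintro ⟨h1, h2, h3⟩
      exact ⟨⟨h1, h2⟩, h3⟩
    · rintro ⟨⟨h1, h2⟩, h3⟩
      exact ⟨h1, h2, h3⟩
  have hDsubA : D ⊆ A := by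
    rintro w ⟨h1, h2, h3, h4⟩
    refine ⟨?_, h2.le, ?_⟩
    · by_contra hcon
      have hcon := not_le.1 hcon
      have := hη _ h3 (hδ w h1 hcon)
      linarith
    · by_contra hcon
      have hcon := not_le.1 hcon
      have := hη _ h3 hcon
      linarith
  have hclosure : closure D ⊆ A := closure_minimal hDsubA hAclosed
  -- the function
  set F : ℂ → ℂ := fun w => M.Phi (E w) / w with hF
  have hFdiff : DifferentiableOn ℂ F ({w | 1 < ‖w‖} ∩ E ⁻¹' Lᶜ) := by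
    refine hdiffcomp.div differentiableOn_id ?_
    intro w hw h0
    have h1 : 1 < ‖w‖ := hw.1
    have h0' : w = 0 := h0
    rw [h0'] at h1
    simp at h1
    linarith
  have hDsub : D ⊆ {w | 1 < ‖w‖} ∩ E ⁻¹' Lᶜ := fun w hw => ⟨hw.1, hw.2.2.1⟩
  have hDopen : IsOpen D := by
    have h1 : IsOpen ({w : ℂ | 1 < ‖w‖} ∩ E ⁻¹' Lᶜ) :=
      (hEcont.isOpen_inter_preimage hWopen hLopen)
    have h2 : IsOpen (({w : ℂ | 1 < ‖w‖} ∩ E ⁻¹' Lᶜ) ∩ (fun w => ‖M.Phi (E w)‖) ⁻¹' Ioi (1 + ε)) :=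
      ContinuousOn.isOpen_inter_preimage hcomp.norm h1 isOpen_Ioi
    have h3 : IsOpen {w : ℂ | ‖w‖ < W} := isOpen_lt continuous_norm continuous_const
    convert h2.inter h3 using 1
    ext w
    constructor
    · rintro ⟨h1', h2', h3', h4'⟩
      exact ⟨⟨⟨h1', h3'⟩, h4'⟩, h2'⟩
    · rintro ⟨⟨⟨h1', h3'⟩, h4'⟩, h2'⟩
      exact ⟨h1', h2', h3', h4'⟩
  have hDiffCont : DiffContOnCl ℂ F D := by
    refine ⟨hFdiff.mono hDsub, ?_⟩
    exact (hFdiff.mono hAsub).continuousOn.mono hclosure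
  have hbounded : Bornology.IsBounded D := by
    refine (Metric.isBounded_closedBall (x := (0 : ℂ)) (r := W)).subset ?_
    intro w hw
    simp only [mem_closedBall, dist_zero_right]
    exact hw.2.1.le
  have hw₀D : w₀ ∈ D := ⟨hw₀, by linarith, hw₀L, hsmall⟩
  have hfront : ∀ z ∈ frontier D, ‖F z‖ ≤ 1 + ε := by
    intro z hz
    have hzcl : z ∈ closure D := frontier_subset_closure hz
    have hzA : z ∈ A := hclosure hzcl
    have hzD : z ∉ D := by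
      rw [frontier, hDopen.interior_eq] at hz
      exact hz.2
    have hz1 : 1 < ‖z‖ := hA1 z hzA
    have hzL : E z ∉ L := hinfpos _ hzA.2.2
    have hznorm : 0 < ‖z‖ := by linarith
    have hFnorm : ‖F z‖ = ‖M.Phi (E z)‖ / ‖z‖ := by
      simp only [hF, norm_div]
    rw [hFnorm, div_le_iff₀ hznorm]
    by_cases hPhi : ‖M.Phi (E z)‖ ≤ 1 + ε
    · have : 1 + ε ≤ (1 + ε) * ‖z‖ := by nlinarith
      linarith
    have hPhi := not_le.1 hPhi
    have hzW : ‖z‖ = W := by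
      by_contra hne
      have : ‖z‖ < W := lt_of_le_of_ne hzA.2.1 hne
      exact hzD ⟨hz1, this, hzL, hPhi⟩
    -- the bound on the outer circle
    have h1 := hC' (E z) hzL
    have h2 := hgrow z hz1
    have h3 : ‖E z‖ / ‖M.c‖ ≤ ‖z‖ + |C| / ‖M.c‖ := by
      rw [div_le_iff₀ hcpos]
      have : C ≤ |C| := le_abs_self C
      have h4 : (‖z‖ + |C| / ‖M.c‖) * ‖M.c‖ = ‖M.c‖ * ‖z‖ + |C| := by
        field_simp
      rw [h4]
      linarith
    have h5 : C' ≤ |C'| := le_abs_self C'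
    have h6 : (|C| / ‖M.c‖ + |C'| + 1) ≤ ε * ‖z‖ := by
      rw [hzW]
      have : (|C| / ‖M.c‖ + |C'| + 1) / ε ≤ W := by linarith
      rw [div_le_iff₀ hεpos] at this
      linarith
    nlinarith
  have := Complex.norm_le_of_forall_mem_frontier_norm_le hbounded hDiffCont hfront
    (subset_closure hw₀D)
  have hFnorm : ‖F w₀‖ = ‖M.Phi (E w₀)‖ / ‖w₀‖ := by
    simp only [hF, norm_div]
  rw [hFnorm, div_le_iff₀ hw₀pos] at this
  exact this

/-- The distance to a convex set is a convex function. -/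
theorem infDist_comb {L : Set ℂ} (hLk : IsCompact L) (hLv : Convex ℝ L) (hLn : L.Nonempty)
    (p q : ℂ) {s : ℝ} (hs0 : 0 ≤ s) (hs1 : s ≤ 1) :
    infDist (((1 - s : ℝ) : ℂ) * p + (s : ℂ) * q) L ≤ (1 - s) * infDist p L + s * infDist q L := by
  obtain ⟨y₁, hy₁, h₁⟩ := hLk.exists_infDist_eq_dist hLn p
  obtain ⟨y₂, hy₂, h₂⟩ := hLk.exists_infDist_eq_dist hLn q
  have hmem : (1 - s) • y₁ + s • y₂ ∈ L :=
    hLv hy₁ hy₂ (by linarith) hs0 (by ring)
  refine (infDist_le_dist_of_mem hmem).trans ?_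
  rw [h₁, h₂, dist_eq_norm, dist_eq_norm, dist_eq_norm]
  have heq : ((1 - s : ℝ) : ℂ) * p + (s : ℂ) * q - ((1 - s) • y₁ + s • y₂)
      = ((1 - s : ℝ) : ℂ) * (p - y₁) + (s : ℂ) * (q - y₂) := by
    simp only [Complex.real_smul]
    ring
  rw [heq]
  refine (norm_add_le _ _).trans ?_
  rw [norm_mul, norm_mul, Complex.norm_real, Complex.norm_real, Real.norm_of_nonneg (by linarith),
    Real.norm_of_nonneg hs0]

/-- Convex combinations of two rotated copies of `psi`. -/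
theorem phi_comb_rot (M : ExtMap L) (hLk : IsCompact L) (hLv : Convex ℝ L) (hLn : L.Nonempty)
    {a b : ℂ} (ha : ‖a‖ = 1) (hb : ‖b‖ = 1) {s : ℝ} (hs0 : 0 ≤ s) (hs1 : s ≤ 1) {w : ℂ} (hw : 1 < ‖w‖)
    (hL : ((1 - s : ℝ) : ℂ) * M.psi (a * w) + (s : ℂ) * M.psi (b * w) ∉ L) :
    ‖M.Phi (((1 - s : ℝ) : ℂ) * M.psi (a * w) + (s : ℂ) * M.psi (b * w))‖ ≤ ‖w‖ := by
  obtain ⟨C, hC⟩ := M.bound_psi
  have hmul : ∀ {e : ℂ}, ‖e‖ = 1 → ∀ w : ℂ, ‖e * w‖ = ‖w‖ := by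
    intro e he w
    rw [norm_mul, he, one_mul]
  have hdiff : ∀ {e : ℂ}, ‖e‖ = 1 → DifferentiableOn ℂ (fun w => M.psi (e * w)) {w | 1 < ‖w‖} := by
    intro e he
    refine M.diff_psi.comp (differentiableOn_const _ |>.mul differentiableOn_id) ?_
    intro w hw
    show 1 < ‖e * w‖
    rw [hmul he]
    exact hw
  refine phi_comb_le (E := fun w => ((1 - s : ℝ) : ℂ) * M.psi (a * w) + (s : ℂ) * M.psi (b * w))
    (C := C) M hLk.isClosed hLn ?_ ?_ ?_ hw hL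
  · exact ((differentiableOn_const _).mul (hdiff ha)).add ((differentiableOn_const _).mul (hdiff hb))
  · intro η hη
    obtain ⟨δ, hδ, h⟩ := M.proper_psi η hη
    refine ⟨δ, hδ, fun w hw hw' => ?_⟩
    refine (infDist_comb hLk hLv hLn _ _ hs0 hs1).trans_lt ?_
    have h₁ := h (a * w) (by rwa [hmul ha]) (by rwa [hmul ha])
    have h₂ := h (b * w) (by rwa [hmul hb]) (by rwa [hmul hb])
    have hs1' : 0 ≤ 1 - s := by linarith
    rcases eq_or_lt_of_le hs0 with h0 | h0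
    · rw [← h0]
      simpa using h₁
    · nlinarith
  · intro w hw
    have h₁ := hC (a * w) (by rwa [hmul ha])
    have h₂ := hC (b * w) (by rwa [hmul hb])
    rw [hmul ha] at h₁
    rw [hmul hb] at h₂
    refine (norm_add_le _ _).trans ?_
    rw [norm_mul, norm_mul, Complex.norm_real, Complex.norm_real, Real.norm_of_nonneg (by linarith),
      Real.norm_of_nonneg hs0]
    have hs1' : 0 ≤ 1 - s := by linarith
    nlinarith [mul_le_mul_of_nonneg_left h₁ hs1', mul_le_mul_of_nonneg_left h₂ hs0]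

/-- Convex combinations of a rotated copy of `psi` and a point of `L`. -/
theorem phi_comb_pt (M : ExtMap L) (hLk : IsCompact L) (hLv : Convex ℝ L) (hLn : L.Nonempty)
    {a z : ℂ} (ha : ‖a‖ = 1) (hz : z ∈ L) {s : ℝ} (hs0 : 0 ≤ s) (hs1 : s ≤ 1) {w : ℂ} (hw : 1 < ‖w‖)
    (hL : ((1 - s : ℝ) : ℂ) * M.psi (a * w) + (s : ℂ) * z ∉ L) :
    ‖M.Phi (((1 - s : ℝ) : ℂ) * M.psi (a * w) + (s : ℂ) * z)‖ ≤ ‖w‖ := by
  obtain ⟨C, hC⟩ := M.bound_psi
  have hmul : ∀ w : ℂ, ‖a * w‖ = ‖w‖ := by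
    intro w
    rw [norm_mul, ha, one_mul]
  have hdiff : DifferentiableOn ℂ (fun w => M.psi (a * w)) {w | 1 < ‖w‖} := by
    refine M.diff_psi.comp (differentiableOn_const _ |>.mul differentiableOn_id) ?_
    intro w hw
    show 1 < ‖a * w‖
    rw [hmul]
    exact hw
  refine phi_comb_le (E := fun w => ((1 - s : ℝ) : ℂ) * M.psi (a * w) + (s : ℂ) * z)
    (C := |C| + ‖z‖) M hLk.isClosed hLn ?_ ?_ ?_ hw hL
  · exact ((differentiableOn_const _).mul hdiff).add (differentiableOn_const _)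
  · intro η hη
    obtain ⟨δ, hδ, h⟩ := M.proper_psi η hη
    refine ⟨δ, hδ, fun w hw hw' => ?_⟩
    refine (infDist_comb hLk hLv hLn _ _ hs0 hs1).trans_lt ?_
    have h₁ := h (a * w) (by rwa [hmul]) (by rwa [hmul])
    rw [infDist_zero_of_mem hz]
    rcases eq_or_lt_of_le hs0 with h0 | h0
    · rw [← h0]
      simpa using h₁
    · have hs1' : 0 ≤ 1 - s := by linarith
      have h2 := mul_le_mul_of_nonneg_left h₁.le hs1'
      nlinarith
  · intro w hw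
    have h₁ := hC (a * w) (by rwa [hmul])
    rw [hmul] at h₁
    refine (norm_add_le _ _).trans ?_
    rw [norm_mul, norm_mul, Complex.norm_real, Complex.norm_real, Real.norm_of_nonneg (by linarith),
      Real.norm_of_nonneg hs0]
    have hs1' : 0 ≤ 1 - s := by linarith
    have hnn : 0 ≤ ‖M.c‖ * ‖w‖ := by positivity
    have hC1 : C ≤ |C| := le_abs_self C
    have hC2 : 0 ≤ |C| := abs_nonneg C
    have hz0 : 0 ≤ ‖z‖ := norm_nonneg z
    nlinarith [mul_le_mul_of_nonneg_left h₁ hs1']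

/-- The derivative of `Phi` at a value of `psi`. -/
theorem deriv_Phi_psi (M : ExtMap L) (hLc : IsClosed L) {u : ℂ} (hu : 1 < ‖u‖) :
    deriv M.Phi (M.psi u) * deriv M.psi u = 1 := by
  have hWopen : IsOpen {w : ℂ | 1 < ‖w‖} := isOpen_lt continuous_const continuous_norm
  have h1 : DifferentiableAt ℂ M.psi u := M.diff_psi.differentiableAt (hWopen.mem_nhds hu)
  have h2 : DifferentiableAt ℂ M.Phi (M.psi u) :=
    M.diff_Phi.differentiableAt (hLc.isOpen_compl.mem_nhds (M.maps_psi u hu))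
  have h3 : HasDerivAt (fun w => M.Phi (M.psi w)) (deriv M.Phi (M.psi u) * deriv M.psi u) u :=
    h2.hasDerivAt.comp u h1.hasDerivAt
  have h4 : (fun w => M.Phi (M.psi w)) =ᶠ[𝓝 u] id := by
    filter_upwards [hWopen.mem_nhds hu] with w hw
    exact M.left_inv w hw
  have h5 : HasDerivAt (fun w => M.Phi (M.psi w)) 1 u :=
    (hasDerivAt_id u).congr_of_eventuallyEq h4
  exact h3.unique h5

/-- The derivative test: if `|Phi|` does not increase from `p` in the direction of `q`, the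
directional derivative is nonpositive. -/
theorem deriv_test (M : ExtMap L) (hLc : IsClosed L) {p q : ℂ} (hp : p ∉ L)
    (hle : ∀ s : ℝ, 0 < s → s < 1 → ((1 - s : ℝ) : ℂ) * p + (s : ℂ) * q ∉ L →
      ‖M.Phi (((1 - s : ℝ) : ℂ) * p + (s : ℂ) * q)‖ ≤ ‖M.Phi p‖) :
    ((starRingEnd ℂ) (M.Phi p) * (deriv M.Phi p * (q - p))).re ≤ 0 := by
  have hdiff : DifferentiableAt ℂ M.Phi p :=
    M.diff_Phi.differentiableAt (hLc.isOpen_compl.mem_nhds hp)
  -- the line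
  set ℓ : ℝ → ℂ := fun s => ((1 - s : ℝ) : ℂ) * p + (s : ℂ) * q with hℓ
  have hℓ0 : ℓ 0 = p := by simp [hℓ]
  have hℓd : HasDerivAt ℓ (q - p) 0 := by
    have h2 : HasDerivAt (fun s : ℝ => (s : ℂ)) 1 0 := (hasDerivAt_id (0 : ℝ)).ofReal_comp
    have h3 : HasDerivAt (fun s : ℝ => p + (s : ℂ) * (q - p)) (1 * (q - p)) 0 :=
      (h2.mul_const (q - p)).const_add p
    have h4 : ℓ = fun s : ℝ => p + (s : ℂ) * (q - p) := by
      funext s
      simp only [hℓ]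
      push_cast
      ring
    rw [h4]
    simpa using h3
  have hT : HasDerivAt (fun s : ℝ => M.Phi (ℓ s)) (deriv M.Phi p * (q - p)) 0 := by
    have hh : HasDerivAt M.Phi (deriv M.Phi p) (ℓ 0) := by
      rw [hℓ0]
      exact hdiff.hasDerivAt
    have h := hh.scomp (0 : ℝ) hℓd
    have h' : (q - p) • deriv M.Phi p = deriv M.Phi p * (q - p) := by
      rw [smul_eq_mul, mul_comm]
    rw [h'] at h
    exact h
  have hf := hT.norm_sq
  have hf0 : (fun s : ℝ => ‖M.Phi (ℓ s)‖ ^ 2) 0 = ‖M.Phi p‖ ^ 2 := by simp [hℓ0]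
  have hcont : ContinuousAt ℓ 0 := hℓd.continuousAt
  have hev : ∀ᶠ s in 𝓝[>] (0 : ℝ), ℓ s ∉ L ∧ s < 1 ∧ 0 < s := by
    have h1 : ∀ᶠ s in 𝓝 (0 : ℝ), ℓ s ∈ Lᶜ := hcont.eventually_mem (by
      rw [hℓ0]
      exact hLc.isOpen_compl.mem_nhds hp)
    have h2 : ∀ᶠ s in 𝓝 (0 : ℝ), s < 1 := eventually_lt_nhds one_pos
    filter_upwards [nhdsWithin_le_nhds h1, nhdsWithin_le_nhds h2, self_mem_nhdsWithin] with s h1 h2 h3
    exact ⟨h1, h2, h3⟩
  have hslope := hf.tendsto_slope_zero_right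
  have hle0 : (2 * inner ℝ (M.Phi (ℓ 0)) (deriv M.Phi p * (q - p))) ≤ 0 := by
    refine le_of_tendsto hslope ?_
    filter_upwards [hev] with s hs
    rcases hs with ⟨h1, h2, h3⟩
    have hb := hle s h3 h2 h1
    have hsq : ‖M.Phi (ℓ s)‖ ^ 2 ≤ ‖M.Phi p‖ ^ 2 := by
      have := norm_nonneg (M.Phi (ℓ s))
      gcongr
    simp only [slope, vsub_eq_sub, zero_add, sub_zero, hℓ0, smul_eq_mul]
    have hs : 0 ≤ s⁻¹ := by positivity
    exact mul_nonpos_of_nonneg_of_nonpos hs (by linarith)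
  rw [hℓ0, Complex.inner] at hle0
  have heq : (starRingEnd ℂ) (M.Phi p) * (deriv M.Phi p * (q - p))
      = deriv M.Phi p * (q - p) * (starRingEnd ℂ) (M.Phi p) := mul_comm _ _
  rw [heq]
  linarith

/-- From the derivative test to the sign of the logarithmic derivative. -/
theorem re_quot_nonneg (M : ExtMap L) (hLc : IsClosed L) {u q : ℂ} (hu : 1 < ‖u‖)
    (hq : M.psi u ≠ q)
    (hle : ∀ s : ℝ, 0 < s → s < 1 → ((1 - s : ℝ) : ℂ) * M.psi u + (s : ℂ) * q ∉ L →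
      ‖M.Phi (((1 - s : ℝ) : ℂ) * M.psi u + (s : ℂ) * q)‖ ≤ ‖u‖) :
    0 ≤ (u * deriv M.psi u / (M.psi u - q)).re := by
  have hPhi : M.Phi (M.psi u) = u := M.left_inv u hu
  have h := deriv_test M hLc (M.maps_psi u hu) (q := q) (by
    intro s h0 h1 h2
    rw [hPhi]
    exact hle s h0 h1 h2)
  have hd := deriv_Phi_psi M hLc hu
  rw [hPhi] at h
  set d := deriv M.psi u with hddef
  set Dt := M.psi u - q with hDt
  have hDt0 : Dt ≠ 0 := sub_ne_zero.2 hq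
  have hd0 : d ≠ 0 := by
    intro h0
    rw [h0, mul_zero] at hd
    exact zero_ne_one hd
  have hu0 : u ≠ 0 := by
    intro h0
    rw [h0] at hu
    simp at hu
    linarith
  have hinv : deriv M.Phi (M.psi u) = d⁻¹ := eq_inv_of_mul_eq_one_left hd
  rw [hinv] at h
  have hqp : q - M.psi u = -Dt := by rw [hDt]; ring
  rw [hqp] at h
  set X := u * d / Dt with hX
  have hX0 : X ≠ 0 := div_ne_zero (mul_ne_zero hu0 hd0) hDt0
  have heq : (starRingEnd ℂ) u * (d⁻¹ * -Dt) = -((‖u‖ ^ 2 : ℝ) : ℂ) * X⁻¹ := by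
    have : ((‖u‖ ^ 2 : ℝ) : ℂ) = (starRingEnd ℂ) u * u := by
      rw [Complex.conj_mul']
      push_cast
      ring
    rw [this, hX]
    field_simp
  rw [heq] at h
  have hre : (-((‖u‖ ^ 2 : ℝ) : ℂ) * X⁻¹).re = -(‖u‖ ^ 2) * (X⁻¹).re := by
    rw [show (-((‖u‖ ^ 2 : ℝ) : ℂ)) = ((-(‖u‖ ^ 2) : ℝ) : ℂ) by push_cast; ring, Complex.re_ofReal_mul]
  rw [hre, Complex.inv_re] at h
  have hns : 0 < Complex.normSq X := Complex.normSq_pos.2 hX0
  have hu2 : 0 < ‖u‖ ^ 2 := by positivity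
  by_contra hneg
  have hneg := not_le.1 hneg
  have hdiv : X.re / Complex.normSq X < 0 := div_neg_of_neg_of_pos hneg hns
  nlinarith

/-- **Kernel positivity on every level**: the level curves of the exterior map of a convex set are
convex. -/
theorem kernel_nonneg (M : ExtMap L) (hLk : IsCompact L) (hLv : Convex ℝ L) (hLn : L.Nonempty)
    {u v : ℂ} (hu : 1 < ‖u‖) (huv : ‖v‖ = ‖u‖) (hne : u ≠ v) :
    0 ≤ (u * deriv M.psi u / (M.psi u - M.psi v)).re := by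
  have hu0 : (0 : ℝ) < ‖u‖ := by linarith
  have hinj : M.psi u ≠ M.psi v := by
    intro h
    apply hne
    rw [← M.left_inv u hu, ← M.left_inv v (by rwa [huv]), h]
  refine re_quot_nonneg M hLk.isClosed hu hinj ?_
  intro s h0 h1 hL
  have hw : 1 < ‖((‖u‖ : ℝ) : ℂ)‖ := by
    rw [Complex.norm_real, Real.norm_of_nonneg hu0.le]
    exact hu
  have hne0 : ((‖u‖ : ℝ) : ℂ) ≠ 0 := by
    exact_mod_cast hu0.ne'
  have ha : ‖u / ((‖u‖ : ℝ) : ℂ)‖ = 1 := by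
    rw [norm_div, Complex.norm_real, Real.norm_of_nonneg hu0.le, div_self hu0.ne']
  have hb : ‖v / ((‖u‖ : ℝ) : ℂ)‖ = 1 := by
    rw [norm_div, Complex.norm_real, Real.norm_of_nonneg hu0.le, huv, div_self hu0.ne']
  have hau : u / ((‖u‖ : ℝ) : ℂ) * ((‖u‖ : ℝ) : ℂ) = u := by field_simp
  have hbv : v / ((‖u‖ : ℝ) : ℂ) * ((‖u‖ : ℝ) : ℂ) = v := by field_simp
  have := phi_comb_rot M hLk hLv hLn ha hb h0.le h1.le hw (by rwa [hau, hbv])
  rw [hau, hbv, Complex.norm_real, Real.norm_of_nonneg hu0.le] at this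
  exact this

/-- **Star positivity**: the level curves of the exterior map wind monotonically around every point
of the convex set. -/
theorem star_nonneg (M : ExtMap L) (hLk : IsCompact L) (hLv : Convex ℝ L) (hLn : L.Nonempty)
    {u z : ℂ} (hu : 1 < ‖u‖) (hz : z ∈ L) :
    0 ≤ (u * deriv M.psi u / (M.psi u - z)).re := by
  have hu0 : (0 : ℝ) < ‖u‖ := by linarith
  have hne : M.psi u ≠ z := fun h => M.maps_psi u hu (h ▸ hz)
  refine re_quot_nonneg M hLk.isClosed hu hne ?_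
  intro s h0 h1 hL
  have hw : 1 < ‖((‖u‖ : ℝ) : ℂ)‖ := by
    rw [Complex.norm_real, Real.norm_of_nonneg hu0.le]
    exact hu
  have hne0 : ((‖u‖ : ℝ) : ℂ) ≠ 0 := by
    exact_mod_cast hu0.ne'
  have ha : ‖u / ((‖u‖ : ℝ) : ℂ)‖ = 1 := by
    rw [norm_div, Complex.norm_real, Real.norm_of_nonneg hu0.le, div_self hu0.ne']
  have hau : u / ((‖u‖ : ℝ) : ℂ) * ((‖u‖ : ℝ) : ℂ) = u := by field_simp
  have := phi_comb_pt M hLk hLv hLn ha hz h0.le h1.le hw (by rwa [hau])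
  rw [hau, Complex.norm_real, Real.norm_of_nonneg hu0.le] at this
  exact this

end ExtMap

end Vale.Agent.Lib.P123.Rmt
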