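import Vale.Agent.Lib.P123.Rmt.Av

/-!
# The conformal data on a closed disc and the Cauchy formula
-/

open Complex Metric Set Filter Topology ComplexConjugate
open scoped Real

namespace Vale.Agent.Lib.P123.Rmt

set_option linter.unusedSectionVars false

/-- The analytic data: `g` is univalent on a disc larger than the closed unit disc. -/
structure GMap (g : ℂ → ℂ) (R₀ : ℝ) : Prop where
  hR : 1 < R₀
  diff : DifferentiableOn ℂ g (ball 0 R₀)
  zero : g 0 = 0
  inj : InjOn g (ball 0 R₀)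
  der : ∀ v ∈ ball (0 : ℂ) R₀, deriv g v ≠ 0

/-- The starlike quotient `v g'(v) / g(v)`. -/
noncomputable def ss (g : ℂ → ℂ) : ℂ → ℂ := fun v => deriv g v / dslope g 0 v

/-- The exterior map. -/
noncomputable def psi (g : ℂ → ℂ) : ℂ → ℂ := fun v => (g v)⁻¹

namespace GMap

variable {g : ℂ → ℂ} {R₀ : ℝ} (G : GMap g R₀)
include G

lemma pos : 0 < R₀ := by linarith [G.hR]

lemma closed_sub : closedBall (0 : ℂ) 1 ⊆ ball 0 R₀ := closedBall_subset_ball G.hR

lemma sphere_sub : sphere (0 : ℂ) 1 ⊆ ball 0 R₀ := sphere_subset_closedBall.trans G.closed_sub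

lemma mem_of_sphere {v : ℂ} (hv : v ∈ sphere (0 : ℂ) 1) : v ∈ ball (0 : ℂ) R₀ := G.sphere_sub hv

lemma ne_zero_of_sphere {v : ℂ} (hv : v ∈ sphere (0 : ℂ) 1) : v ≠ 0 := by
  intro h
  subst h
  simp at hv

lemma g_eq (v : ℂ) : g v = v * dslope g 0 v := by
  have h := sub_smul_dslope g 0 v
  simpa [G.zero] using h.symm

lemma g1_diff : DifferentiableOn ℂ (dslope g 0) (ball 0 R₀) :=
  (Complex.differentiableOn_dslope (ball_mem_nhds _ G.pos)).2 G.diff

lemma g_ne {v : ℂ} (hv : v ∈ ball (0 : ℂ) R₀) (h0 : v ≠ 0) : g v ≠ 0 := by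
  intro h
  apply h0
  apply G.inj hv (mem_ball_self G.pos)
  rw [h, G.zero]

lemma g1_ne {v : ℂ} (hv : v ∈ ball (0 : ℂ) R₀) : dslope g 0 v ≠ 0 := by
  by_cases h0 : v = 0
  · subst h0
    rw [dslope_same]
    exact G.der 0 (mem_ball_self G.pos)
  · intro h
    apply G.g_ne hv h0
    rw [G.g_eq, h, mul_zero]

lemma ss_diff : DifferentiableOn ℂ (ss g) (ball 0 R₀) :=
  (G.diff.deriv isOpen_ball).div G.g1_diff fun _ hv => G.g1_ne hv

lemma ss_zero : ss g 0 = 1 := by
  unfold ss
  rw [dslope_same]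
  exact div_self (G.der 0 (mem_ball_self G.pos))

lemma ss_eq {v : ℂ} (hv : v ∈ ball (0 : ℂ) R₀) (h0 : v ≠ 0) :
    ss g v = v * deriv g v / g v := by
  unfold ss
  rw [G.g_eq v]
  have h1 := G.g1_ne hv
  field_simp

lemma diffAt {v : ℂ} (hv : v ∈ ball (0 : ℂ) R₀) : DifferentiableAt ℂ g v :=
  G.diff.differentiableAt (isOpen_ball.mem_nhds hv)

lemma ss_diffAt {v : ℂ} (hv : v ∈ ball (0 : ℂ) R₀) : DifferentiableAt ℂ (ss g) v :=
  G.ss_diff.differentiableAt (isOpen_ball.mem_nhds hv)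

lemma psi_cs : Cs (psi g) := by
  unfold Cs psi
  refine ContinuousOn.inv₀ ?_ fun v hv => G.g_ne (G.mem_of_sphere hv) (G.ne_zero_of_sphere hv)
  exact G.diff.continuousOn.mono G.sphere_sub

lemma ss_cs : Cs (ss g) := G.ss_diff.continuousOn.mono G.sphere_sub

/-- The derivative of `ψ` along the circle, integrated. -/
lemma av_ss_psi (m : ℕ) : Av (fun v => ss g v * (psi g v) ^ (m + 1)) = 0 := by
  have hcs : Cs (fun v => ss g v * (psi g v) ^ (m + 1)) :=
    ContinuousOn.mul G.ss_cs (ContinuousOn.pow G.psi_cs _)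
  set c : ℝ → ℂ := circleMap 0 1 with hc
  have hcm : ∀ θ, c θ ∈ sphere (0 : ℂ) 1 := fun θ => by
    simpa [hc] using circleMap_mem_sphere (0 : ℂ) (zero_le_one) θ
  set F : ℝ → ℂ := fun θ => (psi g (c θ)) ^ (m + 1) with hF
  set F' : ℝ → ℂ := fun θ => (-(I * ((m : ℂ) + 1))) * (ss g (c θ) * (psi g (c θ)) ^ (m + 1)) with hF'
  have hder : ∀ θ, HasDerivAt F (F' θ) θ := by
    intro θ
    have hv := G.mem_of_sphere (hcm θ)
    have h0 := G.ne_zero_of_sphere (hcm θ)
    have hgne := G.g_ne hv h0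
    have h1 : HasDerivAt (psi g) (-(deriv g (c θ)) / (g (c θ)) ^ 2) (c θ) :=
      (G.diffAt hv).hasDerivAt.inv hgne
    have h2 : HasDerivAt c (circleMap 0 1 θ * I) θ := hasDerivAt_circleMap 0 1 θ
    have h3 : HasDerivAt (fun θ => psi g (c θ)) ((circleMap 0 1 θ * I) • (-deriv g (c θ) / g (c θ) ^ 2)) θ :=
      h1.scomp θ h2
    have h4 := h3.fun_pow (m + 1)
    refine h4.congr_deriv ?_
    simp only [hF', smul_eq_mul]
    rw [G.ss_eq hv h0]
    have hcθ : circleMap 0 1 θ = c θ := rfl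
    rw [hcθ]
    unfold psi
    push_cast
    field_simp
    rw [pow_succ]
    field_simp
  have hint : IntervalIntegrable F' MeasureTheory.volume 0 (2 * π) := by
    apply Continuous.intervalIntegrable
    apply Continuous.mul continuous_const
    exact hcs.comp_continuous (continuous_circleMap 0 1) hcm
  have hftc := intervalIntegral.integral_eq_sub_of_hasDerivAt (a := 0) (b := 2 * π)
    (fun θ _ => hder θ) hint
  have hper : F (2 * π) = F 0 := by
    simp only [hF, hc]
    have : circleMap (0 : ℂ) 1 (2 * π) = circleMap 0 1 0 := by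
      have := periodic_circleMap (0 : ℂ) 1 0
      simpa using this
    rw [this]
  rw [hper, sub_self] at hftc
  have hmul : ∫ θ in (0 : ℝ)..2 * π, F' θ =
      (-(I * ((m : ℂ) + 1))) * ∫ θ in (0 : ℝ)..2 * π, (ss g (c θ) * (psi g (c θ)) ^ (m + 1)) := by
    simp only [hF']
    rw [intervalIntegral.integral_const_mul]
  rw [hftc] at hmul
  have hne : (-(I * ((m : ℂ) + 1))) ≠ 0 := by
    have h5 : ((m : ℂ) + 1) ≠ 0 := by exact_mod_cast Nat.succ_ne_zero m
    simp [I_ne_zero, h5]
  have hzero : ∫ θ in (0 : ℝ)..2 * π, (ss g (c θ) * (psi g (c θ)) ^ (m + 1)) = 0 := by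
    rcases mul_eq_zero.1 hmul.symm with h | h
    · exact absurd h hne
    · exact h
  unfold Av Real.circleAverage
  rw [hzero, smul_zero]

end GMap

section Cauchy

variable {E : Type*} [NormedRing E] [NormedAlgebra ℂ E] [CompleteSpace E]

/-- The resolvent kernel. -/
noncomputable def QQ (g : ℂ → ℂ) (A : E) : ℂ → E := fun v => ss g v • Ring.inverse (1 - g v • A)

variable {g : ℂ → ℂ} {R₀ : ℝ} (G : GMap g R₀) {A : E}
  (hU : ∀ v ∈ closedBall (0 : ℂ) 1, IsUnit (1 - g v • A))
include G hU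

lemma qq_diffAt {v : ℂ} (hv : v ∈ closedBall (0 : ℂ) 1) : DifferentiableAt ℂ (QQ g A) v := by
  have hb := G.closed_sub hv
  have h1 : DifferentiableAt ℂ (fun v => (1 : E) - g v • A) v :=
    (differentiableAt_const _).sub ((G.diffAt hb).smul_const A)
  have h2 : DifferentiableAt ℂ (Ring.inverse ∘ (fun v => (1 : E) - g v • A)) v :=
    (differentiableAt_inverse (𝕜 := ℂ) (hU v hv)).comp v h1
  exact (G.ss_diffAt hb).smul h2

lemma qq_diffCont : DiffContOnCl ℂ (QQ g A) (ball 0 1) := by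
  refine ⟨fun v hv => (qq_diffAt G hU (ball_subset_closedBall hv)).differentiableWithinAt, ?_⟩
  rw [closure_ball _ one_ne_zero]
  exact fun v hv => (qq_diffAt G hU hv).continuousAt.continuousWithinAt

lemma qq_cs : ContinuousOn (QQ g A) (sphere (0 : ℂ) 1) :=
  fun v hv => (qq_diffAt G hU (sphere_subset_closedBall hv)).continuousAt.continuousWithinAt

omit hU in
lemma qq_zero : QQ g A 0 = 1 := by
  unfold QQ
  rw [G.ss_zero, G.zero]
  simp

lemma qq_rec {v : ℂ} (hv : v ∈ sphere (0 : ℂ) 1) :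
    (psi g v) • QQ g A v = (ss g v * psi g v) • (1 : E) + A * QQ g A v := by
  have hc := sphere_subset_closedBall hv
  have hb := G.closed_sub hc
  have h0 := G.ne_zero_of_sphere hv
  have hgne := G.g_ne hb h0
  have hu := hU v hc
  set R := Ring.inverse ((1 : E) - g v • A) with hR
  have h1 : ((1 : E) - g v • A) * R = 1 := Ring.mul_inverse_cancel _ hu
  have h2 : R = 1 + g v • (A * R) := by
    have h3 : R - g v • (A * R) = 1 := by
      have h4 : ((1 : E) - g v • A) * R = R - g v • (A * R) := by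
        rw [sub_mul, one_mul, smul_mul_assoc]
      rw [← h4, h1]
    rw [← h3]
    abel
  have h5 : (psi g v) • R = (psi g v) • (1 : E) + A * R := by
    conv_lhs => rw [h2]
    rw [smul_add, smul_smul]
    unfold psi
    rw [inv_mul_cancel₀ hgne, one_smul]
  unfold QQ
  rw [← hR, smul_comm, h5, smul_add, smul_smul, mul_smul_comm]

lemma av_psi_pow_qq (m : ℕ) : Av (fun v => (psi g v) ^ m • QQ g A v) = A ^ m := by
  induction m with
  | zero =>
    simp only [pow_zero, one_smul]
    rw [av_mean (qq_diffCont G hU), qq_zero G]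
  | succ m ih =>
    have hcs : ∀ k : ℕ, ContinuousOn (fun v => (psi g v) ^ k • QQ g A v) (sphere (0 : ℂ) 1) :=
      fun k => ContinuousOn.smul (ContinuousOn.pow G.psi_cs _) (qq_cs G hU)
    have hss : Cs (fun v => ss g v * (psi g v) ^ (m + 1)) :=
      ContinuousOn.mul G.ss_cs (ContinuousOn.pow G.psi_cs _)
    have hpt : ∀ v ∈ sphere (0 : ℂ) 1, (psi g v) ^ (m + 1) • QQ g A v =
        (ss g v * (psi g v) ^ (m + 1)) • (1 : E) + A * ((psi g v) ^ m • QQ g A v) := by
      intro v hv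
      rw [pow_succ, mul_smul, qq_rec G hU hv, smul_add, smul_smul, mul_smul_comm]
      congr 2
      ring
    rw [av_congr hpt]
    have h1 : ContinuousOn (fun v => (ss g v * (psi g v) ^ (m + 1)) • (1 : E)) (sphere (0 : ℂ) 1) :=
      ContinuousOn.smul hss continuousOn_const
    have h2 : ContinuousOn (fun v => A * ((psi g v) ^ m • QQ g A v)) (sphere (0 : ℂ) 1) :=
      ContinuousOn.mul continuousOn_const (hcs m)
    rw [av_add h1 h2]
    have h3 : Av (fun v => (ss g v * (psi g v) ^ (m + 1)) • (1 : E)) =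
        Av (fun v => ss g v * (psi g v) ^ (m + 1)) • (1 : E) :=
      av_clm (((ContinuousLinearMap.toSpanSingleton ℂ (1 : E))).restrictScalars ℝ) hss
    have h4 : Av (fun v => A * ((psi g v) ^ m • QQ g A v)) =
        A * Av (fun v => (psi g v) ^ m • QQ g A v) :=
      av_clm ((ContinuousLinearMap.mul ℂ E A).restrictScalars ℝ) (hcs m)
    rw [h3, h4, ih, G.av_ss_psi m, zero_smul, zero_add, pow_succ']

/-- **Cauchy formula** for polynomials. -/
lemma av_eval_qq (p : Polynomial ℂ) :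
    Av (fun v => p.eval (psi g v) • QQ g A v) = Polynomial.aeval A p := by
  have hcs : ∀ k : ℕ, ContinuousOn (fun v => (psi g v) ^ k • QQ g A v) (sphere (0 : ℂ) 1) :=
    fun k => ContinuousOn.smul (ContinuousOn.pow G.psi_cs _) (qq_cs G hU)
  rw [Polynomial.aeval_eq_sum_range]
  have hpt : ∀ v, p.eval (psi g v) • QQ g A v =
      ∑ i ∈ Finset.range (p.natDegree + 1), p.coeff i • ((psi g v) ^ i • QQ g A v) := by
    intro v
    rw [Polynomial.eval_eq_sum_range, Finset.sum_smul]
    refine Finset.sum_congr rfl fun i _ => ?_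
    rw [mul_smul]
  simp_rw [hpt]
  rw [av_sum (Finset.range (p.natDegree + 1))
    (fun i v => p.coeff i • ((psi g v) ^ i • QQ g A v)) (fun i _ => ContinuousOn.const_smul (hcs i) _)]
  refine Finset.sum_congr rfl fun i _ => ?_
  rw [av_smul, av_psi_pow_qq G hU]

end Cauchy

end Vale.Agent.Lib.P123.Rmt
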